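import Crest.Agent.R350.Defs

/-!
# Row 350: the Gaussian expectation as a positive functional on polynomials
-/

set_option autoImplicit false

namespace Crest.Agent.R350

open Finset MvPolynomial

section gaussAux

open MeasureTheory ProbabilityTheory

/-- Moments of the centred Gaussian. -/
noncomputable def gaussMom (w : NNReal) (e : ℕ) : ℝ := ∫ x, x ^ e ∂(gaussianReal 0 w)

theorem gauss_integrable_pow (w : NNReal) (e : ℕ) :
    Integrable (fun x : ℝ => x ^ e) (gaussianReal 0 w) :=
  integrable_pow_of_mem_interior_integrableExpSet (X := fun x : ℝ => x) (by simp) e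

theorem gaussMom_eq (w : NNReal) (e : ℕ) :
    gaussMom w e = iteratedDeriv e (fun t : ℝ => Real.exp (w * t ^ 2 / 2)) 0 := by
  have h := iteratedDeriv_mgf_zero (X := fun x : ℝ => x) (μ := gaussianReal 0 w) (by simp) e
  rw [mgf_fun_id_gaussianReal] at h
  simp only [zero_mul, zero_add] at h
  rw [h]
  rfl

theorem gaussMom_zero (w : NNReal) : gaussMom w 0 = 1 := by simp [gaussMom]

theorem gaussMom_succ (w : NNReal) (e : ℕ) :
    gaussMom w (e + 1) = w * (e * gaussMom w (e - 1)) := by
  rw [gaussMom_eq, gaussMom_eq, iteratedDeriv_succ']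
  have hd : deriv (fun t : ℝ => Real.exp (w * t ^ 2 / 2))
      = fun t : ℝ => (fun a : ℝ => a) t * (w * Real.exp (w * t ^ 2 / 2)) := by
    funext t
    have h1 : HasDerivAt (fun t : ℝ => (w : ℝ) * t ^ 2 / 2) (w * t) t := by
      have := ((hasDerivAt_pow 2 t).const_mul (w : ℝ)).div_const 2
      refine this.congr_deriv ?_
      norm_num
      ring
    rw [h1.exp.deriv]
    ring
  rw [hd, iteratedDeriv_fun_mul (by fun_prop) (by fun_prop)]
  simp only [iteratedDeriv_fun_id_zero]
  rcases e with _ | e
  · simp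
  · rw [Finset.sum_eq_single 1]
    · rw [iteratedDeriv_const_mul_field]
      simp
      ring
    · intro b _ hb
      simp [hb]
    · intro h
      simp at h

theorem gauss_eval_monomial {V : Type} [Fintype V] [DecidableEq V] (s : V →₀ ℕ) (a : ℝ)
    (u : V → ℝ) : eval u (monomial s a) = a * ∏ i, u i ^ s i := by
  rw [eval_monomial, Finsupp.prod_fintype]
  intro i
  simp

theorem gauss_integrable_eval {V : Type} [Fintype V] [DecidableEq V] (w : NNReal)
    (p : MvPolynomial V ℝ) :
    Integrable (fun u : V → ℝ => eval u p) (Measure.pi fun _ : V => gaussianReal 0 w) := by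
  induction p using MvPolynomial.induction_on' with
  | monomial s a =>
    simp only [gauss_eval_monomial]
    exact (Integrable.fintype_prod (f := fun i (x : ℝ) => x ^ s i)
      fun i => gauss_integrable_pow w (s i)).const_mul a
  | add p q hp hq =>
    simp only [map_add]
    exact hp.add hq

/-- The Gaussian expectation of a polynomial. -/
noncomputable def gaussE (V : Type) [Fintype V] [DecidableEq V] (w : NNReal) :
    MvPolynomial V ℝ →ₗ[ℝ] ℝ where
  toFun p := ∫ u, eval u p ∂(Measure.pi fun _ : V => gaussianReal 0 w)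
  map_add' p q := by
    simp only [map_add]
    exact integral_add (gauss_integrable_eval w p) (gauss_integrable_eval w q)
  map_smul' c p := by
    simp only [smul_eval, RingHom.id_apply, smul_eq_mul]
    exact integral_const_mul _ _

theorem gaussE_monomial {V : Type} [Fintype V] [DecidableEq V] (w : NNReal) (s : V →₀ ℕ)
    (a : ℝ) : gaussE V w (monomial s a) = a * ∏ i, gaussMom w (s i) := by
  change ∫ u, eval u (monomial s a) ∂(Measure.pi fun _ : V => gaussianReal 0 w) = _
  simp only [gauss_eval_monomial]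
  rw [integral_const_mul, integral_fintype_prod_eq_prod (fun i (x : ℝ) => x ^ s i)]
  rfl

theorem gaussE_stein {V : Type} [Fintype V] [DecidableEq V] (w : NNReal) (i : V)
    (p : MvPolynomial V ℝ) : gaussE V w (X i * p) = w * gaussE V w (pderiv i p) := by
  induction p using MvPolynomial.induction_on' with
  | monomial s a =>
    have h1 : (X i : MvPolynomial V ℝ) * monomial s a = monomial (Finsupp.single i 1 + s) a := by
      rw [monomial_single_add, pow_one]
    rw [h1, pderiv_monomial, gaussE_monomial, gaussE_monomial,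
      ← Finset.mul_prod_erase _ _ (Finset.mem_univ i),
      ← Finset.mul_prod_erase _ _ (Finset.mem_univ i)]
    have h2 : ∏ j ∈ Finset.univ.erase i, gaussMom w ((Finsupp.single i 1 + s : V →₀ ℕ) j)
        = ∏ j ∈ Finset.univ.erase i, gaussMom w ((s - Finsupp.single i 1 : V →₀ ℕ) j) := by
      refine Finset.prod_congr rfl fun j hj => ?_
      have hj' : j ≠ i := Finset.ne_of_mem_erase hj
      simp [hj'.symm]
    rw [h2]
    simp only [Finsupp.coe_add, Pi.add_apply, Finsupp.single_eq_same, Finsupp.coe_tsub,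
      Pi.sub_apply]
    rw [add_comm 1 (s i), gaussMom_succ]
    ring
  | add p q hp hq =>
    rw [mul_add, map_add, map_add, map_add, hp, hq]
    ring

end gaussAux

/-- Expectation of polynomials in independent centred Gaussians of variance `v`. -/
theorem exists_gauss (V : Type) [Fintype V] [DecidableEq V] (v : ℝ) (hv : 0 ≤ v) :
    ∃ E : MvPolynomial V ℝ →ₗ[ℝ] ℝ, E 1 = 1 ∧ (∀ i p, E (X i * p) = v * E (pderiv i p)) ∧
      ∀ p, (∀ u : V → ℝ, 0 ≤ eval u p) → 0 ≤ E p := by
  refine ⟨gaussE V v.toNNReal, ?_, ?_, ?_⟩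
  · have : (1 : MvPolynomial V ℝ) = monomial 0 1 := rfl
    rw [this, gaussE_monomial]
    simp [gaussMom_zero]
  · intro i p
    rw [gaussE_stein, Real.coe_toNNReal v hv]
  · intro p hp
    exact MeasureTheory.integral_nonneg hp

/-- Even moments determined by Stein's recursion. -/
noncomputable def steinMom (v : ℝ) : ℕ → ℝ
  | 0 => 1
  | p + 1 => v * (2 * p + 1) * steinMom v p

theorem steinMom_nonneg {v : ℝ} (hv : 0 ≤ v) (p : ℕ) : 0 ≤ steinMom v p := by
  induction p with
  | zero => simp [steinMom]
  | succ p ih => simp only [steinMom]; positivity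

theorem steinMom_le {v : ℝ} (hv : 0 ≤ v) (p : ℕ) : steinMom v p ≤ (2 * p * v) ^ p := by
  induction p with
  | zero => simp [steinMom]
  | succ p ih =>
    simp only [steinMom]
    have h1 : (2 * (p : ℝ) * v) ^ p ≤ (2 * ((p + 1 : ℕ) : ℝ) * v) ^ p := by
      push_cast
      gcongr
      linarith
    calc v * (2 * p + 1) * steinMom v p ≤ v * (2 * p + 1) * (2 * ((p + 1 : ℕ) : ℝ) * v) ^ p := by
          gcongr
          exact ih.trans h1
      _ ≤ (2 * ((p + 1 : ℕ) : ℝ) * v) * (2 * ((p + 1 : ℕ) : ℝ) * v) ^ p := by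
          gcongr ?_ * _
          push_cast
          nlinarith
      _ = _ := by ring

theorem stein_pow_mul {R : Type} [CommRing R] [Algebra ℝ R] (E : R →ₗ[ℝ] ℝ) (v : ℝ) (y : R)
    (d : Derivation ℝ R R) (hS : ∀ p, E (y * p) = v * E (d p)) (hd : d y = 1) (G : R)
    (hG : d G = 0) (p : ℕ) : E (y ^ (2 * p) * G) = steinMom v p * E G := by
  induction p with
  | zero => simp [steinMom]
  | succ p ih =>
    have h1 : y ^ (2 * (p + 1)) * G = y * (y ^ (2 * p + 1) * G) := by ring
    have h2 : d (y ^ (2 * p + 1) * G) = ((2 * p + 1 : ℕ) : ℝ) • (y ^ (2 * p) * G) := by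
      rw [Derivation.leibniz, hG, Derivation.leibniz_pow, hd]
      simp only [Nat.add_sub_cancel, smul_eq_mul, mul_one, nsmul_eq_mul,
        Nat.cast_smul_eq_nsmul]
      ring
    rw [h1, hS, h2, map_smul, ih]
    simp only [steinMom, smul_eq_mul]
    push_cast
    ring

theorem stein_deriv_prod {R V : Type} [CommRing R] [Algebra ℝ R] [DecidableEq V]
    (d : Derivation ℝ R R) (f : V → R) (s : Finset V) (h : ∀ j ∈ s, d (f j) = 0) :
    d (∏ j ∈ s, f j) = 0 := by
  induction s using Finset.induction_on with
  | empty => simp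
  | insert a s ha ih =>
    rw [Finset.prod_insert ha, Derivation.leibniz, h a (Finset.mem_insert_self _ _),
      ih fun j hj => h j (Finset.mem_insert_of_mem hj)]
    simp

/-- For any family `Y` with dual derivations satisfying Stein's identity, the `Y i` behave like
independent Gaussians. -/
theorem stein_prod {R V : Type} [CommRing R] [Algebra ℝ R] [Fintype V] [DecidableEq V]
    (E : R →ₗ[ℝ] ℝ) (hE : E 1 = 1) (v : ℝ) (hv : 0 ≤ v) (Y : V → R) (D : V → Derivation ℝ R R)
    (hS : ∀ i p, E (Y i * p) = v * E (D i p))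
    (hD : ∀ i j, D i (Y j) = if i = j then 1 else 0) (p : ℕ) :
    E (∏ i, (1 + (2 * Y i) ^ (2 * p))) ≤ (1 + (8 * p * v) ^ p) ^ Fintype.card V := by
  have key : ∀ s : Finset V, E (∏ i ∈ s, (1 + (2 * Y i) ^ (2 * p)))
      = (1 + 4 ^ p * steinMom v p) ^ s.card := by
    intro s
    induction s using Finset.induction_on with
    | empty => simp [hE]
    | insert a s ha ih =>
      rw [Finset.prod_insert ha, Finset.card_insert_of_notMem ha]
      have hG : D a (∏ i ∈ s, (1 + (2 * Y i) ^ (2 * p))) = 0 := by
        refine stein_deriv_prod _ _ _ fun j hj => ?_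
        have hne : a ≠ j := fun h => ha (h ▸ hj)
        have h0 : D a (Y j) = 0 := by rw [hD, if_neg hne]
        have h2 : D a (2 * Y j) = 0 := by rw [two_mul, map_add, h0, add_zero]
        rw [map_add, Derivation.leibniz_pow, h2]
        simp
      have h3 : (1 + (2 * Y a) ^ (2 * p)) * ∏ i ∈ s, (1 + (2 * Y i) ^ (2 * p))
          = ∏ i ∈ s, (1 + (2 * Y i) ^ (2 * p))
            + ((4 : ℝ) ^ p) • (Y a ^ (2 * p) * ∏ i ∈ s, (1 + (2 * Y i) ^ (2 * p))) := by
        rw [Algebra.smul_def, map_pow, map_ofNat, mul_pow, pow_mul (2 : R)]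
        norm_num
        ring
      rw [h3, map_add, map_smul,
        stein_pow_mul E v (Y a) (D a) (hS a) (by rw [hD, if_pos rfl]) _ hG, ih]
      simp only [smul_eq_mul]
      ring
  rw [key, Finset.card_univ]
  have h0 := steinMom_nonneg hv p
  gcongr
  calc 4 ^ p * steinMom v p ≤ 4 ^ p * (2 * p * v) ^ p := by
        gcongr
        exact steinMom_le hv p
    _ = (8 * p * v) ^ p := by
        rw [← mul_pow]
        ring

end Crest.Agent.R350
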