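import Crest.Agent.R350.Defs

/-!
# Row 350: finite product distributions
-/

set_option autoImplicit false

namespace Crest.Agent.R350

open Finset

theorem TreeFn.mono {W : Type} {D D' : ℕ} {f : (W → Bool) → ℝ} (h : TreeFn D f) (hD : D ≤ D') :
    TreeFn D' f := by
  induction h generalizing D' with
  | const D c hc => exact TreeFn.const D' c hc
  | node w _ _ ih₀ ih₁ =>
    obtain ⟨D'', rfl⟩ : ∃ D'', D' = D'' + 1 := ⟨D' - 1, by omega⟩
    exact TreeFn.node w (ih₀ (by omega)) (ih₁ (by omega))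

theorem TreeFn.abs_le {W : Type} {D : ℕ} {f : (W → Bool) → ℝ} (h : TreeFn D f) (x : W → Bool) :
    |f x| ≤ 1 := by
  induction h with
  | const D c hc => exact hc
  | node w _ _ ih₀ ih₁ =>
    dsimp only
    split_ifs
    · exact ih₁
    · exact ih₀

/-- Substituting constants and variables for the variables. -/
theorem TreeFn.subst {W W' : Type} {D : ℕ} {f : (W → Bool) → ℝ} (h : TreeFn D f)
    (σ : W → Bool ⊕ W') : TreeFn D fun y : W' → Bool => f fun w => (σ w).elim id y := by
  induction h with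
  | const D c hc => exact TreeFn.const D c hc
  | node w _ _ ih₀ ih₁ =>
    rcases hw : σ w with b | w'
    · cases b
      · simpa [hw] using ih₀.mono (Nat.le_succ _)
      · simpa [hw] using ih₁.mono (Nat.le_succ _)
    · simpa [hw] using TreeFn.node w' ih₀ ih₁

variable {J Ω : Type} [Fintype J] [DecidableEq J] [Fintype Ω]

theorem pi_isProb (μ : J → Ω → ℝ) (h : ∀ j, IsProb (μ j)) :
    IsProb fun ω : J → Ω => ∏ j, μ j (ω j) := by
  refine ⟨fun ω => Finset.prod_nonneg fun j _ => (h j).1 _, ?_⟩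
  rw [← Fintype.piFinset_univ, ← Finset.prod_univ_sum]
  simp [fun j => (h j).2]

omit [Fintype Ω] in
theorem pr_prod_update (μ : J → Ω → ℝ) (b : J) (ρ : Ω → ℝ) (ω : J → Ω) (o : Ω) :
    (∏ j, Function.update μ b ρ j (Function.update ω b o j)) * μ b (ω b) =
      (∏ j, μ j (ω j)) * ρ o := by
  rw [← Finset.mul_prod_erase _ _ (Finset.mem_univ b), ← Finset.mul_prod_erase _ _ (Finset.mem_univ b)]
  have : ∏ j ∈ univ.erase b, Function.update μ b ρ j (Function.update ω b o j) =
      ∏ j ∈ univ.erase b, μ j (ω j) := by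
    refine Finset.prod_congr rfl fun j hj => ?_
    have hj' : j ≠ b := (Finset.mem_erase.1 hj).1
    rw [Function.update_of_ne hj', Function.update_of_ne hj']
  rw [this, Function.update_self, Function.update_self]
  ring

/-- Resampling one coordinate from another distribution. -/
theorem pr_pi_update (μ : J → Ω → ℝ) (b : J) (hb : ∑ o, μ b o = 1) (ρ : Ω → ℝ)
    (g : (J → Ω) → ℝ) :
    ∑ ω : J → Ω, (∏ j, Function.update μ b ρ j (ω j)) * g ω =
      ∑ ω : J → Ω, (∏ j, μ j (ω j)) * ∑ o, ρ o * g (Function.update ω b o) := by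
  let φ : (J → Ω) × Ω → (J → Ω) × Ω := fun q => (Function.update q.1 b q.2, q.1 b)
  have hφ : Function.Involutive φ := by
    rintro ⟨ω, o⟩
    simp [φ]
  calc ∑ ω : J → Ω, (∏ j, Function.update μ b ρ j (ω j)) * g ω
      = ∑ q : (J → Ω) × Ω, (∏ j, Function.update μ b ρ j (q.1 j)) * μ b q.2 * g q.1 := by
        rw [Fintype.sum_prod_type]
        refine Finset.sum_congr rfl fun ω _ => ?_
        simp only
        rw [← Finset.sum_mul, ← Finset.mul_sum, hb, mul_one]
    _ = ∑ q : (J → Ω) × Ω,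
          (∏ j, Function.update μ b ρ j ((φ q).1 j)) * μ b (φ q).2 * g (φ q).1 :=
        (Equiv.sum_comp hφ.toPerm fun q : (J → Ω) × Ω =>
          (∏ j, Function.update μ b ρ j (q.1 j)) * μ b q.2 * g q.1).symm
    _ = _ := by
        rw [Fintype.sum_prod_type]
        refine Finset.sum_congr rfl fun ω _ => ?_
        rw [Finset.mul_sum]
        refine Finset.sum_congr rfl fun o _ => ?_
        simp only [φ]
        rw [pr_prod_update, mul_assoc]

/-- Resampling one coordinate. -/
theorem pi_update (μ : J → Ω → ℝ) (h : ∀ j, IsProb (μ j)) (b : J) (g : (J → Ω) → ℝ) :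
    ∑ ω : J → Ω, (∏ j, μ j (ω j)) * g ω =
      ∑ ω : J → Ω, (∏ j, μ j (ω j)) * ∑ o, μ b o * g (Function.update ω b o) := by
  rw [← pr_pi_update μ b (h b).2, Function.update_eq_self]

theorem pr_sq_expand (ρ u : Ω → ℝ) (R : ℝ) :
    ∑ o, ρ o * (u o + R) ^ 2 =
      ∑ o, ρ o * u o ^ 2 + 2 * R * ∑ o, ρ o * u o + R ^ 2 * ∑ o, ρ o := by
  rw [Finset.mul_sum, Finset.mul_sum, ← Finset.sum_add_distrib, ← Finset.sum_add_distrib]
  exact Finset.sum_congr rfl fun o _ => by ring

theorem pr_var {K : Type} [DecidableEq K] (μ : J → Ω → ℝ) (h : ∀ j, IsProb (μ j)) (e : K → J)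
    (he : Function.Injective e) (u : K → Ω → ℝ) (hu : ∀ k, ∑ o, μ (e k) o * u k o = 0)
    (hu2 : ∀ k, ∑ o, μ (e k) o * u k o ^ 2 ≤ 1) (s : Finset K) :
    ∑ ω : J → Ω, (∏ j, μ j (ω j)) * (∑ k ∈ s, u k (ω (e k))) ^ 2 ≤ s.card := by
  induction s using Finset.induction_on with
  | empty => simp
  | insert k s hk ih =>
    rw [pi_update μ h (e k), Finset.card_insert_of_notMem hk]
    have h1 : ∀ ω : J → Ω, ∑ o, μ (e k) o *
        (∑ k' ∈ insert k s, u k' (Function.update ω (e k) o (e k'))) ^ 2 ≤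
          1 + (∑ k' ∈ s, u k' (ω (e k'))) ^ 2 := by
      intro ω
      have h2 : ∀ o, ∑ k' ∈ insert k s, u k' (Function.update ω (e k) o (e k')) =
          u k o + ∑ k' ∈ s, u k' (ω (e k')) := by
        intro o
        rw [Finset.sum_insert hk, Function.update_self]
        congr 1
        refine Finset.sum_congr rfl fun k' hk' => ?_
        rw [Function.update_of_ne fun hh => hk (by rw [← he hh]; exact hk')]
      simp_rw [h2]
      rw [pr_sq_expand, hu, (h _).2]
      linarith [hu2 k]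
    have hP := pi_isProb μ h
    calc _ ≤ ∑ ω : J → Ω, (∏ j, μ j (ω j)) * (1 + (∑ k' ∈ s, u k' (ω (e k'))) ^ 2) :=
          Finset.sum_le_sum fun ω _ => mul_le_mul_of_nonneg_left (h1 ω) (hP.1 ω)
      _ = 1 + ∑ ω : J → Ω, (∏ j, μ j (ω j)) * (∑ k' ∈ s, u k' (ω (e k'))) ^ 2 := by
          simp_rw [mul_add, mul_one]
          rw [Finset.sum_add_distrib, hP.2]
      _ ≤ _ := by push_cast; linarith

theorem pr_sg_sq (b : Bool) : sg b ^ 2 = 1 := by cases b <;> simp [sg]

/-- Chebyshev's inequality for each row, and a union bound over the rows. -/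
theorem pi_rows {L T : ℕ} (hT : 0 < T) (μ : Fin L × Fin T → Ω → ℝ) (h : ∀ j, IsProb (μ j))
    (g : Ω → ℝ) (hg : ∀ o, |g o| ≤ 1) (a : Fin L → Bool) (m m' : ℝ) (hm : m' < m)
    (hE : ∀ l, T * m ≤ sg (a l) * ∑ τ, ∑ o, μ (l, τ) o * g o) :
    (∑ ω : Fin L × Fin T → Ω,
      if ∃ l, sg (a l) * ∑ τ, g (ω (l, τ)) ≤ T * m' then ∏ j, μ j (ω j) else 0) ≤
      L / (T * (m - m') ^ 2) := by
  have hP := pi_isProb μ h
  have hT' : (0 : ℝ) < T := by exact_mod_cast hT
  have hd : 0 < m - m' := by linarith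
  set E : Fin L × Fin T → ℝ := fun j => ∑ o, μ j o * g o with hEdef
  have hvar : ∀ l : Fin L, ∑ ω : Fin L × Fin T → Ω,
      (∏ j, μ j (ω j)) * (∑ τ, (g (ω (l, τ)) - E (l, τ))) ^ 2 ≤ T := by
    intro l
    have := pr_var μ h (fun τ : Fin T => (l, τ)) (fun _ _ hh => (Prod.mk.inj hh).2)
      (fun τ o => g o - E (l, τ)) (fun τ => by
        simp_rw [mul_sub]
        rw [Finset.sum_sub_distrib, ← Finset.sum_mul, (h _).2]
        simp [hEdef]) (fun τ => by
        have h3 := pr_sq_expand (μ (l, τ)) g (-E (l, τ))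
        simp only [← sub_eq_add_neg] at h3
        have h4 : ∑ o, μ (l, τ) o * g o ^ 2 ≤ ∑ o, μ (l, τ) o := by
          refine Finset.sum_le_sum fun o _ => ?_
          have : g o ^ 2 ≤ 1 := by
            rw [← sq_abs]; nlinarith [hg o, abs_nonneg (g o)]
          nlinarith [(h (l, τ)).1 o]
        rw [h3, (h _).2]
        rw [(h _).2] at h4
        have h5 : ∑ o, μ (l, τ) o * g o = E (l, τ) := rfl
        rw [h5]
        nlinarith [sq_nonneg (E (l, τ))]) Finset.univ
    simpa using this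
  have hc : 0 < (T * (m - m')) ^ 2 := by positivity
  calc _ ≤ ∑ ω : Fin L × Fin T → Ω, ∑ l : Fin L,
          (∏ j, μ j (ω j)) * (∑ τ, (g (ω (l, τ)) - E (l, τ))) ^ 2 / (T * (m - m')) ^ 2 := by
        refine Finset.sum_le_sum fun ω _ => ?_
        have hnn : ∀ l ∈ (Finset.univ : Finset (Fin L)), 0 ≤
            (∏ j, μ j (ω j)) * (∑ τ, (g (ω (l, τ)) - E (l, τ))) ^ 2 / (T * (m - m')) ^ 2 :=
          fun l _ => div_nonneg (mul_nonneg (hP.1 ω) (sq_nonneg _)) hc.le
        split_ifs with hex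
        · obtain ⟨l, hl⟩ := hex
          refine le_trans ?_ (Finset.single_le_sum hnn (Finset.mem_univ l))
          rw [le_div_iff₀ hc]
          refine mul_le_mul_of_nonneg_left ?_ (hP.1 ω)
          have h1 := hE l
          have h2 : T * (m - m') ≤ -(sg (a l) * ∑ τ, (g (ω (l, τ)) - E (l, τ))) := by
            rw [Finset.sum_sub_distrib]
            have : ∑ τ, ∑ o, μ (l, τ) o * g o = ∑ τ, E (l, τ) := rfl
            rw [this] at h1
            nlinarith
          have h3 : (∑ τ, (g (ω (l, τ)) - E (l, τ))) ^ 2 =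
              (-(sg (a l) * ∑ τ, (g (ω (l, τ)) - E (l, τ)))) ^ 2 := by
            rw [neg_sq, mul_pow, pr_sg_sq, one_mul]
          rw [h3]
          exact pow_le_pow_left₀ (by positivity) h2 2
        · exact Finset.sum_nonneg hnn
    _ ≤ ∑ _l : Fin L, (T : ℝ) / (T * (m - m')) ^ 2 := by
        rw [Finset.sum_comm]
        refine Finset.sum_le_sum fun l _ => ?_
        rw [← Finset.sum_div]
        exact div_le_div_of_nonneg_right (hvar l) hc.le
    _ = _ := by
        simp only [Finset.sum_const, Finset.card_univ, Fintype.card_fin, nsmul_eq_mul]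
        field_simp

/-- Hybrid argument. -/
theorem pi_hybrid {W : Type} [Fintype W] [DecidableEq W] (μ ν : J → (W → Bool) → ℝ)
    (hμ : ∀ j, IsProb (μ j)) (hν : ∀ j, IsProb (ν j)) (D : ℕ) (ε : ℝ)
    (h : ∀ j f, TreeFn D f → |∑ z, μ j z * f z - ∑ z, ν j z * f z| ≤ ε)
    (f : (J × W → Bool) → ℝ) (hf : TreeFn D f) :
    |∑ y : J × W → Bool, (∏ j, μ j fun w => y (j, w)) * f y -
      ∑ y : J × W → Bool, (∏ j, ν j fun w => y (j, w)) * f y| ≤ Fintype.card J * ε := by
  have hcur : ∀ κ : J → (W → Bool) → ℝ,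
      ∑ y : J × W → Bool, (∏ j, κ j fun w => y (j, w)) * f y =
        ∑ ω : J → W → Bool, (∏ j, κ j (ω j)) * f (fun q => ω q.1 q.2) := fun κ =>
    (Equiv.sum_comp (Equiv.curry J W Bool).symm
      fun y : J × W → Bool => (∏ j, κ j fun w => y (j, w)) * f y).symm
  rw [hcur, hcur]
  have key : ∀ s : Finset J,
      |∑ ω : J → W → Bool, (∏ j, s.piecewise μ ν j (ω j)) * f (fun q => ω q.1 q.2) -
        ∑ ω : J → W → Bool, (∏ j, ν j (ω j)) * f (fun q => ω q.1 q.2)| ≤ s.card * ε := by
    intro s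
    induction s using Finset.induction_on with
    | empty => simp
    | insert b s hb ih =>
      have hpr : ∀ j, IsProb (s.piecewise μ ν j) := by
        intro j
        by_cases hj : j ∈ s
        · rw [Finset.piecewise_eq_of_mem _ _ _ hj]; exact hμ j
        · rw [Finset.piecewise_eq_of_notMem _ _ _ hj]; exact hν j
      have hP := pi_isProb _ hpr
      have hstep : |∑ ω : J → W → Bool,
          (∏ j, (insert b s).piecewise μ ν j (ω j)) * f (fun q => ω q.1 q.2) -
          ∑ ω : J → W → Bool, (∏ j, s.piecewise μ ν j (ω j)) * f (fun q => ω q.1 q.2)| ≤ ε := by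
        rw [Finset.piecewise_insert, pr_pi_update _ b (hpr b).2,
          pi_update _ hpr b (fun ω => f fun q => ω q.1 q.2),
          Finset.piecewise_eq_of_notMem _ _ _ hb, ← Finset.sum_sub_distrib]
        refine (Finset.abs_sum_le_sum_abs _ _).trans ?_
        calc _ ≤ ∑ ω : J → W → Bool, (∏ j, s.piecewise μ ν j (ω j)) * ε := by
              refine Finset.sum_le_sum fun ω _ => ?_
              rw [← mul_sub, abs_mul, abs_of_nonneg (hP.1 ω)]
              refine mul_le_mul_of_nonneg_left (h b _ ?_) (hP.1 ω)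
              have := hf.subst (W' := W)
                (fun q => if q.1 = b then Sum.inr q.2 else Sum.inl (ω q.1 q.2))
              convert this using 3 with z
              funext q
              by_cases hq : q.1 = b
              · simp [hq]
              · simp [hq]
          _ = ε := by rw [← Finset.sum_mul, hP.2, one_mul]
      rw [Finset.card_insert_of_notMem hb]
      push_cast
      have := abs_sub_le (∑ ω : J → W → Bool,
          (∏ j, (insert b s).piecewise μ ν j (ω j)) * f (fun q => ω q.1 q.2))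
        (∑ ω : J → W → Bool, (∏ j, s.piecewise μ ν j (ω j)) * f (fun q => ω q.1 q.2))
        (∑ ω : J → W → Bool, (∏ j, ν j (ω j)) * f (fun q => ω q.1 q.2))
      linarith
  simpa using key Finset.univ

end Crest.Agent.R350
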