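import Crest.Agent.R350.CoreB
import Crest.Agent.R350.Prob

/-!
# Row 350: hard distributions for `(k+1)`-fold Forrelation
-/

set_option autoImplicit false

namespace Crest.Agent.R350

open Finset Filter MvPolynomial

theorem abs_E_le {V : Type} (E : MvPolynomial V ℝ →ₗ[ℝ] ℝ) (hE : E 1 = 1)
    (hpos : ∀ p, (∀ u : V → ℝ, 0 ≤ eval u p) → 0 ≤ E p) (G W : MvPolynomial V ℝ) (c₁ c₂ : ℝ)
    (h : ∀ u, |eval u G| ≤ c₁ + c₂ * (eval u W - 1)) : |E G| ≤ c₁ + c₂ * (E W - 1) := by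
  have h1 := hpos (c₁ • 1 + c₂ • (W - 1) - G) fun u => by
    have := (abs_le.1 (h u)).2
    simp only [map_sub, map_add, smul_eval, map_one]
    linarith
  have h2 := hpos (c₁ • 1 + c₂ • (W - 1) + G) fun u => by
    have := (abs_le.1 (h u)).1
    simp only [map_sub, map_add, smul_eval, map_one]
    linarith
  simp only [map_sub, map_add, map_smul, hE, smul_eq_mul] at h1 h2
  rw [abs_le]; constructor <;> linarith

theorem core_aux (k n p : ℕ) (hk : 1 ≤ k) (hp : 1 ≤ p) (v τ : ℝ) (hv : 0 ≤ v) (hv1 : v ≤ 1)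
    (hτ : (1 + (8 * p * v) ^ p) ^ (k * 2 ^ n) ≤ 1 + τ) :
    ∃ μ : Bool → (FW n k → Bool) → ℝ, (∀ s, IsProb (μ s)) ∧
      (∀ s, v ^ k - 2 * τ ≤ sg s * ∑ y, μ s y * forr y) ∧
      ∀ f : (FW n k → Bool) → ℝ, (∀ x, |f x| ≤ 1) → ∀ Bd : ℝ,
        (∀ z : FW n k → ℝ, (∀ w, |z w| ≤ 1 / 2) →
          ∑ S ∈ powersetCard (k + 1) (univ : Finset (FW n k)), |Q z f S| ≤ Bd) →
        |∑ y, μ true y * f y - ∑ y, μ false y * f y| ≤
          2 * ((1 / rt n) ^ k * ((k + 1).factorial *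
            (Bd + (((k + 1) * 2 ^ n : ℕ) : ℝ) ^ (k + 1) * (3 * τ)))) + 4 * τ := by
  obtain ⟨E, hE, hS, hpos⟩ := exists_gauss (Fin k × I n) v hv
  have hW : E (gW n k p) ≤ 1 + τ := (E_gW_le E hE v hv hS p).trans hτ
  have hsg : ∀ s, |sg s| ≤ 1 := fun s => by cases s <;> simp [sg]
  have key : ∀ s : Bool, ∃ μ : (FW n k → Bool) → ℝ, IsProb μ ∧
      ∀ f : (FW n k → Bool) → ℝ, (∀ x, |f x| ≤ 1) →
        |∑ x, μ x * f x - E (Q (gZ n k (sg s)) f ∅)| ≤ 2 * τ := by
    intro s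
    obtain ⟨m, hm⟩ := E_Q_eq E (gZ n k (sg s))
    have h1 : ∑ x, m x = 1 := by
      have := hm fun x => ∏ w ∈ (∅ : Finset (FW n k)), sg (x w)
      rw [Q_char] at this
      simpa [hE] using this.symm
    have h2 : ∑ x, |m x| ≤ 1 + τ := by
      have e : ∑ x, |m x| = ∑ x, m x * (if 0 ≤ m x then 1 else -1) :=
        Finset.sum_congr rfl fun x _ => by
          split_ifs with h
          · rw [abs_of_nonneg h, mul_one]
          · rw [abs_of_neg (not_le.1 h)]; ring
      rw [e, ← hm]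
      refine (le_abs_self _).trans ((abs_E_le E hE hpos _ (gW n k p) 1 1 fun u => ?_).trans
        (by linarith))
      rw [eval_Q]
      refine (Q_abs_le _ _ (fun x => by split_ifs <;> simp) _).trans ?_
      have := prod_max_le_gW hp (hsg s) u
      linarith
    obtain ⟨μ, hμ, hμ'⟩ := signed_to_prob m τ h1 h2
    exact ⟨μ, hμ, fun f hf => by rw [hm]; exact hμ' f hf⟩
  choose μ hμ hμ' using key
  refine ⟨μ, hμ, fun s => ?_, fun f hf Bd hBd => ?_⟩
  · have := hμ' s forr abs_forr_le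
    rw [E_Q_forr E hE v hS, abs_le] at this
    cases s
    · simp only [sg, Bool.false_eq_true, if_false, one_mul] at this ⊢; linarith
    · simp only [sg, if_true] at this ⊢; linarith
  · have hBd0 : 0 ≤ Bd :=
      (Finset.sum_nonneg fun _ _ => abs_nonneg _).trans (hBd 0 fun w => by simp)
    set c : ℝ := (1 / rt n) ^ k * (k + 1).factorial with hc
    have hc0 : 0 ≤ c := by have := rt_pos n; positivity
    set M : ℝ := (((k + 1) * 2 ^ n : ℕ) : ℝ) ^ (k + 1) with hM
    have hM0 : 0 ≤ M := by positivity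
    have hder : ∀ t : ℝ, ∃ d : ℝ, HasDerivAt (fun s : ℝ => E (Q (gZ n k s) f ∅)) d t ∧
        (|t| ≤ 1 → |d| ≤ c * (Bd + M * (3 * τ))) := by
      intro t
      obtain ⟨G, hG1, hG2⟩ := psi_deriv E v hS t f
      refine ⟨_, hG1, fun ht => ?_⟩
      have h1 := abs_E_le E hE hpos G (gW n k p) (c * Bd) (c * (M * 3)) fun u => by
        refine (hG2 u).trans ?_
        rw [← mul_assoc, ← hc, mul_assoc c, ← mul_add]
        refine mul_le_mul_of_nonneg_left ?_ hc0
        have hW1 := one_le_gW p u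
        rcases small_or_gW hk p ht u with h | h
        · have := hBd _ h
          have : 0 ≤ M * 3 * (eval u (gW n k p) - 1) := by
            have : 0 ≤ eval u (gW n k p) - 1 := by linarith
            positivity
          linarith
        · have h3 : ∑ S ∈ powersetCard (k + 1) (univ : Finset (FW n k)),
              |Q (fun w => eval u (gZ n k t w)) f S| ≤ M * eval u (gW n k p) := by
            refine (Finset.sum_le_card_nsmul _ _ (eval u (gW n k p)) fun S _ =>
              (Q_abs_le _ _ hf S).trans (prod_max_le_gW hp ht u)).trans ?_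
            rw [nsmul_eq_mul]
            refine mul_le_mul_of_nonneg_right ?_ (by linarith)
            rw [card_powersetCard, hM]
            have : (univ : Finset (FW n k)).card = (k + 1) * 2 ^ n := by simp
            rw [this]
            exact_mod_cast Nat.choose_le_pow _ _
          nlinarith
      rw [abs_mul, abs_of_nonneg (pow_nonneg hv k)]
      have h2 : v ^ k ≤ 1 := pow_le_one₀ hv hv1
      have h3 : c * (M * 3) * (E (gW n k p) - 1) ≤ c * (M * 3) * τ :=
        mul_le_mul_of_nonneg_left (by linarith) (by positivity)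
      nlinarith [abs_nonneg (E G)]
    choose d hd1 hd2 using hder
    have hmv := (convex_Icc (-1 : ℝ) 1).norm_image_sub_le_of_norm_hasDerivWithin_le
      (f := fun s : ℝ => E (Q (gZ n k s) f ∅)) (f' := d) (C := c * (Bd + M * (3 * τ)))
      (x := 1) (y := -1) (fun t _ => (hd1 t).hasDerivWithinAt)
      (fun t ht => hd2 t (abs_le.2 ht)) ⟨by norm_num, le_rfl⟩ ⟨le_rfl, by norm_num⟩
    have e2 : ‖(-1 : ℝ) - 1‖ = 2 := by norm_num
    rw [e2, Real.norm_eq_abs, abs_le] at hmv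
    have a1 := abs_le.1 (hμ' true f hf)
    have a2 := abs_le.1 (hμ' false f hf)
    simp only [sg, if_true, Bool.false_eq_true, if_false] at a1 a2
    rw [← mul_assoc ((1 / rt n) ^ k), ← hc, abs_le]
    constructor <;> linarith [hmv.1, hmv.2]

theorem eventually_poly_le (c : ℝ) (a : ℕ) : ∀ᶠ n : ℕ in atTop, c * (n : ℝ) ^ a ≤ 2 ^ n := by
  have h := (tendsto_pow_const_div_const_pow_of_one_lt a (r := 2) (by norm_num)).const_mul c
  rw [mul_zero] at h
  filter_upwards [h.eventually (gt_mem_nhds (show (0 : ℝ) < 1 by norm_num))] with n hn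
  rw [← mul_div_assoc, div_lt_one (by positivity)] at hn
  exact hn.le

theorem one_add_pow_le {x : ℝ} (hx : 0 ≤ x) (m : ℕ) (h : m * x ≤ 1 / 2) :
    (1 + x) ^ m ≤ 1 + 2 * (m * x) := by
  induction m with
  | zero => simp
  | succ m ih =>
    push_cast at h ⊢
    have h1 : m * x ≤ 1 / 2 := by nlinarith
    have h2 := ih h1
    rw [pow_succ]
    nlinarith [mul_le_mul_of_nonneg_right h2 (show 0 ≤ 1 + x by linarith)]

theorem core (k : ℕ) (hk : 1 ≤ k) : ∃ A : ℕ, 0 < A ∧ ∀ a : ℕ, ∀ᶠ n : ℕ in atTop,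
    ∃ μ : Bool → (FW n k → Bool) → ℝ, (∀ s, IsProb (μ s)) ∧
      (∀ s, (3 : ℝ) / (4 * (((A * n) ^ k : ℕ) : ℝ)) ≤ sg s * ∑ y, μ s y * forr y) ∧
      ∀ D : ℕ, D ^ k ≤ (2 ^ n) ^ (k - 1) → ∀ f, TreeFn D f →
        |∑ y, μ true y * f y - ∑ y, μ false y * f y| ≤ 1 / (n : ℝ) ^ a := by
  obtain ⟨K, hK, hgr⟩ := growth (2 * k * (k + 1)) (by nlinarith)
  refine ⟨16 * (k + 3), by omega, fun a => ?_⟩
  set F : ℝ := (((k + 1).factorial : ℕ) : ℝ) with hF
  have hF0 : 0 < F := by positivity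
  filter_upwards [eventually_ge_atTop 1, eventually_poly_le (2 * k) 0,
    eventually_poly_le (16 * k * (16 * (k + 3)) ^ k) k,
    eventually_poly_le ((k + 1) * (6 * F * K) ^ (4 * k)) (a * (4 * k)),
    eventually_poly_le (36 * k * F * (k + 1) ^ (k + 1)) a,
    eventually_poly_le (24 * k) a] with n hn h1 h2 h3 h4 h5
  have hn0 : (0 : ℝ) < n := by exact_mod_cast hn
  have hk0 : (0 : ℝ) < k := by exact_mod_cast hk
  set N : ℝ := 2 ^ n with hN
  have hN1 : 1 ≤ N := one_le_pow₀ (by norm_num)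
  have hN0 : 0 < N := by linarith
  set v : ℝ := 1 / (16 * (k + 3) * n) with hv
  have hv0 : 0 < v := by positivity
  have hv1 : v ≤ 1 := by
    rw [hv, div_le_one (by positivity)]
    have : (1 : ℝ) ≤ n := by exact_mod_cast hn
    nlinarith
  set τ : ℝ := 2 * k / N ^ (k + 2) with hτ
  have hτN : τ ≤ 2 * k / N := by
    rw [hτ]
    exact div_le_div_of_nonneg_left (by positivity) hN0 (le_self_pow₀ hN1 (by omega))
  have hβ : (8 * (((k + 3) * n : ℕ) : ℝ) * v) ^ ((k + 3) * n) = 1 / N ^ (k + 3) := by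
    have : 8 * (((k + 3) * n : ℕ) : ℝ) * v = 1 / 2 := by
      rw [hv]; push_cast; field_simp; norm_num
    rw [this, hN, ← pow_mul, mul_comm n, one_div_pow]
  have hτ' : (1 + (8 * (((k + 3) * n : ℕ) : ℝ) * v) ^ ((k + 3) * n)) ^ (k * 2 ^ n) ≤ 1 + τ := by
    rw [hβ]
    have e : ((k * 2 ^ n : ℕ) : ℝ) * (1 / N ^ (k + 3)) = k / N ^ (k + 2) := by
      push_cast; rw [← hN]; field_simp; ring
    refine (one_add_pow_le (by positivity) _ ?_).trans (le_of_eq ?_)
    · rw [e, div_le_iff₀ (by positivity)]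
      have : N ≤ N ^ (k + 2) := le_self_pow₀ hN1 (by omega)
      simp only [pow_zero, mul_one] at h1
      linarith
    · rw [e, hτ]; ring
  obtain ⟨μ, hμ1, hμ2, hμ3⟩ := core_aux k n ((k + 3) * n) hk (by nlinarith) v τ hv0.le hv1 hτ'
  refine ⟨μ, hμ1, fun s => le_trans ?_ (hμ2 s), fun D hD f hf => ?_⟩
  · have e : v ^ k = 1 / (((16 * (k + 3) * n) ^ k : ℕ) : ℝ) := by
      rw [hv, one_div_pow]; push_cast; rfl
    have e2 : (((16 * (k + 3) * n) ^ k : ℕ) : ℝ) = (16 * (k + 3)) ^ k * (n : ℝ) ^ k := by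
      push_cast; rw [mul_pow]
    have hpos : (0 : ℝ) < (((16 * (k + 3) * n) ^ k : ℕ) : ℝ) := by rw [e2]; positivity
    have : 2 * k / N ≤ 1 / (8 * (((16 * (k + 3) * n) ^ k : ℕ) : ℝ)) := by
      rw [div_le_div_iff₀ hN0 (by positivity), e2]
      linarith
    rw [e]
    set P := (((16 * (k + 3) * n) ^ k : ℕ) : ℝ)
    have e3 : 3 / (4 * P) = 1 / P - 2 * (1 / (8 * P)) := by field_simp; norm_num
    rw [e3]
    linarith
  · set ε : ℝ := 1 / (6 * F * K * (n : ℝ) ^ a) with hε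
    have hε0 : 0 < ε := by positivity
    have hrt := rt_pos n
    have hD' : (max D 1) ^ k ≤ (2 ^ n) ^ (k - 1) := by
      rcases le_total D 1 with h | h
      · rw [max_eq_right h, one_pow]; exact Nat.one_le_pow _ _ (by positivity)
      · rwa [max_eq_left h]
    have hΛ : (Fintype.card (FW n k) : ℝ) ^ (k + 1) *
        ((max D 1 : ℕ) : ℝ) ^ (2 * k * (k + 1) * (k + 1)) ≤
        (rt n ^ k * ε) ^ (2 * (2 * k * (k + 1))) := by
      obtain ⟨l, rfl⟩ : ∃ l, k = l + 1 := ⟨k - 1, by omega⟩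
      have c1 : (Fintype.card (FW n (l + 1)) : ℝ) = ((l + 1 : ℕ) + 1) * N := by
        simp [hN]
      have c2 : ((max D 1 : ℕ) : ℝ) ^ (2 * (l + 1) * (l + 1 + 1) * (l + 1 + 1)) ≤
          N ^ (l * (2 * (l + 2) * (l + 2))) := by
        have : ((max D 1 : ℕ) : ℝ) ^ (l + 1) ≤ N ^ l := by
          rw [hN]; simpa using (Nat.cast_le (α := ℝ)).2 hD'
        have := pow_le_pow_left₀ (by positivity) this (2 * (l + 2) * (l + 2))
        rw [← pow_mul, ← pow_mul] at this
        rwa [show 2 * (l + 1) * (l + 1 + 1) * (l + 1 + 1) = (l + 1) * (2 * (l + 2) * (l + 2)) by ring]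
      have c3 : (((l + 1 : ℕ) : ℝ) + 1) ≤ N * ε ^ (4 * (l + 1)) := by
        rw [hε, one_div_pow, mul_one_div, le_div_iff₀ (by positivity), mul_pow, ← pow_mul,
          ← mul_assoc]
        exact h3
      have c4 : (rt n ^ (l + 1) * ε) ^ (2 * (2 * (l + 1) * (l + 1 + 1))) =
          (N * ε ^ (4 * (l + 1)) * N) ^ (l + 1 + 1) * N ^ (l * (2 * (l + 2) * (l + 2))) := by
        rw [hN, ← rt_sq]
        simp only [mul_pow, ← pow_mul]
        ring
      rw [c1, c4]
      gcongr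
    have hb := hμ3 f hf.abs_le (K * (rt n ^ k * ε)) fun z hz =>
      hgr (FW n k) (k + 1) (max D 1) (le_max_right _ _) f (hf.mono (le_max_left _ _)) z hz _
        (by positivity) hΛ
    refine hb.trans ?_
    rw [← hF]
    have hna : (0 : ℝ) < (n : ℝ) ^ a := by positivity
    have t1 : 2 * ((1 / rt n) ^ k * (F * (K * (rt n ^ k * ε)))) = 1 / (3 * (n : ℝ) ^ a) := by
      rw [hε, one_div_pow]; field_simp; norm_num
    have t2 : 2 * ((1 / rt n) ^ k * (F * ((((k + 1) * 2 ^ n : ℕ) : ℝ) ^ (k + 1) * (3 * τ)))) ≤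
        1 / (3 * (n : ℝ) ^ a) := by
      have b1 : (1 / rt n) ^ k ≤ 1 :=
        pow_le_one₀ (by positivity) (by rw [div_le_one hrt]; exact one_le_rt n)
      have b2 : F * ((((k + 1) * 2 ^ n : ℕ) : ℝ) ^ (k + 1) * (3 * τ)) =
          6 * k * F * (k + 1) ^ (k + 1) / N := by
        rw [hτ]; push_cast; rw [← hN, mul_pow]; field_simp; ring
      rw [b2]
      have b3 : 2 * (6 * k * F * (k + 1) ^ (k + 1) / N) ≤ 1 / (3 * (n : ℝ) ^ a) := by
        rw [← mul_div_assoc, div_le_div_iff₀ hN0 (by positivity)]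
        linarith
      have b4 : 0 ≤ 6 * k * F * (k + 1) ^ (k + 1) / N := by positivity
      nlinarith
    have t3 : 4 * τ ≤ 1 / (3 * (n : ℝ) ^ a) := by
      have : 4 * (2 * k / N) ≤ 1 / (3 * (n : ℝ) ^ a) := by
        rw [← mul_div_assoc, div_le_div_iff₀ hN0 (by positivity)]
        linarith
      linarith
    have t4 : 1 / (n : ℝ) ^ a = 3 * (1 / (3 * (n : ℝ) ^ a)) := by field_simp
    rw [mul_add F, mul_add ((1 / rt n) ^ k), mul_add 2, t1, t4]
    linarith

end Crest.Agent.R350
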