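import Crest.Agent.R350.QFrame

/-!
# Row 350: Walsh-Hadamard facts, transcripts, and the Forrelation circuit
-/

set_option autoImplicit false

namespace Crest.Agent.R350

open Finset Matrix

variable {n k : ℕ}

theorem tr_sgZ_sq (b : Bool) : sgZ b ^ 2 = 1 := by
  cases b <;> simp [sgZ]

theorem tr_abs_sgZ (b : Bool) : |sgZ b| = 1 := by
  cases b <;> simp [sgZ]

theorem tr_sgZ_cast (b : Bool) : ((sgZ b : ℤ) : ℝ) = sg b := by
  cases b <;> simp [sgZ, sg]

theorem tr_card_I : Fintype.card (I n) = 2 ^ n := by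
  simp [I]

theorem had_comm (i j : I n) : had i j = had j i := by
  unfold had
  refine Finset.prod_congr rfl fun r _ => ?_
  rw [Bool.and_comm]

theorem had_sq (i j : I n) : had i j ^ 2 = 1 := by
  unfold had
  rw [← Finset.prod_pow]
  exact Finset.prod_eq_one fun r _ => tr_sgZ_sq _

theorem tr_abs_had (i j : I n) : |had i j| = 1 := by
  unfold had
  rw [Finset.abs_prod]
  exact Finset.prod_eq_one fun r _ => tr_abs_sgZ _

theorem had_orth (i i' : I n) : ∑ j, had i j * had i' j = if i = i' then 2 ^ n else 0 := by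
  have h1 : ∑ j : I n, had i j * had i' j
      = ∏ r : Fin n, ∑ b : Bool, sgZ (i r && b) * sgZ (i' r && b) := by
    rw [Finset.prod_univ_sum]
    simp only [Fintype.piFinset_univ]
    refine Finset.sum_congr rfl fun j _ => ?_
    unfold had
    rw [← Finset.prod_mul_distrib]
  have h2 : ∀ a a' : Bool, ∑ b : Bool, sgZ (a && b) * sgZ (a' && b) = if a = a' then 2 else 0 := by
    intro a a'
    cases a <;> cases a' <;> simp [sgZ]
  rw [h1]
  simp only [h2]
  split_ifs with h
  · subst h
    simp
  · obtain ⟨r, hr⟩ := Function.ne_iff.mp h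
    exact Finset.prod_eq_zero (Finset.mem_univ r) (if_neg hr)

theorem tr_blk_sq (y : FW n k → Bool) (j : ℕ) (i : I n) :
    blk (fun w => sgZ (y w)) j i ^ 2 = 1 := by
  unfold blk
  split_ifs
  · exact tr_sgZ_sq _
  · simp

theorem tr_abs_blk (y : FW n k → Bool) (j : ℕ) (i : I n) :
    |blk (fun w => sgZ (y w)) j i| = 1 := by
  unfold blk
  split_ifs
  · exact tr_abs_sgZ _
  · simp

theorem tr_parseval (v : I n → ℤ) :
    ∑ i, (∑ a, had i a * v a) ^ 2 = 2 ^ n * ∑ a, v a ^ 2 := by
  have h1 : ∀ i : I n, (∑ a, had i a * v a) ^ 2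
      = ∑ a, ∑ b, (v a * v b) * (had a i * had b i) := by
    intro i
    rw [sq, Finset.sum_mul_sum]
    refine Finset.sum_congr rfl fun a _ => Finset.sum_congr rfl fun b _ => ?_
    rw [had_comm a i, had_comm b i]
    ring
  simp only [h1]
  rw [Finset.sum_comm, Finset.mul_sum]
  refine Finset.sum_congr rfl fun a _ => ?_
  rw [Finset.sum_comm]
  simp only [← Finset.mul_sum, had_orth]
  simp only [mul_ite, mul_zero, Finset.sum_ite_eq, Finset.mem_univ, if_true]
  ring

theorem tr_sum_fvec_sq (y : FW n k → Bool) (j : ℕ) :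
    ∑ i, fvec (blk fun w => sgZ (y w)) j i ^ 2 = (2 ^ n) ^ (j + 1) := by
  induction j with
  | zero =>
    simp only [fvec, tr_blk_sq]
    simp
  | succ j ih =>
    simp only [fvec, mul_pow, tr_blk_sq, one_mul, Int.cast_id]
    rw [tr_parseval, ih]
    ring

theorem abs_forr_le (y : FW n k → Bool) : |forr y| ≤ 1 := by
  have hN : (0 : ℝ) < Real.sqrt (2 ^ n) := Real.sqrt_pos.mpr (by positivity)
  have h1 : forrZ y ^ 2 ≤ (2 ^ n) ^ (k + 2) := by
    unfold forrZ
    have h := sq_sum_le_card_mul_sum_sq (s := (Finset.univ : Finset (I n)))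
      (f := fun i => fvec (blk fun w => sgZ (y w)) k i)
    rw [tr_sum_fvec_sq, Finset.card_univ, tr_card_I] at h
    calc _ ≤ _ := h
      _ = (2 ^ n) ^ (k + 2) := by push_cast; ring
  have h2 : (forrZ y : ℝ) ^ 2 ≤ (Real.sqrt (2 ^ n) ^ (k + 2)) ^ 2 := by
    rw [← pow_mul, mul_comm, pow_mul, Real.sq_sqrt (by positivity)]
    exact_mod_cast h1
  unfold forr
  rw [abs_div, abs_of_pos (pow_pos hN _), div_le_one (pow_pos hN _)]
  exact abs_le_of_sq_le_sq' h2 (pow_pos hN _).le |> abs_le.mpr

/-- The partial Walsh-Hadamard transform on the first `s` coordinates. -/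
def trP (s : ℕ) (i j : I n) : ℤ :=
  ∏ r : Fin n, if r.val < s then sgZ (i r && j r) else if i r = j r then 1 else 0

theorem trP_zero (i j : I n) : trP 0 i j = if i = j then 1 else 0 := by
  unfold trP
  simp only [Nat.not_lt_zero, if_false]
  split_ifs with h
  · subst h
    simp
  · obtain ⟨r, hr⟩ := Function.ne_iff.mp h
    exact Finset.prod_eq_zero (Finset.mem_univ r) (if_neg hr)

theorem trP_full (i j : I n) : trP n i j = had i j := by
  unfold trP had
  exact Finset.prod_congr rfl fun r _ => if_pos r.isLt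

theorem abs_trP_le (s : ℕ) (i j : I n) : |trP s i j| ≤ 1 := by
  unfold trP
  rw [Finset.abs_prod]
  refine Finset.prod_le_one (fun r _ => abs_nonneg _) fun r _ => ?_
  split_ifs
  · exact (tr_abs_sgZ _).le
  · simp
  · simp

theorem trP_succ (s : Fin n) (i j : I n) :
    trP (s.val + 1) i j = trP s.val (Function.update i s false) j +
      sgZ (i s) * trP s.val (Function.update i s true) j := by
  unfold trP
  rw [← Finset.mul_prod_erase _ _ (Finset.mem_univ s),
    ← Finset.mul_prod_erase _ _ (Finset.mem_univ s),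
    ← Finset.mul_prod_erase _ _ (Finset.mem_univ s)]
  have key : ∀ b : Bool, ∏ r ∈ Finset.univ.erase s,
      (if r.val < s.val then sgZ (Function.update i s b r && j r)
        else if Function.update i s b r = j r then (1 : ℤ) else 0)
      = ∏ r ∈ Finset.univ.erase s,
      (if r.val < s.val + 1 then sgZ (i r && j r) else if i r = j r then (1 : ℤ) else 0) := by
    intro b
    refine Finset.prod_congr rfl fun r hr => ?_
    have hr' : r ≠ s := Finset.ne_of_mem_erase hr
    have hv : r.val ≠ s.val := fun h => hr' (Fin.ext h)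
    rw [Function.update_of_ne hr']
    by_cases h : r.val < s.val
    · rw [if_pos h, if_pos (by omega)]
    · rw [if_neg h, if_neg (show ¬ r.val < s.val + 1 by omega)]
  rw [key false, key true]
  simp only [Function.update_self, lt_irrefl, if_false, Nat.lt_succ_self, if_true]
  cases i s <;> cases j s <;> simp [sgZ]

/-- The honest transcript. -/
def trHon (y : FW n k → Bool) (g : Fin (k + 1) × Fin (n + 1) × I n) : ℤ :=
  ∑ i', trP g.2.1.val g.2.2 i' * fvec (blk fun w => sgZ (y w)) g.1.val i'

theorem trHon_zero (y : FW n k → Bool) (j : Fin (k + 1)) (i : I n) :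
    trHon y (j, 0, i) = fvec (blk fun w => sgZ (y w)) j.val i := by
  unfold trHon
  simp [trP_zero]

theorem trHon_last (y : FW n k → Bool) (j : Fin (k + 1)) (i : I n) :
    trHon y (j, Fin.last n, i) = ∑ i', had i i' * fvec (blk fun w => sgZ (y w)) j.val i' := by
  unfold trHon
  simp [trP_full]

theorem trHon_succ (y : FW n k → Bool) (j : Fin (k + 1)) (s : Fin n) (i : I n) :
    trHon y (j, s.succ, i) = trHon y (j, s.castSucc, Function.update i s false) +
      sgZ (i s) * trHon y (j, s.castSucc, Function.update i s true) := by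
  unfold trHon
  simp only [Fin.val_succ, Fin.val_castSucc, trP_succ]
  rw [Finset.mul_sum, ← Finset.sum_add_distrib]
  refine Finset.sum_congr rfl fun a _ => ?_
  ring

theorem tr_blk_fin (y : FW n k → Bool) (j : Fin (k + 1)) (i : I n) :
    blk (fun w => sgZ (y w)) j.val i = sgZ (y (j, i)) := by
  unfold blk
  rw [dif_pos j.isLt]

theorem trHon_first (y : FW n k → Bool) (i : I n) :
    trHon y (0, 0, i) = sgZ (y (0, i)) := by
  rw [trHon_zero]
  exact tr_blk_fin y 0 i

theorem trHon_next (y : FW n k → Bool) (j : Fin k) (i : I n) :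
    trHon y (j.succ, 0, i) = sgZ (y (j.succ, i)) * trHon y (j.castSucc, Fin.last n, i) := by
  rw [trHon_zero, trHon_last, ← tr_blk_fin y j.succ i]
  simp [fvec]

theorem trHon_localEq (y : FW n k → Bool) (g : Fin (k + 1) × Fin (n + 1) × I n) :
    LocalEq y (trHon y) g := by
  obtain ⟨j, s, i⟩ := g
  unfold LocalEq
  refine Fin.cases ?_ (fun s => ?_) s
  · refine Fin.cases ?_ (fun j => ?_) j
    · simp [trHon_first]
    · simp [trHon_next]
  · simp [trHon_succ]

theorem tr_row (y : FW n k → Bool) (h : Fin (k + 1) × Fin (n + 1) × I n → ℤ)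
    (H : ∀ g, LocalEq y h g) (j : Fin (k + 1)) (h0 : ∀ i, h (j, 0, i) = trHon y (j, 0, i))
    (s : Fin (n + 1)) : ∀ i, h (j, s, i) = trHon y (j, s, i) := by
  induction s using Fin.induction with
  | zero => exact h0
  | succ s ih =>
    intro i
    have h1 := H (j, s.succ, i)
    unfold LocalEq at h1
    simp only [Fin.cases_succ] at h1
    rw [h1, trHon_succ, ih, ih]

theorem tr_unique (y : FW n k → Bool) (h : Fin (k + 1) × Fin (n + 1) × I n → ℤ)
    (H : ∀ g, LocalEq y h g) (j : Fin (k + 1)) :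
    ∀ (s : Fin (n + 1)) (i : I n), h (j, s, i) = trHon y (j, s, i) := by
  induction j using Fin.induction with
  | zero =>
    refine tr_row y h H 0 fun i => ?_
    have h1 := H (0, 0, i)
    unfold LocalEq at h1
    simp only [Fin.cases_zero] at h1
    rw [h1, trHon_first, mul_one]
  | succ j ih =>
    refine tr_row y h H j.succ fun i => ?_
    have h1 := H (j.succ, 0, i)
    unfold LocalEq at h1
    simp only [Fin.cases_zero, Fin.cases_succ] at h1
    rw [h1, trHon_next, ih]

theorem localEq_sound (y : FW n k → Bool) (h : Fin (k + 1) × Fin (n + 1) × I n → ℤ)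
    (H : ∀ g, LocalEq y h g) : h (Fin.last k, Fin.last n, fun _ => false) = forrZ y := by
  rw [tr_unique y h H, trHon_last]
  unfold forrZ
  refine Finset.sum_congr rfl fun i _ => ?_
  simp [had, sgZ]

theorem tr_abs_fvec_le (y : FW n k → Bool) (j : ℕ) (i : I n) :
    |fvec (blk fun w => sgZ (y w)) j i| ≤ 2 ^ (j * n) := by
  induction j generalizing i with
  | zero =>
    simp only [fvec, tr_abs_blk]
    simp
  | succ j ih =>
    simp only [fvec, abs_mul, tr_abs_blk, one_mul, Int.cast_id]
    calc |∑ i', had i i' * fvec (blk fun w => sgZ (y w)) j i'|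
        ≤ ∑ i', |had i i' * fvec (blk fun w => sgZ (y w)) j i'| := Finset.abs_sum_le_sum_abs _ _
      _ ≤ ∑ _i' : I n, (2 : ℤ) ^ (j * n) := by
          refine Finset.sum_le_sum fun a _ => ?_
          rw [abs_mul, tr_abs_had, one_mul]
          exact ih a
      _ = 2 ^ ((j + 1) * n) := by
          rw [Finset.sum_const, Finset.card_univ, tr_card_I, nsmul_eq_mul]
          push_cast
          ring

theorem localEq_complete (y : FW n k → Bool) :
    ∃ h : Fin (k + 1) × Fin (n + 1) × I n → ℤ, (∀ g, LocalEq y h g) ∧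
      ∀ g, |h g| ≤ 2 ^ ((k + 1) * n) := by
  refine ⟨trHon y, trHon_localEq y, fun g => ?_⟩
  unfold trHon
  calc |∑ i', trP g.2.1.val g.2.2 i' * fvec (blk fun w => sgZ (y w)) g.1.val i'|
      ≤ ∑ i', |trP g.2.1.val g.2.2 i' * fvec (blk fun w => sgZ (y w)) g.1.val i'| :=
        Finset.abs_sum_le_sum_abs _ _
    _ ≤ ∑ _i' : I n, (2 : ℤ) ^ (k * n) := by
        refine Finset.sum_le_sum fun a _ => ?_
        rw [abs_mul]
        calc _ ≤ 1 * (2 : ℤ) ^ (g.1.val * n) :=
              mul_le_mul (abs_trP_le _ _ _) (tr_abs_fvec_le y _ a) (abs_nonneg _) zero_le_one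
          _ ≤ 2 ^ (k * n) := by
              rw [one_mul]
              exact pow_le_pow_right₀ (by norm_num)
                (Nat.mul_le_mul_right _ (Nat.lt_succ_iff.mp g.1.isLt))
    _ = 2 ^ ((k + 1) * n) := by
        rw [Finset.sum_const, Finset.card_univ, tr_card_I, nsmul_eq_mul]
        push_cast
        ring

theorem dec_surj (v : ℤ) (hv : |v| ≤ 2 ^ ((k + 1) * n)) : ∃ w : Fin (nb n k) → Bool, dec w = v := by
  have hc : Fintype.card (Fin (nb n k) → Bool) = 2 ^ ((k + 1) * n + 2) := by
    rw [Fintype.card_fun, Fintype.card_bool, Fintype.card_fin]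
    rfl
  have hB : nb n k - 1 = (k + 1) * n + 1 := by simp [nb]
  obtain ⟨h1, h2⟩ := abs_le.mp hv
  have hp : (0 : ℤ) < 2 ^ ((k + 1) * n) := by positivity
  have hnn : 0 ≤ v + 2 ^ ((k + 1) * n + 1) := by
    rw [pow_succ]; linarith
  have hlt : (v + 2 ^ ((k + 1) * n + 1)).toNat < Fintype.card (Fin (nb n k) → Bool) := by
    rw [hc]
    have : v + 2 ^ ((k + 1) * n + 1) < ((2 ^ ((k + 1) * n + 2) : ℕ) : ℤ) := by
      push_cast
      rw [pow_succ, pow_succ _ ((k + 1) * n + 1), pow_succ]
      linarith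
    omega
  refine ⟨(Fintype.equivFin (Fin (nb n k) → Bool)).symm ⟨_, hlt⟩, ?_⟩
  unfold dec
  rw [Equiv.apply_symm_apply, hB]
  simp only [Int.toNat_of_nonneg hnn]
  ring

/-- The normalised Walsh-Hadamard matrix. -/
noncomputable def trH (n : ℕ) : Matrix (I n) (I n) ℝ :=
  fun i j => (had i j : ℝ) / Real.sqrt (2 ^ n)

theorem trH_orth : Orth (trH n) := by
  have hN : (0 : ℝ) < 2 ^ n := by positivity
  unfold Orth
  ext i j
  simp only [Matrix.mul_apply, Matrix.transpose_apply, trH, Matrix.one_apply]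
  have h1 : ∀ a : I n, (had a i : ℝ) / Real.sqrt (2 ^ n) * ((had a j : ℝ) / Real.sqrt (2 ^ n))
      = ((had i a * had j a : ℤ) : ℝ) / 2 ^ n := by
    intro a
    rw [div_mul_div_comm, Real.mul_self_sqrt hN.le, had_comm a i, had_comm a j]
    push_cast
    rfl
  simp only [h1]
  rw [← Finset.sum_div, ← Int.cast_sum, had_orth]
  split_ifs
  · push_cast
    exact div_self hN.ne'
  · simp

/-- The queried position in round `j`. -/
def trIdx {ι : Type} (e : FW n k → ι) (j : ℕ) (i : I n) : Option ι :=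
  if h : j < k + 1 then some (e (⟨j, h⟩, i)) else none

/-- The Forrelation circuit. -/
noncomputable def trA {ι : Type} (e : FW n k → ι) : ℕ → (ι → Bool) → Matrix (I n) (I n) ℝ
  | 0 => fun x => phase (trIdx e 0) x
  | j + 1 => fun x => phase (trIdx e (j + 1)) x * (trH n * trA e j x)

theorem trA_impl {ι : Type} (e : FW n k → ι) (j : ℕ) : Impl (j + 1) (trA e j) := by
  induction j with
  | zero => exact Impl.of_phase _
  | succ j ih =>
    have h := (Impl.of_phase (trIdx e (j + 1))).mul ((Impl.const (ι := ι) (trH_orth (n := n))).mul ih)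
    have e1 : 1 + (0 + (j + 1)) = j + 1 + 1 := by ring
    rw [e1] at h
    exact h

theorem tr_phase_mulVec {ι : Type} (e : FW n k → ι) (j : ℕ) (x : ι → Bool) (v : I n → ℝ)
    (i : I n) : (phase (trIdx e j) x *ᵥ v) i
      = ((blk (fun w => sgZ (x (e w))) j i : ℤ) : ℝ) * v i := by
  unfold phase
  rw [Matrix.mulVec_diagonal]
  congr 1
  unfold trIdx blk
  split_ifs
  · simp [tr_sgZ_cast]
  · simp

theorem trA_mulVec {ι : Type} (e : FW n k → ι) (x : ι → Bool) (c : ℝ) (j : ℕ) (i : I n) :
    (trA e j x *ᵥ fun _ => c) i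
      = c * ((fvec (blk fun w => sgZ (x (e w))) j i : ℤ) : ℝ) / Real.sqrt (2 ^ n) ^ j := by
  have hN : (0 : ℝ) < Real.sqrt (2 ^ n) := Real.sqrt_pos.mpr (by positivity)
  induction j generalizing i with
  | zero =>
    simp only [trA, tr_phase_mulVec, fvec]
    ring
  | succ j ih =>
    simp only [trA]
    rw [← Matrix.mulVec_mulVec, ← Matrix.mulVec_mulVec, tr_phase_mulVec]
    have h1 : (trH n *ᵥ (trA e j x *ᵥ fun _ => c)) i
        = ∑ a, (had i a : ℝ) / Real.sqrt (2 ^ n) *
          (c * ((fvec (blk fun w => sgZ (x (e w))) j a : ℤ) : ℝ) / Real.sqrt (2 ^ n) ^ j) := by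
      simp only [← ih]
      rfl
    rw [h1]
    simp only [fvec, Int.cast_id]
    push_cast
    rw [Finset.mul_sum, Finset.mul_sum, Finset.mul_sum, Finset.sum_div]
    refine Finset.sum_congr rfl fun a _ => ?_
    field_simp
    ring

/-- The Hadamard test on the Forrelation circuit. -/
theorem forr_samp {ι : Type} (e : FW n k → ι) :
    Samp (k + 1) fun (x : ι → Bool) (b : Bool) => (1 + sg b * forr fun w => x (e w)) / 2 := by
  have hN : (0 : ℝ) < Real.sqrt (2 ^ n) := Real.sqrt_pos.mpr (by positivity)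
  have hu : ∑ _w : I n, (1 / Real.sqrt (2 ^ n) : ℝ) ^ 2 = 1 := by
    rw [Finset.sum_const, Finset.card_univ, tr_card_I, nsmul_eq_mul, div_pow,
      Real.sq_sqrt (by positivity)]
    push_cast
    field_simp
  have h := Samp.hadamardTest (trA_impl e k) (fun _ => 1 / Real.sqrt (2 ^ n)) hu
  have key : ∀ x : ι → Bool, ((fun _ : I n => (1 / Real.sqrt (2 ^ n) : ℝ)) ⬝ᵥ
      (trA e k x *ᵥ fun _ => 1 / Real.sqrt (2 ^ n))) = forr fun w => x (e w) := by
    intro x
    unfold dotProduct forr forrZ
    simp only [trA_mulVec]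
    push_cast
    rw [Finset.sum_div]
    refine Finset.sum_congr rfl fun a _ => ?_
    field_simp
    ring
  simp only [key] at h
  exact h

end Crest.Agent.R350
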