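import Crest.Agent.R350.Growth
import Crest.Agent.R350.Transcript

/-!
# Row 350: the Gaussian point `Z_t` and the Stein chain
-/

set_option autoImplicit false

namespace Crest.Agent.R350

open Finset MvPolynomial

/-- `√(2 ^ n)`. -/
noncomputable def rt (n : ℕ) : ℝ := Real.sqrt (2 ^ n)

theorem rt_pos (n : ℕ) : 0 < rt n := Real.sqrt_pos.2 (by positivity)

theorem rt_sq (n : ℕ) : rt n ^ 2 = 2 ^ n := Real.sq_sqrt (by positivity)

theorem one_le_rt (n : ℕ) : 1 ≤ rt n :=
  Real.one_le_sqrt.2 (one_le_pow₀ (by norm_num))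

theorem card_I (n : ℕ) : Fintype.card (I n) = 2 ^ n := by simp [I]

theorem abs_had (n : ℕ) (i j : I n) : |(had i j : ℝ)| = 1 := by
  have h : ((had i j : ℝ)) ^ 2 = 1 := by exact_mod_cast had_sq i j
  have : |(had i j : ℝ)| ^ 2 = 1 := by rw [sq_abs]; exact h
  nlinarith [abs_nonneg (had i j : ℝ)]

/-- The polynomial ring of the Gaussian variables. -/
abbrev GR (n k : ℕ) : Type := MvPolynomial (Fin k × I n) ℝ

variable {n k : ℕ}

/-- The Gaussian vectors `U_j` (`j < k`), and `1` for `j ≥ k`. -/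
noncomputable def gU (n k : ℕ) (j : ℕ) (i : I n) : GR n k :=
  if h : j < k then X (⟨j, h⟩, i) else 1

/-- The rotated vectors `V_j = H U_j`. -/
noncomputable def gV (n k : ℕ) (j : ℕ) (i : I n) : GR n k :=
  ∑ i', C ((had i i' : ℝ) / rt n) * gU n k j i'

/-- First factor of the coordinates of `Z_t`. -/
noncomputable def gA (n k : ℕ) (t : ℝ) : ℕ → I n → GR n k
  | 0, _ => C t
  | j + 1, i => gV n k j i

/-- The point `Z_t = (t U_0, V_0 U_1, …, V_{k-1})`. -/
noncomputable def gZ (n k : ℕ) (t : ℝ) (w : FW n k) : GR n k :=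
  gA n k t w.1 w.2 * gU n k w.1 w.2

theorem pderiv_gU (a : Fin k) (i : I n) (j : ℕ) (i' : I n) :
    pderiv (a, i) (gU n k j i') = if j = a ∧ i' = i then 1 else 0 := by
  unfold gU
  split_ifs with h h' h'
  · obtain ⟨rfl, rfl⟩ := h'
    simp
  · rw [pderiv_X_of_ne]
    rintro hh
    apply h'
    have h1 := congrArg (fun p => (p.1 : ℕ)) hh
    have h2 := congrArg Prod.snd hh
    simp only at h1 h2
    exact ⟨h1, h2⟩
  · exact absurd (h'.1 ▸ a.2) h
  · simp

theorem pderiv_gV (a : Fin k) (i : I n) (j : ℕ) (i' : I n) :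
    pderiv (a, i) (gV n k j i') = if j = a then C ((had i' i : ℝ) / rt n) else 0 := by
  unfold gV
  rw [map_sum]
  simp only [Derivation.leibniz, pderiv_C, pderiv_gU, smul_eq_mul]
  split_ifs with h
  · simp [h]
  · simp [h]

theorem pderiv_gA (t : ℝ) (a : Fin k) (i : I n) (j : ℕ) (i' : I n) :
    pderiv (a, i) (gA n k t j i') = if j = a + 1 then C ((had i' i : ℝ) / rt n) else 0 := by
  cases j with
  | zero => simp [gA]
  | succ j => simp [gA, pderiv_gV]

theorem pderiv_gZ (t : ℝ) (a : Fin k) (i : I n) (w : FW n k) (hw : w ≠ (a.castSucc, i)) :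
    pderiv (a, i) (gZ n k t w) =
      if (w.1 : ℕ) = a + 1 then C ((had w.2 i : ℝ) / rt n) * gU n k (a + 1) w.2 else 0 := by
  unfold gZ
  rw [Derivation.leibniz, pderiv_gU, pderiv_gA, if_neg]
  · split_ifs with h
    · rw [h]; simp [mul_comm]
    · simp
  · rintro ⟨h1, h2⟩
    apply hw
    ext1
    · exact Fin.ext h1
    · exact h2

section chainL

variable {W : Type} [Fintype W] [DecidableEq W]

/-- Sum of `g` over all ordered extensions of `S` by `m` new elements. -/
def chainL (g : Finset W → ℝ) : ℕ → Finset W → ℝ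
  | 0, S => g S
  | m + 1, S => ∑ w ∈ Sᶜ, chainL g m (insert w S)

theorem chainL_nonneg {g : Finset W → ℝ} (hg : ∀ S, 0 ≤ g S) : ∀ m S, 0 ≤ chainL g m S
  | 0, S => hg S
  | m + 1, _ => Finset.sum_nonneg fun _ _ => chainL_nonneg hg m _

theorem chainL_le {g : Finset W → ℝ} (hg : ∀ S, 0 ≤ g S) : ∀ (m : ℕ) (S : Finset W),
    chainL g m S ≤ m.factorial *
      ∑ S' : Finset W, if S ⊆ S' ∧ S'.card = S.card + m then g S' else 0
  | 0, S => by
    simp only [chainL, Nat.factorial_zero, Nat.cast_one, one_mul, add_zero]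
    have := Finset.single_le_sum (s := univ)
      (f := fun S' : Finset W => if S ⊆ S' ∧ S'.card = S.card then g S' else 0)
      (fun S' _ => by split_ifs; exacts [hg _, le_rfl]) (mem_univ S)
    simpa using this
  | m + 1, S => by
    simp only [chainL]
    refine (Finset.sum_le_sum fun w _ => chainL_le hg m (insert w S)).trans ?_
    rw [← Finset.mul_sum, Finset.sum_comm, Nat.factorial_succ, Nat.cast_mul,
      mul_comm ((m + 1 : ℕ) : ℝ), mul_assoc]
    refine mul_le_mul_of_nonneg_left ?_ (Nat.cast_nonneg _)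
    rw [Finset.mul_sum]
    refine Finset.sum_le_sum fun S' _ => ?_
    by_cases h : S ⊆ S' ∧ S'.card = S.card + (m + 1)
    · rw [if_pos h]
      calc ∑ w ∈ Sᶜ, (if insert w S ⊆ S' ∧ S'.card = (insert w S).card + m then g S' else 0)
          ≤ ∑ w ∈ Sᶜ, (if w ∈ S' \ S then g S' else 0) := by
            refine Finset.sum_le_sum fun w hw => ?_
            split_ifs with h1 h2 h2
            · exact le_rfl
            · exact absurd (mem_sdiff.2 ⟨h1.1 (mem_insert_self _ _), mem_compl.1 hw⟩) h2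
            · exact hg _
            · exact le_rfl
        _ ≤ ∑ w, (if w ∈ S' \ S then g S' else 0) :=
            Finset.sum_le_sum_of_subset_of_nonneg (subset_univ _) fun w _ _ => by
              split_ifs; exacts [hg _, le_rfl]
        _ = ((m + 1 : ℕ) : ℝ) * g S' := by
            rw [← Finset.sum_filter, Finset.sum_const, nsmul_eq_mul]
            congr 2
            rw [Finset.filter_mem_eq_inter, univ_inter, card_sdiff_of_subset h.1, h.2]
            omega
    · rw [if_neg h, mul_zero]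
      refine le_of_eq (Finset.sum_eq_zero fun w hw => if_neg ?_)
      rintro ⟨h1, h2⟩
      apply h
      refine ⟨(subset_insert _ _).trans h1, ?_⟩
      rw [h2, card_insert_of_notMem (mem_compl.1 hw)]
      omega

theorem chainL_empty_le {g : Finset W → ℝ} (hg : ∀ S, 0 ≤ g S) (m : ℕ) :
    chainL g m ∅ ≤ m.factorial * ∑ S ∈ powersetCard m (univ : Finset W), g S := by
  refine (chainL_le hg m ∅).trans (le_of_eq ?_)
  congr 1
  rw [← Finset.sum_filter]
  refine Finset.sum_congr ?_ fun _ _ => rfl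
  ext S
  simp [mem_powersetCard]

end chainL

theorem eval_Q (u : Fin k × I n → ℝ) {W : Type} [Fintype W] [DecidableEq W] (ζ : W → GR n k)
    (f : (W → Bool) → ℝ) (S : Finset W) :
    eval u (Q ζ f S) = Q (fun w => eval u (ζ w)) f S := by
  have := Q_map (aeval u : GR n k →ₐ[ℝ] ℝ) ζ f S
  simpa only [coe_aeval_eq_eval, aeval_eq_eval] using this

/-- The Stein chain. -/
theorem stein_chain (E : GR n k →ₗ[ℝ] ℝ) (v : ℝ)
    (hS : ∀ i p, E (X i * p) = v * E (pderiv i p)) (t : ℝ) (f : (FW n k → Bool) → ℝ) :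
    ∀ (m : ℕ) (j : Fin (k + 1)) (i : I n) (S : Finset (FW n k)), (j : ℕ) + m = k → (j, i) ∈ S →
      ∃ G : GR n k, E (gU n k j i * Q (gZ n k t) f S) = v ^ m * E G ∧
        ∀ u, |eval u G| ≤ (1 / rt n) ^ m *
          chainL (fun S => |Q (fun w => eval u (gZ n k t w)) f S|) m S := by
  intro m
  induction m with
  | zero =>
    intro j i S hj _
    refine ⟨Q (gZ n k t) f S, ?_, fun u => ?_⟩
    · have : gU n k j i = 1 := by
        unfold gU; rw [dif_neg]; omega
      simp [this]
    · simp [chainL, eval_Q]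
  | succ m ih =>
    intro j i S hj hS'
    have hjk : (j : ℕ) < k := by omega
    have key : ∀ w ∈ Sᶜ, ∃ G : GR n k,
        E (pderiv (⟨j, hjk⟩, i) (gZ n k t w) * Q (gZ n k t) f (insert w S)) = v ^ m * E G ∧
        ∀ u, |eval u G| ≤ (1 / rt n) ^ (m + 1) *
          chainL (fun S => |Q (fun w => eval u (gZ n k t w)) f S|) m (insert w S) := by
      intro w hw
      have hne : w ≠ ((⟨j, hjk⟩ : Fin k).castSucc, i) := by
        rintro rfl
        exact (mem_compl.1 hw) hS'
      rw [pderiv_gZ t _ _ w hne]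
      split_ifs with h
      · obtain ⟨G, hG1, hG2⟩ := ih w.1 w.2 (insert w S) (by simp only at h; omega)
          (mem_insert_self _ _)
        refine ⟨C ((had w.2 i : ℝ) / rt n) * G, ?_, fun u => ?_⟩
        · simp only at h
          rw [mul_assoc, C_mul', C_mul', map_smul, map_smul, ← h, hG1]
          simp only [smul_eq_mul]; ring
        · rw [map_mul, eval_C, abs_mul, abs_div, abs_had, abs_of_pos (rt_pos n), pow_succ',
            mul_assoc]
          exact mul_le_mul_of_nonneg_left (hG2 u) (by have := rt_pos n; positivity)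
      · refine ⟨0, by simp, fun u => ?_⟩
        simp only [map_zero, abs_zero]
        exact mul_nonneg (by have := rt_pos n; positivity)
          (chainL_nonneg (fun _ => abs_nonneg _) _ _)
    choose! G hG1 hG2 using key
    refine ⟨∑ w ∈ Sᶜ, G w, ?_, fun u => ?_⟩
    · have : gU n k j i = X (⟨j, hjk⟩, i) := by
        unfold gU; rw [dif_pos hjk]
      rw [this, hS, Q_deriv, map_sum, map_sum, Finset.sum_congr rfl hG1, ← Finset.mul_sum]
      ring
    · rw [map_sum]
      refine (Finset.abs_sum_le_sum_abs _ _).trans ?_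
      simp only [chainL]
      rw [Finset.mul_sum]
      exact Finset.sum_le_sum fun w hw => hG2 w hw u

theorem hasDerivAt_poly {R : Type} [CommRing R] [Algebra ℝ R] (E : R →ₗ[ℝ] ℝ) (P : Polynomial R)
    (t : ℝ) : HasDerivAt (fun s : ℝ => E (P.eval (algebraMap ℝ R s)))
      (E (P.derivative.eval (algebraMap ℝ R t))) t := by
  induction P using Polynomial.induction_on' with
  | add p q hp hq =>
    simp only [map_add, Polynomial.eval_add]
    exact hp.add hq
  | monomial m a =>
    have h1 : ∀ (s : ℝ) (b : R) (e : ℕ), E (b * algebraMap ℝ R s ^ e) = s ^ e * E b := by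
      intro s b e
      rw [← map_pow, mul_comm, ← Algebra.smul_def, map_smul, smul_eq_mul]
    simp only [Polynomial.eval_monomial, Polynomial.derivative_monomial, h1]
    have h2 : E (a * (m : R)) = m * E a := by
      rw [mul_comm, ← nsmul_eq_mul, map_nsmul, nsmul_eq_mul]
    rw [h2, ← mul_assoc, mul_comm (t ^ (m - 1))]
    exact (hasDerivAt_pow m t).mul_const (E a)

theorem hasDerivAt_psi (E : GR n k →ₗ[ℝ] ℝ) (f : (FW n k → Bool) → ℝ) (t : ℝ) :
    HasDerivAt (fun s : ℝ => E (Q (gZ n k s) f ∅))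
      (∑ i, E (gU n k 0 i * Q (gZ n k t) f {(0, i)})) t := by
  let ζ : FW n k → Polynomial (GR n k) := fun w =>
    if w.1 = 0 then Polynomial.X * Polynomial.C (gU n k 0 w.2) else Polynomial.C (gZ n k 0 w)
  let φ : ℝ → Polynomial (GR n k) →ₐ[ℝ] GR n k := fun s =>
    (Polynomial.aeval (algebraMap ℝ (GR n k) s)).restrictScalars ℝ
  have hφ : ∀ s P, φ s P = P.eval (algebraMap ℝ (GR n k) s) := fun s P => by
    simp only [φ, AlgHom.restrictScalars_apply, Polynomial.coe_aeval_eq_eval]
  have hζ : ∀ s w, φ s (ζ w) = gZ n k s w := by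
    rintro s ⟨j, i⟩
    rw [hφ]
    refine Fin.cases ?_ (fun j => ?_) j
    · simp [ζ, gZ, gA]; ring
    · simp [ζ, gZ, gA]
  have hQ : ∀ s S, (Q ζ f S).eval (algebraMap ℝ (GR n k) s) = Q (gZ n k s) f S := fun s S => by
    rw [← hφ, Q_map]; simp only [hζ]
  have h := hasDerivAt_poly E (Q ζ f ∅) t
  simp only [hQ] at h
  convert h using 1
  let D : Derivation ℝ (Polynomial (GR n k)) (Polynomial (GR n k)) :=
    (Polynomial.derivative' (R := GR n k)).restrictScalars ℝ
  have hD : ∀ P, D P = Polynomial.derivative P := fun P => rfl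
  rw [← hD, Q_deriv, Polynomial.eval_finsetSum, map_sum, compl_empty, Fintype.sum_prod_type,
    Fin.sum_univ_succ]
  simp only [hD, Polynomial.eval_mul, hQ]
  simp [ζ]

/-- The derivative of `Ψ` is the expectation of a polynomial controlled by level `k + 1`. -/
theorem psi_deriv (E : GR n k →ₗ[ℝ] ℝ) (v : ℝ)
    (hS : ∀ i p, E (X i * p) = v * E (pderiv i p)) (t : ℝ) (f : (FW n k → Bool) → ℝ) :
    ∃ G : GR n k, HasDerivAt (fun s : ℝ => E (Q (gZ n k s) f ∅)) (v ^ k * E G) t ∧
      ∀ u, |eval u G| ≤ (1 / rt n) ^ k * ((k + 1).factorial *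
        ∑ S ∈ powersetCard (k + 1) (univ : Finset (FW n k)),
          |Q (fun w => eval u (gZ n k t w)) f S|) := by
  have key := fun i : I n => stein_chain E v hS t f k 0 i {(0, i)} (by simp) (by simp)
  choose G hG1 hG2 using key
  refine ⟨∑ i, G i, ?_, fun u => ?_⟩
  · have := hasDerivAt_psi E f t
    simp only [Fin.val_zero] at hG1
    simp only [hG1] at this
    rwa [map_sum, Finset.mul_sum]
  · rw [map_sum]
    refine (Finset.abs_sum_le_sum_abs _ _).trans ?_
    refine (Finset.sum_le_sum fun i _ => hG2 i u).trans ?_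
    rw [← Finset.mul_sum]
    refine mul_le_mul_of_nonneg_left ?_ (by have := rt_pos n; positivity)
    refine le_trans ?_ (chainL_empty_le (fun _ => abs_nonneg _) (k + 1))
    simp only [chainL, compl_empty, insert_empty_eq]
    rw [Fintype.sum_prod_type, Fin.sum_univ_succ]
    exact le_add_of_nonneg_right (Finset.sum_nonneg fun _ _ => Finset.sum_nonneg fun _ _ =>
      chainL_nonneg (fun _ => abs_nonneg _) _ _)

end Crest.Agent.R350
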