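import Crest.Agent.R350.CoreA
import Crest.Agent.R350.Gauss

/-!
# Row 350: the tail weight, and the Forrelation mean
-/

set_option autoImplicit false

namespace Crest.Agent.R350

open Finset MvPolynomial

variable {n k : ℕ}

/-- A polynomial that dominates `∏ max 1 |Z_w|` and is at least `3/2` outside the small cube. -/
noncomputable def gW (n k p : ℕ) : GR n k :=
  C (1 / 2) * (∏ a : Fin k × I n, (1 + (2 * gU n k a.1 a.2) ^ (2 * p)) +
    ∏ a : Fin k × I n, (1 + (2 * gV n k a.1 a.2) ^ (2 * p)))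

theorem eval_gW (p : ℕ) (u : Fin k × I n → ℝ) :
    eval u (gW n k p) = 1 / 2 * (∏ a : Fin k × I n, (1 + (2 * eval u (gU n k a.1 a.2)) ^ (2 * p)) +
      ∏ a : Fin k × I n, (1 + (2 * eval u (gV n k a.1 a.2)) ^ (2 * p))) := by
  simp [gW, map_prod]

theorem tail_one_le (p : ℕ) (y : ℝ) : 1 ≤ 1 + (2 * y) ^ (2 * p) := by
  have : 0 ≤ (2 * y) ^ (2 * p) := by rw [pow_mul]; positivity
  linarith

theorem tail_sq_le {p : ℕ} (hp : 1 ≤ p) (y : ℝ) : max 1 |y| ^ 2 ≤ 1 + (2 * y) ^ (2 * p) := by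
  rcases le_total |y| 1 with h | h
  · rw [max_eq_left h, one_pow]; exact tail_one_le p y
  · rw [max_eq_right h, pow_mul, sq_abs]
    have h1 : 1 ≤ y ^ 2 := by rw [← sq_abs]; nlinarith
    have h2 : 1 ≤ (2 * y) ^ 2 := by nlinarith
    have h3 : (2 * y) ^ 2 ≤ ((2 * y) ^ 2) ^ p := le_self_pow₀ h2 (by omega)
    nlinarith

theorem tail_two_le (p : ℕ) {y : ℝ} (hy : 1 / 2 < |y|) : 2 ≤ 1 + (2 * y) ^ (2 * p) := by
  have h2 : 1 ≤ (2 * y) ^ 2 := by
    have : (2 * y) ^ 2 = 4 * |y| ^ 2 := by rw [sq_abs]; ring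
    nlinarith
  have := one_le_pow₀ (n := p) h2
  rw [pow_mul]; linarith

theorem prod_tail_one_le {V : Type} [Fintype V] (p : ℕ) (y : V → ℝ) :
    1 ≤ ∏ a, (1 + (2 * y a) ^ (2 * p)) :=
  Finset.one_le_prod fun a _ => tail_one_le p (y a)

theorem prod_tail_two_le {V : Type} [Fintype V] [DecidableEq V] (p : ℕ) (y : V → ℝ) (a : V)
    (ha : 1 / 2 < |y a|) : 2 ≤ ∏ a, (1 + (2 * y a) ^ (2 * p)) := by
  rw [← Finset.mul_prod_erase _ _ (mem_univ a)]
  have h1 := tail_two_le p ha
  have h2 : 1 ≤ ∏ b ∈ univ.erase a, (1 + (2 * y b) ^ (2 * p)) :=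
    Finset.one_le_prod fun b _ => tail_one_le p (y b)
  nlinarith

theorem one_le_gW (p : ℕ) (u : Fin k × I n → ℝ) : 1 ≤ eval u (gW n k p) := by
  rw [eval_gW]
  have h1 := prod_tail_one_le p fun a : Fin k × I n => eval u (gU n k a.1 a.2)
  have h2 := prod_tail_one_le p fun a : Fin k × I n => eval u (gV n k a.1 a.2)
  linarith

theorem gU_last (i : I n) : gU n k k i = 1 := by simp [gU]

theorem prod_max_le_gW {p : ℕ} (hp : 1 ≤ p) {t : ℝ} (ht : |t| ≤ 1) (u : Fin k × I n → ℝ) :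
    ∏ w, max 1 |eval u (gZ n k t w)| ≤ eval u (gW n k p) := by
  have h0 : ∀ y : ℝ, 0 ≤ max 1 |y| := fun y => le_max_of_le_left zero_le_one
  have h1 : ∏ w, max 1 |eval u (gZ n k t w)| ≤
      (∏ w : FW n k, max 1 |eval u (gA n k t w.1 w.2)|) *
        ∏ w : FW n k, max 1 |eval u (gU n k w.1 w.2)| := by
    rw [← Finset.prod_mul_distrib]
    refine Finset.prod_le_prod (fun w _ => h0 _) fun w _ => ?_
    rw [gZ, map_mul, abs_mul]
    refine max_le ?_ ?_
    · exact one_le_mul_of_one_le_of_one_le (le_max_left _ _) (le_max_left _ _)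
    · exact mul_le_mul (le_max_right _ _) (le_max_right _ _) (abs_nonneg _) (h0 _)
  have h2 : ∏ w : FW n k, max 1 |eval u (gA n k t w.1 w.2)| =
      ∏ a : Fin k × I n, max 1 |eval u (gV n k a.1 a.2)| := by
    rw [Fintype.prod_prod_type, Fintype.prod_prod_type, Fin.prod_univ_succ]
    simp [gA, max_eq_left ht]
  have h3 : ∏ w : FW n k, max 1 |eval u (gU n k w.1 w.2)| =
      ∏ a : Fin k × I n, max 1 |eval u (gU n k a.1 a.2)| := by
    rw [Fintype.prod_prod_type, Fintype.prod_prod_type, Fin.prod_univ_castSucc]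
    simp [gU_last]
  have h4 : ∀ y : Fin k × I n → ℝ, (∏ a, max 1 |y a|) ^ 2 ≤ ∏ a, (1 + (2 * y a) ^ (2 * p)) := by
    intro y
    rw [← Finset.prod_pow]
    exact Finset.prod_le_prod (fun a _ => by positivity) fun a _ => tail_sq_le hp _
  rw [h2, h3] at h1
  rw [eval_gW]
  have h5 := h4 fun a => eval u (gU n k a.1 a.2)
  have h6 := h4 fun a => eval u (gV n k a.1 a.2)
  nlinarith [sq_nonneg ((∏ a : Fin k × I n, max 1 |eval u (gV n k a.1 a.2)|) -
    ∏ a : Fin k × I n, max 1 |eval u (gU n k a.1 a.2)|)]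

theorem small_or_gW (hk : 1 ≤ k) (p : ℕ) {t : ℝ} (ht : |t| ≤ 1) (u : Fin k × I n → ℝ) :
    (∀ w, |eval u (gZ n k t w)| ≤ 1 / 2) ∨ 3 / 2 ≤ eval u (gW n k p) := by
  have h1 := prod_tail_one_le p fun a : Fin k × I n => eval u (gU n k a.1 a.2)
  have h2 := prod_tail_one_le p fun a : Fin k × I n => eval u (gV n k a.1 a.2)
  by_cases hU : ∃ a : Fin k × I n, 1 / 2 < |eval u (gU n k a.1 a.2)|
  · obtain ⟨a, ha⟩ := hU
    have := prod_tail_two_le p (fun a : Fin k × I n => eval u (gU n k a.1 a.2)) a ha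
    right; rw [eval_gW]; linarith
  by_cases hV : ∃ a : Fin k × I n, 1 / 2 < |eval u (gV n k a.1 a.2)|
  · obtain ⟨a, ha⟩ := hV
    have := prod_tail_two_le p (fun a : Fin k × I n => eval u (gV n k a.1 a.2)) a ha
    right; rw [eval_gW]; linarith
  left
  push Not at hU hV
  rintro ⟨j, i⟩
  rw [gZ, map_mul, abs_mul]
  refine Fin.cases ?_ (fun j => ?_) j
  · have := hU (⟨0, hk⟩, i)
    simp only [gA, Fin.val_zero, eval_C] at this ⊢
    nlinarith [abs_nonneg t, abs_nonneg (eval u (gU n k 0 i))]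
  · have h3 := hV (j, i)
    have h4 : |eval u (gU n k (j + 1) i)| ≤ 1 := by
      by_cases h : (j : ℕ) + 1 < k
      · exact (hU (⟨j + 1, h⟩, i)).trans (by norm_num)
      · simp [gU, h]
    simp only [gA, Fin.val_succ] at h3 ⊢
    nlinarith [abs_nonneg (eval u (gV n k j i)), abs_nonneg (eval u (gU n k (j + 1) i))]

theorem gU_fin (a : Fin k × I n) : gU n k a.1 a.2 = X a := by
  simp [gU]

theorem had_orth_real (i i' : I n) :
    ∑ j, (had i j : ℝ) / rt n * ((had i' j : ℝ) / rt n) = if i = i' then 1 else 0 := by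
  have h : ∑ j, (had i j : ℝ) * (had i' j : ℝ) = if i = i' then 2 ^ n else 0 := by
    have := congrArg (fun z : ℤ => (z : ℝ)) (had_orth i i')
    push_cast at this
    exact this
  have h2 := rt_sq n
  have h3 := (rt_pos n).ne'
  simp only [div_mul_div_comm]
  rw [← Finset.sum_div, h]
  split_ifs
  · rw [← h2]; field_simp
  · simp

theorem deriv_sum_apply {R J : Type} [CommRing R] [Algebra ℝ R] (s : Finset J)
    (D : J → Derivation ℝ R R) (q : R) : (∑ j ∈ s, D j) q = ∑ j ∈ s, D j q := by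
  classical
  induction s using Finset.induction_on with
  | empty => simp
  | insert a s ha ih => simp [Finset.sum_insert ha, ih]

theorem E_gW_le (E : GR n k →ₗ[ℝ] ℝ) (hE : E 1 = 1) (v : ℝ) (hv : 0 ≤ v)
    (hS : ∀ i p, E (X i * p) = v * E (pderiv i p)) (p : ℕ) :
    E (gW n k p) ≤ (1 + (8 * p * v) ^ p) ^ (k * 2 ^ n) := by
  have hc : Fintype.card (Fin k × I n) = k * 2 ^ n := by simp
  have h1 := stein_prod E hE v hv (fun a : Fin k × I n => gU n k a.1 a.2) (fun a => pderiv a)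
    (fun a q => by simp only [gU_fin]; exact hS a q)
    (fun a b => by simp only [gU_fin, pderiv_X, Pi.single_apply, eq_comm]) p
  have h2 := stein_prod E hE v hv (fun a : Fin k × I n => gV n k a.1 a.2)
    (fun a => ∑ i', ((had a.2 i' : ℝ) / rt n) • (pderiv (a.1, i') : Derivation ℝ (GR n k) (GR n k)))
    (fun a q => by
      simp only [gV, Finset.sum_mul, map_sum, deriv_sum_apply,
        Derivation.coe_smul, Pi.smul_apply, map_smul, smul_eq_mul, Finset.mul_sum]
      refine Finset.sum_congr rfl fun i' _ => ?_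
      rw [mul_assoc, C_mul', map_smul, gU_fin (a.1, i'), hS, smul_eq_mul]
      ring)
    (fun a b => by
      simp only [deriv_sum_apply, Derivation.coe_smul, Pi.smul_apply,
        pderiv_gV]
      by_cases h : (b.1 : ℕ) = a.1
      · simp only [h, if_true, smul_eq_C_mul, ← map_mul, ← map_sum, had_orth_real]
        have : (a = b) ↔ a.2 = b.2 := ⟨fun h => by rw [h], fun h' => Prod.ext (Fin.ext h.symm) h'⟩
        simp only [this]
        split_ifs <;> simp
      · have : a ≠ b := fun h' => h (by rw [h'])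
        simp [h, this]) p
  rw [hc] at h1 h2
  rw [gW, C_mul', map_smul, map_add, smul_eq_mul]
  linarith

/-- A signed measure of total mass one and small negative part is close to a probability vector. -/
theorem signed_to_prob {Ω : Type} [Fintype Ω] (m : Ω → ℝ) (τ : ℝ) (h1 : ∑ x, m x = 1)
    (h2 : ∑ x, |m x| ≤ 1 + τ) : ∃ μ : Ω → ℝ, IsProb μ ∧
      ∀ f : Ω → ℝ, (∀ x, |f x| ≤ 1) → |∑ x, μ x * f x - ∑ x, m x * f x| ≤ 2 * τ := by
  set Z := ∑ x, |m x| with hZ
  have hZ1 : 1 ≤ Z := by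
    rw [← h1]; exact Finset.sum_le_sum fun x _ => le_abs_self _
  have hZ0 : 0 < Z := by linarith
  refine ⟨fun x => |m x| / Z, ⟨fun x => by positivity, ?_⟩, fun f hf => ?_⟩
  · rw [← Finset.sum_div, ← hZ, div_self hZ0.ne']
  · rw [← Finset.sum_sub_distrib]
    refine (Finset.abs_sum_le_sum_abs _ _).trans ?_
    have : ∀ x, abs (|m x| / Z * f x - m x * f x) ≤ (|m x| - |m x| / Z) + (|m x| - m x) := by
      intro x
      rw [← sub_mul, abs_mul]
      have a1 : |m x| / Z ≤ |m x| := div_le_self (abs_nonneg _) hZ1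
      have a2 : m x ≤ |m x| := le_abs_self _
      have a3 : abs (|m x| / Z - m x) ≤ (|m x| - |m x| / Z) + (|m x| - m x) := by
        rw [abs_le]; constructor <;> linarith
      exact (mul_le_of_le_one_right (abs_nonneg _) (hf x)).trans a3
    refine (Finset.sum_le_sum fun x _ => this x).trans ?_
    rw [Finset.sum_add_distrib, Finset.sum_sub_distrib, Finset.sum_sub_distrib, ← Finset.sum_div,
      ← hZ, div_self hZ0.ne', h1]
    linarith

section mean

variable {W R : Type} [Fintype W] [DecidableEq W] [CommRing R] [Algebra ℝ R]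

theorem Q_sum {J : Type} [Fintype J] (ζ : W → R) (c : J → ℝ) (g : J → (W → Bool) → ℝ)
    (S : Finset W) :
    Q ζ (fun x => ∑ j, c j * g j x) S = ∑ j, algebraMap ℝ R (c j) * Q ζ (g j) S := by
  simp only [Q, map_sum, map_mul, Finset.sum_mul, Finset.mul_sum, mul_assoc]
  exact Finset.sum_comm

theorem E_Q_eq (E : R →ₗ[ℝ] ℝ) (ζ : W → R) : ∃ m : (W → Bool) → ℝ,
    ∀ f, E (Q ζ f ∅) = ∑ x, m x * f x := by
  refine ⟨fun x => E (∏ w, if w ∈ (∅ : Finset W) then algebraMap ℝ R (sg (x w) / 2)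
      else algebraMap ℝ R (1 / 2) * (1 + algebraMap ℝ R (sg (x w)) * ζ w)), fun f => ?_⟩
  simp only [Q, map_sum, ← Algebra.smul_def, map_smul, smul_eq_mul, mul_comm]

end mean

theorem fvec_map {R R' : Type} [CommRing R] [CommRing R'] (φ : R →+* R') (s : ℕ → I n → R) :
    ∀ (j : ℕ) (i : I n), φ (fvec s j i) = fvec (fun j i => φ (s j i)) j i
  | 0, _ => rfl
  | j + 1, i => by simp [fvec, map_sum, fvec_map φ s j]

theorem sgZ_cast (b : Bool) : ((sgZ b : ℤ) : ℝ) = sg b := by cases b <;> simp [sgZ, sg]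

theorem forr_eq (y : FW n k → Bool) :
    forr y = ∑ i, (1 / rt n ^ (k + 2)) * fvec (blk fun w => sg (y w)) k i := by
  have h : ∀ i, ((fvec (blk fun w => sgZ (y w)) k i : ℤ) : ℝ) =
      fvec (blk fun w => sg (y w)) k i := by
    intro i
    have := fvec_map (Int.castRingHom ℝ) (blk fun w => sgZ (y w)) k i
    rw [eq_intCast] at this
    rw [this]
    congr 1
    funext j i
    simp only [blk]
    split_ifs <;> simp [sgZ_cast]
  rw [forr, forrZ, Int.cast_sum, ← Finset.mul_sum, rt]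
  simp only [h]
  ring

theorem Q_fvec {R : Type} [CommRing R] [Algebra ℝ R] (ζ : FW n k → R) :
    ∀ (j : ℕ), j < k + 1 → ∀ (i : I n) (S : Finset (FW n k)), (∀ w ∈ S, j < (w.1 : ℕ)) →
      Q ζ (fun x => (∏ w ∈ S, sg (x w)) * fvec (blk fun w => sg (x w)) j i) ∅ =
        (∏ w ∈ S, ζ w) * fvec (blk ζ) j i := by
  intro j
  induction j with
  | zero =>
    intro hj i S hS
    have hn : ((⟨0, hj⟩ : Fin (k + 1)), i) ∉ S := fun h => by simpa using hS _ h
    have := Q_char ζ (insert ((⟨0, hj⟩ : Fin (k + 1)), i) S)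
    simp only [Finset.prod_insert hn] at this
    simp only [fvec, blk, dif_pos hj]
    rw [mul_comm, ← this]
    simp only [mul_comm]
  | succ j ih =>
    intro hj i S hS
    have hn : ((⟨j + 1, hj⟩ : Fin (k + 1)), i) ∉ S := fun h => by simpa using hS _ h
    have ih' := fun i' => ih (by omega) i' (insert ((⟨j + 1, hj⟩ : Fin (k + 1)), i) S) (by
      intro w hw
      rcases mem_insert.1 hw with rfl | hw
      · simp
      · have := hS w hw; omega)
    simp only [Finset.prod_insert hn] at ih'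
    have e1 : (fun x : FW n k → Bool =>
        (∏ w ∈ S, sg (x w)) * fvec (blk fun w => sg (x w)) (j + 1) i) =
        fun x => ∑ i', (had i i' : ℝ) * ((sg (x (⟨j + 1, hj⟩, i)) * ∏ w ∈ S, sg (x w)) *
          fvec (blk fun w => sg (x w)) j i') := by
      funext x
      simp only [fvec, blk, dif_pos hj, Finset.mul_sum]
      exact Finset.sum_congr rfl fun i' _ => by ring
    rw [e1, Q_sum]
    simp only [ih', fvec, blk, dif_pos hj, Finset.mul_sum, map_intCast]
    exact Finset.sum_congr rfl fun i' _ => by ring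

theorem Q_forr {R : Type} [CommRing R] [Algebra ℝ R] (ζ : FW n k → R) :
    Q ζ forr ∅ = ∑ i, algebraMap ℝ R (1 / rt n ^ (k + 2)) * fvec (blk ζ) k i := by
  have : (forr : (FW n k → Bool) → ℝ) =
      fun y => ∑ i, (1 / rt n ^ (k + 2)) * fvec (blk fun w => sg (y w)) k i := funext forr_eq
  rw [this, Q_sum]
  refine Finset.sum_congr rfl fun i _ => ?_
  have := Q_fvec ζ k (by omega) i ∅ (by simp)
  simp only [Finset.prod_empty, one_mul] at this
  rw [this]

/-- The Forrelation vector of `Z_t` without its last factor. -/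
noncomputable def gE (n k : ℕ) (t : ℝ) : ℕ → I n → GR n k
  | 0, _ => C t
  | j + 1, i => gV n k j i * ∑ i', (had i i' : GR n k) * (gU n k j i' * gE n k t j i')

theorem fvec_gZ (t : ℝ) : ∀ j : ℕ, j < k + 1 → ∀ i : I n,
    fvec (blk (gZ n k t)) j i = gU n k j i * gE n k t j i
  | 0, hj, i => by simp [fvec, blk, gZ, gA, gE]; ring
  | j + 1, hj, i => by
    simp only [fvec, blk, dif_pos hj, gZ, gA, gE, fvec_gZ t j (by omega)]
    ring

theorem pderiv_gE (t : ℝ) (a : Fin k) (i : I n) : ∀ j : ℕ, j ≤ a → ∀ i' : I n,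
    pderiv (a, i) (gE n k t j i') = 0
  | 0, _, _ => by simp [gE]
  | j + 1, hj, i' => by
    have h : j ≠ (a : ℕ) := by omega
    simp [gE, Derivation.leibniz, pderiv_gV, pderiv_gU, h, map_sum, pderiv_gE t a i j (by omega)]

theorem E_gE (E : GR n k →ₗ[ℝ] ℝ) (hE : E 1 = 1) (v : ℝ)
    (hS : ∀ i p, E (X i * p) = v * E (pderiv i p)) (t : ℝ) : ∀ j : ℕ, j ≤ k → ∀ i : I n,
    E (gE n k t j i) = t * (v * rt n) ^ j
  | 0, _, i => by
    have : (C t : GR n k) = t • 1 := by rw [smul_eq_C_mul, mul_one]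
    simp [gE, this, hE]
  | j + 1, hj, i => by
    have hjk : j < k := by omega
    have h1 : ∀ i', E (gV n k j i * ((had i i' : GR n k) * (gU n k j i' * gE n k t j i'))) =
        (had i i' : ℝ) / rt n * ((had i i' : ℝ) / rt n) * (t * (v * rt n) ^ (j + 1)) := by
      intro i'
      have e1 : gV n k j i * ((had i i' : GR n k) * (gU n k j i' * gE n k t j i')) =
          (had i i' : ℝ) • (X (⟨j, hjk⟩, i') * (gV n k j i * gE n k t j i')) := by
        rw [smul_eq_C_mul, ← gU_fin (⟨j, hjk⟩, i'), map_intCast]; ring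
      rw [e1, map_smul, hS, Derivation.leibniz, pderiv_gE t _ _ j le_rfl, pderiv_gV, if_pos rfl,
        smul_zero, zero_add, smul_eq_mul, smul_eq_mul, mul_comm (gE n k t j i'), C_mul', map_smul,
        E_gE E hE v hS t j hjk.le, smul_eq_mul]
      have := (rt_pos n).ne'
      field_simp
      ring
    rw [gE, Finset.mul_sum, map_sum]
    simp only [h1]
    rw [← Finset.sum_mul, had_orth_real, if_pos rfl, one_mul]

theorem E_Q_forr (E : GR n k →ₗ[ℝ] ℝ) (hE : E 1 = 1) (v : ℝ)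
    (hS : ∀ i p, E (X i * p) = v * E (pderiv i p)) (t : ℝ) :
    E (Q (gZ n k t) forr ∅) = t * v ^ k := by
  rw [Q_forr, map_sum]
  simp only [← Algebra.smul_def, map_smul, fvec_gZ t k (Nat.lt_succ_self k), gU_last, one_mul,
    E_gE E hE v hS t k le_rfl, smul_eq_mul, Finset.sum_const, Finset.card_univ, card_I,
    nsmul_eq_mul]
  have h1 := (rt_pos n).ne'
  have h2 := rt_sq n
  push_cast
  rw [← h2]
  field_simp
  ring

end Crest.Agent.R350
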