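import Crest.Agent.R350.InstU

/-!
# Row 350: the number of queries
-/

set_option autoImplicit false

namespace Crest.Agent.R350

theorem nine_pow_clog_le (M : ℕ) (hM : 1 ≤ M) : 9 ^ Nat.clog 9 M ≤ 9 * M := by
  rcases hM.eq_or_lt with rfl | h
  · simp
  · have h1 := Nat.pow_pred_clog_lt_self (b := 9) (by norm_num) h
    have h2 : 0 < Nat.clog 9 M := Nat.clog_pos (by norm_num) h
    obtain ⟨s, hs⟩ : ∃ s, Nat.clog 9 M = s + 1 := ⟨Nat.clog 9 M - 1, by omega⟩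
    rw [hs] at h1 ⊢
    simp only [Nat.pred_eq_sub_one, Nat.add_sub_cancel] at h1
    rw [pow_succ]; omega

theorem three_pow_clog_le (M c : ℕ) (hM : 1 ≤ M) (h : M ≤ c ^ 2) : 3 ^ Nat.clog 9 M ≤ 3 * c := by
  have h1 := nine_pow_clog_le M hM
  have h2 : (3 ^ Nat.clog 9 M) ^ 2 ≤ (3 * c) ^ 2 := by
    rw [← pow_mul, mul_comm, pow_mul, mul_pow]
    norm_num
    omega
  exact (Nat.pow_le_pow_iff_left (by norm_num)).1 h2

theorem cost_le (j k T Δ P : ℕ) (hP : 2 * j + k + T + Δ + 64 ≤ P) :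
    cost (2 * j) k T Δ ≤ P ^ 19 * 2 ^ j := by
  set n := 2 * j with hn
  have h2n : 2 ^ n = (2 ^ j) ^ 2 := by rw [hn, mul_comm, pow_mul]
  have hJ : 1 ≤ 2 ^ j := Nat.one_le_two_pow
  have hN : 1 ≤ 2 ^ n := Nat.one_le_two_pow
  have hP1 : 1 ≤ P := by omega
  have pw : ∀ a b : ℕ, a ≤ b → P ^ a ≤ P ^ b := fun a b h => Nat.pow_le_pow_right hP1 h
  have dbl : ∀ a : ℕ, P ^ a + P ^ a ≤ P ^ (a + 1) := fun a => by
    rw [pow_succ]; nlinarith [Nat.zero_le (P ^ a)]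
  have hS1 : Nat.clog 9 (2 * 2 ^ n) ≤ n + 1 := by
    rw [Nat.clog_le_iff_le_pow (by norm_num), ← pow_succ']
    exact Nat.pow_le_pow_left (by norm_num) _
  have h3S1 : 3 ^ Nat.clog 9 (2 * 2 ^ n) ≤ P * 2 ^ j := by
    refine (three_pow_clog_le _ (2 * 2 ^ j) (by omega) (by rw [mul_pow, ← h2n]; omega)).trans ?_
    nlinarith
  have ht : nRounds n ≤ P ^ 3 := by
    unfold nRounds
    calc 28 * (Nat.clog 9 (2 * 2 ^ n) + 1) * (n + 4) ≤ P * P * P := by gcongr <;> omega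
      _ = P ^ 3 := by ring
  have hq0 : n * (48 * nRounds n * n * Δ ^ 2) * (k + 1) ≤ P ^ 9 := by
    calc n * (48 * nRounds n * n * Δ ^ 2) * (k + 1) ≤ P * (P * P ^ 3 * P * P ^ 2) * P := by
          gcongr <;> omega
      _ = P ^ 9 := by ring
  have hq1 : nRounds n * (2 * (n + 1)) ≤ P ^ 9 := by
    calc nRounds n * (2 * (n + 1)) ≤ P ^ 3 * (P * P) := by gcongr <;> omega
      _ = P ^ 5 := by ring
      _ ≤ P ^ 9 := pw _ _ (by norm_num)
  have hB : nb n k ≤ P ^ 2 := by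
    unfold nb
    calc (k + 1) * n + 2 ≤ (k + 1) * (n + 2) := by nlinarith
      _ ≤ P * P := by gcongr <;> omega
      _ = P ^ 2 := by ring
  have hqc : (T + 3) * nb n k + n + 1 ≤ P ^ 4 := by
    have a1 : (T + 3) * nb n k ≤ P ^ 3 := by
      calc (T + 3) * nb n k ≤ P * P ^ 2 := by gcongr; omega
        _ = P ^ 3 := by ring
    have a2 : P ^ 1 ≤ P ^ 3 := pw _ _ (by norm_num)
    have a3 : P ^ 3 + P ^ 3 ≤ P ^ 4 := dbl 3
    rw [pow_one] at a2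
    omega
  have hcard : Fintype.card (Chk n k T) ≤ P ^ 5 * 2 ^ n := by
    have e : Fintype.card (Chk n k T) =
        2 ^ n + (2 ^ n + (n * T * ((k + 1) * ((n + 1) * 2 ^ n)) + n)) := by simp
    have a1 : n * T * ((k + 1) * ((n + 1) * 2 ^ n)) ≤ P ^ 4 * 2 ^ n := by
      calc n * T * ((k + 1) * ((n + 1) * 2 ^ n)) ≤ P * P * (P * (P * 2 ^ n)) := by
            gcongr <;> omega
        _ = P ^ 4 * 2 ^ n := by ring
    have a2 : n ≤ 2 ^ n := Nat.lt_two_pow_self.le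
    have a3 : 3 ≤ P ^ 4 := le_trans (by omega) (Nat.le_self_pow (by norm_num) P)
    have a4 := Nat.mul_le_mul_right (2 ^ n) (dbl 4)
    have a5 := Nat.mul_le_mul_right (2 ^ n) a3
    rw [e]
    norm_num at a4
    nlinarith
  have hc1 : 1 ≤ Fintype.card (Chk n k T) :=
    Fintype.card_pos_iff.2 ⟨Sum.inl fun _ => false⟩
  have h3S2 : 3 ^ Nat.clog 9 (Fintype.card (Chk n k T)) ≤ P ^ 4 * 2 ^ j := by
    refine (three_pow_clog_le _ (P ^ 3 * 2 ^ j) hc1 (hcard.trans ?_)).trans ?_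
    · rw [mul_pow, ← h2n, ← pow_mul]
      exact Nat.mul_le_mul_right _ (pw _ _ (by norm_num))
    · calc 3 * (P ^ 3 * 2 ^ j) ≤ P * (P ^ 3 * 2 ^ j) := by gcongr; omega
        _ = P ^ 4 * 2 ^ j := by ring
  have hS2 : Nat.clog 9 (Fintype.card (Chk n k T)) ≤ 6 * P := by
    rw [Nat.clog_le_iff_le_pow (by norm_num)]
    refine hcard.trans ?_
    have a1 : P ≤ 9 ^ P := (Nat.lt_pow_self (by norm_num)).le
    have a2 : 2 ^ n ≤ 9 ^ P :=
      (Nat.pow_le_pow_left (by norm_num) _).trans (Nat.pow_le_pow_right (by norm_num) (by omega))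
    calc P ^ 5 * 2 ^ n ≤ (9 ^ P) ^ 5 * 9 ^ P := by gcongr
      _ = 9 ^ (6 * P) := by ring
  have hg2 : 14 * (Nat.clog 9 (Fintype.card (Chk n k T)) + 1) ≤ P ^ 3 := by
    calc 14 * (Nat.clog 9 (Fintype.card (Chk n k T)) + 1) ≤ P * (P * P) := by
          gcongr
          · omega
          · nlinarith
      _ = P ^ 3 := by ring
  have ht2 : nRounds n + 2 ≤ P ^ 4 := by
    have a3 : 2 ≤ P ^ 3 := le_trans (by omega) (Nat.le_self_pow (by norm_num) P)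
    have : P ^ 3 + P ^ 3 ≤ P ^ 4 := dbl 3
    omega
  have hsum : n * (48 * nRounds n * n * Δ ^ 2) * (k + 1) + nRounds n * (2 * (n + 1)) ≤ P ^ 10 := by
    have : P ^ 9 + P ^ 9 ≤ P ^ 10 := dbl 9
    omega
  unfold cost
  calc _ ≤ P ^ 3 * (P * 2 ^ j * P ^ 10 + P ^ 4 * P ^ 3 * (P ^ 4 * 2 ^ j * P ^ 4)) := by gcongr
    _ = (P ^ 14 + P ^ 18) * 2 ^ j := by ring
    _ ≤ P ^ 19 * 2 ^ j := by
        have a1 := pw 14 18 (by norm_num)
        have a2 : P ^ 18 + P ^ 18 ≤ P ^ 19 := dbl 18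
        exact Nat.mul_le_mul_right _ (by omega)

end Crest.Agent.R350
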