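import Mathlib
import Crest.Prelude.Def_QueryComplexity

/-!
# Row 350 (S0554): definitions

Blueprint of the proof (all objects are defined in this file).

`N = 2 ^ n`, `I n = Fin n → Bool`.  The input has one *column* for each `c : I n`.  A column holds
* `n * T` instances of `(k+1)`-fold Forrelation (bits `yb`); the sign of the average Forrelation
  value of the `T` instances of row `l` hides bit `l` of an address `a : I n`;
* a *kill vector* `kb x c : I n → Bool`;
* one *sheet* for each address: pointers `ptr x c a d : I n` and an integer transcript `cell`.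
A vertex `(c, a)` is valid when the kill vector of `c` is zero, for every other column `d` the
pointer hits a kill bit of `d`, and the transcript is a correct fast Walsh-Hadamard computation
of all Forrelation values of column `c`, whose averages have the signs prescribed by `a`.
`bigF x` says that a valid vertex exists.

* Quantum upper bound: `u` beats `v` when `u` kills `v` and `v` does not kill `u`; this is an
  oriented graph in which the valid vertex beats everybody; sample repeatedly (amplitude
  amplification) a vertex beating all earlier samples; verify each sample by Grover search.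
* Randomized lower bound: an algorithm must find, for a constant fraction of the columns, the kill
  bit or the hidden address; both cost `N ^ (1 - 1/k)` (Forrelation lower bound).
-/

set_option autoImplicit false

namespace Crest.Agent.R350

open Finset

/-- The sign of a bit: `false ↦ 1`, `true ↦ -1`. -/
def sg (b : Bool) : ℝ := if b then -1 else 1

/-- Integer version of `sg`. -/
def sgZ (b : Bool) : ℤ := if b then -1 else 1

/-- Real functions with values in `[-1, 1]` computed by decision trees of depth at most `D`. -/
inductive TreeFn {W : Type} : ℕ → ((W → Bool) → ℝ) → Prop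
  | const (D : ℕ) (c : ℝ) (hc : |c| ≤ 1) : TreeFn D (fun _ => c)
  | node {D : ℕ} (w : W) {f₀ f₁ : (W → Bool) → ℝ} (h₀ : TreeFn D f₀) (h₁ : TreeFn D f₁) :
      TreeFn (D + 1) (fun x => if x w then f₁ x else f₀ x)

/-- A probability vector on a finite type. -/
def IsProb {Ω : Type} [Fintype Ω] (μ : Ω → ℝ) : Prop := (∀ ω, 0 ≤ μ ω) ∧ ∑ ω, μ ω = 1

/-! ## Multilinear extensions -/

/-- The mixed partial derivative along the coordinates in `S` of the multilinear extension of
`f : (W → Bool) → ℝ` (coordinates `sg (x w)`), evaluated at a point `ζ` with coordinates in a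
commutative real algebra. -/
noncomputable def Q {W R : Type} [Fintype W] [DecidableEq W] [CommRing R] [Algebra ℝ R]
    (ζ : W → R) (f : (W → Bool) → ℝ) (S : Finset W) : R :=
  ∑ x : W → Bool, algebraMap ℝ R (f x) *
    ∏ w, if w ∈ S then algebraMap ℝ R (sg (x w) / 2)
      else algebraMap ℝ R (1 / 2) * (1 + algebraMap ℝ R (sg (x w)) * ζ w)

/-! ## Forrelation -/

/-- The index set of size `2 ^ n`. -/
abbrev I (n : ℕ) : Type := Fin n → Bool

/-- The unnormalised Walsh-Hadamard matrix. -/
def had {n : ℕ} (i j : I n) : ℤ := ∏ r, sgZ (i r && j r)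

/-- The unnormalised Forrelation vectors `s_j ⊙ H (s_{j-1} ⊙ H ⋯ s_0)`. -/
def fvec {n : ℕ} {R : Type} [CommRing R] (s : ℕ → I n → R) : ℕ → I n → R
  | 0 => s 0
  | j + 1 => fun i => s (j + 1) i * ∑ i', (had i i' : R) * fvec s j i'

/-- Index set of one `(k+1)`-fold Forrelation instance. -/
abbrev FW (n k : ℕ) : Type := Fin (k + 1) × I n

/-- The blocks of a vector indexed by `FW n k`, extended by `1`. -/
def blk {n k : ℕ} {R : Type} [CommRing R] (z : FW n k → R) (j : ℕ) (i : I n) : R :=
  if h : j < k + 1 then z (⟨j, h⟩, i) else 1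

/-- The unnormalised (integer) Forrelation value. -/
def forrZ {n k : ℕ} (y : FW n k → Bool) : ℤ := ∑ i, fvec (blk fun w => sgZ (y w)) k i

/-- The normalised `(k+1)`-fold Forrelation value, in `[-1, 1]`. -/
noncomputable def forr {n k : ℕ} (y : FW n k → Bool) : ℝ :=
  (forrZ y : ℝ) / Real.sqrt (2 ^ n) ^ (k + 2)

/-! ## Quantum query algorithms -/

/-- A phase query: basis state `w` picks up the sign of the input bit `idx w`, if any. -/
def phase {ι W : Type} [DecidableEq W] (idx : W → Option ι) (x : ι → Bool) : Matrix W W ℝ :=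
  Matrix.diagonal fun w => (idx w).elim 1 fun i => sg (x i)

/-- Real orthogonal matrices. -/
def Orth {W : Type} [Fintype W] [DecidableEq W] (U : Matrix W W ℝ) : Prop :=
  U.transpose * U = 1

/-- Families of orthogonal matrices that are products of `q` phase queries and fixed orthogonal
matrices. -/
def Impl {ι W : Type} [Fintype W] [DecidableEq W] :
    ℕ → ((ι → Bool) → Matrix W W ℝ) → Prop
  | 0, A => ∃ U : Matrix W W ℝ, Orth U ∧ ∀ x, A x = U
  | q + 1, A => ∃ (U : Matrix W W ℝ) (idx : W → Option ι) (B : (ι → Bool) → Matrix W W ℝ),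
      Orth U ∧ Impl q B ∧ ∀ x, A x = U * phase idx x * B x

open Classical in
/-- `μ x` is the output distribution, on input `x`, of a quantum algorithm with `q` queries. -/
def Samp {ι Ω : Type} (q : ℕ) (μ : (ι → Bool) → Ω → ℝ) : Prop :=
  ∃ (W : Type) (_ : Fintype W) (_ : DecidableEq W) (w₀ : W)
    (A : (ι → Bool) → Matrix W W ℝ) (out : W → Ω),
    Impl q A ∧ ∀ x ω, μ x ω = ∑ w, if out w = ω then (A x w w₀) ^ 2 else 0

open Classical in
/-- The function `g` is computed exactly with `q` queries. -/
def Det {ι Ω : Type} (q : ℕ) (g : (ι → Bool) → Ω) : Prop :=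
  Samp q fun x ω => if g x = ω then 1 else 0

/-! ## The function -/

/-- Number of bits of a transcript cell. -/
def nb (n k : ℕ) : ℕ := (k + 1) * n + 2

/-- Decoding of a string of `B` bits as an integer in `[-2^(B-1), 2^(B-1))`. -/
noncomputable def dec {B : ℕ} (w : Fin B → Bool) : ℤ :=
  ((Fintype.equivFin (Fin B → Bool) w : ℕ) : ℤ) - 2 ^ (B - 1)

/-- Positions of the Forrelation instances of a column. -/
abbrev YIdx (n k T : ℕ) : Type := (Fin n × Fin T) × FW n k

/-- Transcript cells of a sheet. -/
abbrev CellIdx (n k T : ℕ) : Type := (Fin n × Fin T) × Fin (k + 1) × Fin (n + 1) × I n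

/-- Positions of a sheet. -/
abbrev SIdx (n k T : ℕ) : Type := (I n × Fin n) ⊕ (CellIdx n k T × Fin (nb n k))

/-- General shape of the input positions: columns `C`, Forrelation positions `Y`, addresses and
kill positions `A`, sheet positions `S`. -/
abbrev Lay (C Y A S : Type) : Type := C × (Y ⊕ A ⊕ (A × S))

/-- All input positions. -/
abbrev Idx (n k T : ℕ) : Type := Lay (I n) (YIdx n k T) (I n) (SIdx n k T)

section layout

variable {n k T : ℕ}

/-- Forrelation instance `j` of column `c`. -/
def yb (x : Idx n k T → Bool) (c : I n) (j : Fin n × Fin T) : FW n k → Bool :=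
  fun w => x (c, Sum.inl (j, w))

/-- Kill bit `i` of column `c`. -/
def kb (x : Idx n k T → Bool) (c i : I n) : Bool := x (c, Sum.inr (Sum.inl i))

/-- The pointer into column `d` of sheet `a` of column `c`. -/
def ptr (x : Idx n k T → Bool) (c a d : I n) : I n :=
  fun r => x (c, Sum.inr (Sum.inr (a, Sum.inl (d, r))))

/-- A transcript cell of sheet `a` of column `c`. -/
noncomputable def cell (x : Idx n k T → Bool) (c a : I n) (g : CellIdx n k T) : ℤ :=
  dec fun r => x (c, Sum.inr (Sum.inr (a, Sum.inr (g, r))))

/-- The local equation of the transcript `h` of the instance `y` at the cell `(j, s, i)`. -/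
def LocalEq (y : FW n k → Bool) (h : Fin (k + 1) × Fin (n + 1) × I n → ℤ)
    (g : Fin (k + 1) × Fin (n + 1) × I n) : Prop :=
  h g = Fin.cases
    (sgZ (y (g.1, g.2.2)) * Fin.cases 1 (fun j => h (j.castSucc, Fin.last n, g.2.2)) g.1)
    (fun s => h (g.1, s.castSucc, Function.update g.2.2 s false) +
      sgZ (g.2.2 s) * h (g.1, s.castSucc, Function.update g.2.2 s true)) g.2.1

/-- The promise: the average of `val l ·`, normalised, has the sign of `a l` and size at least
`1 / (2 Δ)`. -/
def SignOK (n k T Δ : ℕ) (b : Bool) (val : Fin T → ℤ) : Prop :=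
  (T : ℝ) / (2 * Δ) ≤ sg b * ∑ τ, (val τ : ℝ) / Real.sqrt (2 ^ n) ^ (k + 2)

/-- The local checks. -/
abbrev Chk (n k T : ℕ) : Type := I n ⊕ I n ⊕ CellIdx n k T ⊕ Fin n

/-- Vertex `v` passes the check. -/
def okP (Δ : ℕ) (x : Idx n k T → Bool) (v : I n × I n) : Chk n k T → Prop
  | Sum.inl i => kb x v.1 i = false
  | Sum.inr (Sum.inl d) => d = v.1 ∨ kb x d (ptr x v.1 v.2 d) = true
  | Sum.inr (Sum.inr (Sum.inl g)) =>
      LocalEq (yb x v.1 g.1) (fun g' => cell x v.1 v.2 (g.1, g')) g.2
  | Sum.inr (Sum.inr (Sum.inr l)) =>
      SignOK n k T Δ (v.2 l) fun τ => cell x v.1 v.2 ((l, τ), Fin.last k, Fin.last n, fun _ => false)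

open Classical in
/-- The total Boolean function. -/
noncomputable def bigF (n k T Δ : ℕ) (x : Idx n k T → Bool) : Bool :=
  decide (∃ v : I n × I n, ∀ ch, okP Δ x v ch)

/-- `u` kills `v`. -/
def kills (x : Idx n k T → Bool) (u v : I n × I n) : Bool := kb x v.1 (ptr x u.1 u.2 v.1)

/-- `u` beats `v`. -/
def beats (x : Idx n k T → Bool) (u v : I n × I n) : Bool := kills x u v && !kills x v u

end layout

end Crest.Agent.R350
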