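import Crest.Agent.R350.Defs

/-!
# Row 350: multilinear extensions and the level-`κ` Fourier growth of decision trees
-/

set_option autoImplicit false

namespace Crest.Agent.R350

open Finset

theorem gr_deriv_prod {W R : Type} [DecidableEq W] [CommRing R] [Algebra ℝ R]
    (D : Derivation ℝ R R) (g : W → R) (s : Finset W) :
    D (∏ w ∈ s, g w) = ∑ w ∈ s, D (g w) * ∏ w' ∈ s.erase w, g w' := by
  induction s using Finset.induction_on with
  | empty => simp
  | insert a s ha ih =>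
    rw [prod_insert ha, sum_insert ha, D.leibniz, ih, erase_insert ha, smul_eq_mul, smul_eq_mul,
      add_comm, mul_comm (∏ w ∈ s, g w), mul_sum]
    congr 1
    refine sum_congr rfl fun w hw => ?_
    have hwa : a ≠ w := fun h => ha (h ▸ hw)
    rw [erase_insert_of_ne hwa, prod_insert (fun h => ha (mem_of_mem_erase h))]
    ring

theorem gr_sg_sq (b : Bool) : sg b * sg b = 1 := by cases b <;> simp [sg]

theorem gr_abs_sg (b : Bool) : |sg b| = 1 := by cases b <;> simp [sg]

section basic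

variable {W R : Type} [Fintype W] [DecidableEq W] [CommRing R] [Algebra ℝ R]

theorem Q_map {R' : Type} [CommRing R'] [Algebra ℝ R'] (φ : R →ₐ[ℝ] R') (ζ : W → R)
    (f : (W → Bool) → ℝ) (S : Finset W) : φ (Q ζ f S) = Q (fun w => φ (ζ w)) f S := by
  unfold Q
  rw [map_sum]
  refine sum_congr rfl fun x _ => ?_
  rw [map_mul, AlgHom.commutes, map_prod]
  congr 1
  refine prod_congr rfl fun w _ => ?_
  split_ifs
  · rw [AlgHom.commutes]
  · rw [map_mul, map_add, map_mul, AlgHom.commutes, AlgHom.commutes, map_one]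

theorem Q_deriv (D : Derivation ℝ R R) (ζ : W → R) (f : (W → Bool) → ℝ) (S : Finset W) :
    D (Q ζ f S) = ∑ w ∈ Sᶜ, D (ζ w) * Q ζ f (insert w S) := by
  unfold Q
  rw [map_sum]
  simp_rw [mul_sum]
  rw [sum_comm]
  refine sum_congr rfl fun x _ => ?_
  rw [D.leibniz, D.map_algebraMap, smul_zero, add_zero, smul_eq_mul, gr_deriv_prod, mul_sum,
    ← sum_subset (subset_univ Sᶜ)]
  · refine sum_congr rfl fun w hw => ?_
    have hwS : w ∉ S := mem_compl.1 hw
    rw [← mul_prod_erase univ _ (mem_univ w), if_neg hwS, if_pos (mem_insert_self w S)]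
    have e1 : ∏ w' ∈ univ.erase w, (if w' ∈ insert w S then algebraMap ℝ R (sg (x w') / 2)
        else algebraMap ℝ R (1 / 2) * (1 + algebraMap ℝ R (sg (x w')) * ζ w'))
        = ∏ w' ∈ univ.erase w, (if w' ∈ S then algebraMap ℝ R (sg (x w') / 2)
        else algebraMap ℝ R (1 / 2) * (1 + algebraMap ℝ R (sg (x w')) * ζ w')) := by
      refine prod_congr rfl fun w' hw' => ?_
      have : w' ≠ w := ne_of_mem_erase hw'
      simp [this]
    have e2 : D (algebraMap ℝ R (1 / 2) * (1 + algebraMap ℝ R (sg (x w)) * ζ w))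
        = algebraMap ℝ R (sg (x w) / 2) * D (ζ w) := by
      rw [D.leibniz, D.map_algebraMap, smul_zero, add_zero, map_add, D.map_one_eq_zero, zero_add,
        D.leibniz, D.map_algebraMap, smul_zero, add_zero, smul_eq_mul, smul_eq_mul, ← mul_assoc,
        ← map_mul]
      congr 2
      ring
    rw [e1, e2]
    ring
  · intro w _ hw
    have hwS : w ∈ S := by simpa using hw
    rw [if_pos hwS, D.map_algebraMap]
    simp

theorem Q_char (ζ : W → R) (S : Finset W) :
    Q ζ (fun x => ∏ w ∈ S, sg (x w)) ∅ = ∏ w ∈ S, ζ w := by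
  unfold Q
  have e1 : ∀ x : W → Bool, algebraMap ℝ R (∏ w ∈ S, sg (x w)) *
      ∏ w, (if w ∈ (∅ : Finset W) then algebraMap ℝ R (sg (x w) / 2)
        else algebraMap ℝ R (1 / 2) * (1 + algebraMap ℝ R (sg (x w)) * ζ w))
      = ∏ w, ((if w ∈ S then algebraMap ℝ R (sg (x w)) else 1) *
        (algebraMap ℝ R (1 / 2) * (1 + algebraMap ℝ R (sg (x w)) * ζ w))) := by
    intro x
    rw [prod_mul_distrib, map_prod, prod_ite_mem, univ_inter]
    simp
  simp_rw [e1]
  rw [← Fintype.prod_sum (fun (w : W) (b : Bool) => (if w ∈ S then algebraMap ℝ R (sg b) else 1) *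
        (algebraMap ℝ R (1 / 2) * (1 + algebraMap ℝ R (sg b) * ζ w)))]
  have h2 : algebraMap ℝ R (1 / 2) * 2 = 1 := by
    rw [show (2 : R) = algebraMap ℝ R 2 from (map_ofNat _ 2).symm, ← map_mul]
    norm_num
  have e2 : ∀ w : W, ∑ b : Bool, (if w ∈ S then algebraMap ℝ R (sg b) else 1) *
        (algebraMap ℝ R (1 / 2) * (1 + algebraMap ℝ R (sg b) * ζ w))
        = if w ∈ S then ζ w else 1 := by
    intro w
    rw [Fintype.sum_bool]
    simp only [sg, if_true, Bool.false_eq_true, if_false, map_neg, map_one]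
    split_ifs
    · linear_combination (ζ w) * h2
    · linear_combination h2
  simp_rw [e2]
  rw [prod_ite_mem, univ_inter]

theorem Q_abs_le (z : W → ℝ) (f : (W → Bool) → ℝ) (hf : ∀ x, |f x| ≤ 1) (S : Finset W) :
    |Q z f S| ≤ ∏ w, max 1 |z w| := by
  unfold Q
  simp only [Algebra.algebraMap_self, RingHom.id_apply]
  refine (abs_sum_le_sum_abs _ _).trans ?_
  calc ∑ x : W → Bool, |f x * ∏ w, (if w ∈ S then sg (x w) / 2
          else 1 / 2 * (1 + sg (x w) * z w))|
      ≤ ∑ x : W → Bool, ∏ w, |(if w ∈ S then sg (x w) / 2 else 1 / 2 * (1 + sg (x w) * z w))| := by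
        refine sum_le_sum fun x _ => ?_
        rw [abs_mul, abs_prod]
        exact mul_le_of_le_one_left (prod_nonneg fun _ _ => abs_nonneg _) (hf x)
    _ = ∏ w, ∑ b : Bool, |(if w ∈ S then sg b / 2 else 1 / 2 * (1 + sg b * z w))| :=
        (Fintype.prod_sum (fun (w : W) (b : Bool) =>
          |(if w ∈ S then sg b / 2 else 1 / 2 * (1 + sg b * z w))|)).symm
    _ ≤ ∏ w, max 1 |z w| := by
        refine prod_le_prod (fun w _ => sum_nonneg fun _ _ => abs_nonneg _) fun w _ => ?_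
        rw [Fintype.sum_bool]
        simp only [sg, if_true, Bool.false_eq_true, if_false]
        have h1 := le_max_left 1 |z w|
        have h2 := le_max_right 1 |z w|
        have h3 := le_abs_self (z w)
        have h4 := neg_abs_le (z w)
        split_ifs
        · rw [abs_of_neg (by norm_num), abs_of_pos (by norm_num)]; linarith
        · rcases abs_cases (1 / 2 * (1 + -1 * z w)) with h | h <;>
            rcases abs_cases (1 / 2 * (1 + 1 * z w)) with h' | h' <;> linarith [h.1, h'.1]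

end basic

/-! ### One-step moment inequality -/

theorem gr_taylor (n : ℕ) : ∃ K : ℝ, 0 ≤ K ∧ ∀ M y : ℝ,
    |(M + y) ^ (n + 2) - M ^ (n + 2) - (n + 2) * M ^ (n + 1) * y| ≤ K * y ^ 2 * (|M| + |y|) ^ n := by
  induction n with
  | zero =>
    refine ⟨1, zero_le_one, fun M y => ?_⟩
    have : (M + y) ^ (0 + 2) - M ^ (0 + 2) - ((0 : ℕ) + 2) * M ^ (0 + 1) * y = y ^ 2 := by
      push_cast; ring
    rw [this, abs_of_nonneg (sq_nonneg y)]; simp
  | succ n ih =>
    obtain ⟨K, hK, h⟩ := ih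
    refine ⟨K + (n + 2), by positivity, fun M y => ?_⟩
    have e : (M + y) ^ (n + 1 + 2) - M ^ (n + 1 + 2) - ((n + 1 : ℕ) + 2) * M ^ (n + 1 + 1) * y
        = (M + y) * ((M + y) ^ (n + 2) - M ^ (n + 2) - (n + 2) * M ^ (n + 1) * y)
          + (n + 2) * M ^ (n + 1) * y ^ 2 := by
      push_cast; ring
    rw [e]
    have hT : 0 ≤ |M| + |y| := by positivity
    have h1 : |(M + y) * ((M + y) ^ (n + 2) - M ^ (n + 2) - (n + 2) * M ^ (n + 1) * y)|
        ≤ (|M| + |y|) * (K * y ^ 2 * (|M| + |y|) ^ n) := by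
      rw [abs_mul]
      exact mul_le_mul (abs_add_le M y) (h M y) (abs_nonneg _) hT
    have h2 : |((n : ℝ) + 2) * M ^ (n + 1) * y ^ 2| ≤ (n + 2) * (|M| + |y|) ^ (n + 1) * y ^ 2 := by
      rw [abs_mul, abs_mul, abs_of_nonneg (sq_nonneg y), abs_pow,
        abs_of_nonneg (by positivity : (0 : ℝ) ≤ n + 2)]
      gcongr
      linarith [abs_nonneg y]
    refine (abs_add_le _ _).trans ?_
    calc _ ≤ (|M| + |y|) * (K * y ^ 2 * (|M| + |y|) ^ n)
          + (n + 2) * (|M| + |y|) ^ (n + 1) * y ^ 2 := add_le_add h1 h2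
      _ = (K + (n + 2)) * y ^ 2 * (|M| + |y|) ^ (n + 1) := by ring

theorem gr_step (q : ℕ) : ∃ C : ℝ, 0 ≤ C ∧ ∀ (D : ℝ), 1 ≤ D → ∀ (l φ : Bool → ℝ),
    (∀ b, 0 ≤ l b) → ∑ b, l b = 1 → ∑ b, l b * φ b = 0 → (∀ b, |φ b| ≤ 2) → ∀ M h : ℝ,
      ∑ b, l b * (M + φ b * h) ^ (2 * (q + 1)) ≤
        (1 + C / D) * M ^ (2 * (q + 1)) + C / D * (D ^ (q + 1) * h ^ (2 * (q + 1))) := by
  obtain ⟨K, hK, hT⟩ := gr_taylor (2 * q)
  refine ⟨4 * K * 9 ^ q, by positivity, fun D hD l φ hl hl1 hlφ hφ M h => ?_⟩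
  have hD0 : 0 < D := by linarith
  set B : ℝ := 4 * K * (h ^ 2 * (|M| + 2 * |h|) ^ (2 * q)) with hB
  have h1 : ∀ b, (M + φ b * h) ^ (2 * (q + 1)) ≤
      M ^ (2 * (q + 1)) + ((2 * q : ℕ) + 2) * M ^ (2 * q + 1) * h * φ b + B := by
    intro b
    have a1 := (le_abs_self _).trans (hT M (φ b * h))
    have a2 : |φ b * h| ≤ 2 * |h| := by
      rw [abs_mul]; exact mul_le_mul_of_nonneg_right (hφ b) (abs_nonneg _)
    have a3 : (φ b * h) ^ 2 ≤ 4 * h ^ 2 := by
      have := pow_le_pow_left₀ (abs_nonneg _) a2 2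
      rw [sq_abs, mul_pow 2, sq_abs] at this
      linarith
    have a4 : K * (φ b * h) ^ 2 * (|M| + |φ b * h|) ^ (2 * q) ≤ B := by
      calc K * (φ b * h) ^ 2 * (|M| + |φ b * h|) ^ (2 * q)
          ≤ K * (4 * h ^ 2) * (|M| + 2 * |h|) ^ (2 * q) := by gcongr
        _ = B := by rw [hB]; ring
    have e : 2 * (q + 1) = 2 * q + 2 := by ring
    rw [e]
    linarith
  have h2 : ∑ b, l b * (M + φ b * h) ^ (2 * (q + 1)) ≤ M ^ (2 * (q + 1)) + B := by
    calc ∑ b, l b * (M + φ b * h) ^ (2 * (q + 1))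
        ≤ ∑ b, l b * (M ^ (2 * (q + 1)) + ((2 * q : ℕ) + 2) * M ^ (2 * q + 1) * h * φ b + B) :=
          sum_le_sum fun b _ => mul_le_mul_of_nonneg_left (h1 b) (hl b)
      _ = (∑ b, l b) * (M ^ (2 * (q + 1)) + B)
          + ((2 * q : ℕ) + 2) * M ^ (2 * q + 1) * h * ∑ b, l b * φ b := by
          simp only [Fintype.sum_bool]; ring
      _ = M ^ (2 * (q + 1)) + B := by rw [hl1, hlφ]; ring
  have hM2 : 0 ≤ M ^ (2 * (q + 1)) := by rw [pow_mul]; positivity
  have hh2 : 0 ≤ D ^ (q + 1) * h ^ (2 * (q + 1)) := by rw [pow_mul]; positivity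
  have h3 : B ≤ 4 * K * 9 ^ q / D * M ^ (2 * (q + 1))
      + 4 * K * 9 ^ q / D * (D ^ (q + 1) * h ^ (2 * (q + 1))) := by
    have hc : 0 ≤ 4 * K * 9 ^ q / D := by positivity
    have hsq : ∀ T : ℝ, M ^ 2 ≤ T → h ^ 2 ≤ T → (|M| + 2 * |h|) ^ (2 * q) ≤ 9 ^ q * T ^ q := by
      intro T h1 h2
      rw [pow_mul, ← mul_pow]
      refine pow_le_pow_left₀ (by positivity) ?_ q
      have a1 := sq_abs M
      have a2 := sq_abs h
      nlinarith [sq_nonneg (|M| - |h|), abs_nonneg M, abs_nonneg h]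
    rcases le_total (h ^ 2 * D) (M ^ 2) with hc1 | hc1
    · have a1 : h ^ 2 ≤ M ^ 2 := le_trans (by nlinarith [sq_nonneg h]) hc1
      have a2 := hsq (M ^ 2) le_rfl a1
      have a3 : h ^ 2 ≤ M ^ 2 / D := by rwa [le_div_iff₀ hD0]
      have a4 : B ≤ 4 * K * 9 ^ q / D * M ^ (2 * (q + 1)) := by
        calc B ≤ 4 * K * (M ^ 2 / D * (9 ^ q * (M ^ 2) ^ q)) := by
              rw [hB]; gcongr
          _ = 4 * K * 9 ^ q / D * M ^ (2 * (q + 1)) := by
              rw [pow_mul]; field_simp; ring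
      linarith [mul_nonneg hc hh2]
    · have a1 : h ^ 2 ≤ h ^ 2 * D := by nlinarith [sq_nonneg h]
      have a2 := hsq (h ^ 2 * D) hc1 a1
      have a4 : B ≤ 4 * K * 9 ^ q / D * (D ^ (q + 1) * h ^ (2 * (q + 1))) := by
        calc B ≤ 4 * K * (h ^ 2 * (9 ^ q * (h ^ 2 * D) ^ q)) := by
              rw [hB]; gcongr
          _ = 4 * K * 9 ^ q / D * (D ^ (q + 1) * h ^ (2 * (q + 1))) := by
              rw [pow_mul]; field_simp; ring
      linarith [mul_nonneg hc hM2]
  linarith

/-! ### Conditional expectations along a decision tree -/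

section walk

variable {W : Type} [Fintype W] [DecidableEq W]

/-- Weight of `x` when the coordinates in `R` are frozen to the values of `x0`. -/
noncomputable def grWt (l : W → Bool → ℝ) (R : Finset W) (x0 x : W → Bool) : ℝ :=
  ∏ w, if w ∈ R then (if x w = x0 w then 1 else 0) else l w (x w)

/-- The partial polynomials. -/
noncomputable def grN (a : Finset W → ℝ) (φ : W → Bool → ℝ) (A R : Finset W) (x0 : W → Bool) : ℝ :=
  ∑ S ∈ (R \ A).powerset, a (A ∪ S) * ∏ w ∈ S, φ w (x0 w)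

/-- The potential. -/
noncomputable def grPhi (a : Finset W → ℝ) (φ : W → Bool → ℝ) (D : ℝ) (p : ℕ) (R : Finset W)
    (x0 : W → Bool) : ℝ :=
  ∑ A : Finset W, D ^ (p * A.card) * grN a φ A R x0 ^ (2 * p)

theorem grWt_split (l : W → Bool → ℝ) (R : Finset W) (x0 x : W → Bool) (w : W) (hw : w ∉ R) :
    grWt l R x0 x = ∑ b, l w b * grWt l (insert w R) (Function.update x0 w b) x := by
  have e : ∀ b, grWt l (insert w R) (Function.update x0 w b) x = (if x w = b then 1 else 0) *
      ∏ w' ∈ univ.erase w, if w' ∈ R then (if x w' = x0 w' then 1 else 0) else l w' (x w') := by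
    intro b
    unfold grWt
    rw [← mul_prod_erase univ _ (mem_univ w), if_pos (mem_insert_self w R), Function.update_self]
    congr 1
    refine prod_congr rfl fun w' hw' => ?_
    have : w' ≠ w := ne_of_mem_erase hw'
    simp [this]
  simp_rw [e]
  unfold grWt
  rw [← mul_prod_erase univ _ (mem_univ w), if_neg hw, Fintype.sum_bool]
  cases x w <;> simp

theorem grWt_eq_zero (l : W → Bool → ℝ) (R : Finset W) (x0 x : W → Bool) (w : W) (hw : w ∈ R)
    (h : x w ≠ x0 w) : grWt l R x0 x = 0 :=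
  prod_eq_zero (mem_univ w) (by rw [if_pos hw, if_neg h])

theorem grWt_char (l φ : W → Bool → ℝ) (hl1 : ∀ w, ∑ b, l w b = 1)
    (hlφ : ∀ w, ∑ b, l w b * φ w b = 0) (R S : Finset W) (x0 : W → Bool) :
    ∑ x, grWt l R x0 x * ∏ w ∈ S, φ w (x w) = if S ⊆ R then ∏ w ∈ S, φ w (x0 w) else 0 := by
  have e1 : ∀ x : W → Bool, grWt l R x0 x * ∏ w ∈ S, φ w (x w)
      = ∏ w, ((if w ∈ R then (if x w = x0 w then 1 else 0) else l w (x w)) *
        (if w ∈ S then φ w (x w) else 1)) := by
    intro x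
    rw [prod_mul_distrib, prod_ite_mem, univ_inter]; rfl
  simp_rw [e1]
  rw [← Fintype.prod_sum (fun (w : W) (b : Bool) =>
    (if w ∈ R then (if b = x0 w then 1 else 0) else l w b) * (if w ∈ S then φ w b else 1))]
  split_ifs with hSR
  · rw [← univ_inter S, ← prod_ite_mem]
    refine prod_congr rfl fun w _ => ?_
    by_cases hwR : w ∈ R
    · simp only [if_pos hwR, univ_inter]
      cases x0 w <;> simp
    · have hwS : w ∉ S := fun h => hwR (hSR h)
      simp only [if_neg hwR, univ_inter, if_neg hwS, mul_one]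
      exact hl1 w
  · obtain ⟨w, hwS, hwR⟩ := not_subset.1 hSR
    refine prod_eq_zero (mem_univ w) ?_
    simp only [if_neg hwR, if_pos hwS]
    exact hlφ w

theorem grWt_N (a : Finset W → ℝ) (l φ : W → Bool → ℝ) (hl1 : ∀ w, ∑ b, l w b = 1)
    (hlφ : ∀ w, ∑ b, l w b * φ w b = 0) (R : Finset W) (x0 : W → Bool) :
    ∑ x, grWt l R x0 x * grN a φ ∅ univ x = grN a φ ∅ R x0 := by
  unfold grN
  simp only [sdiff_empty, empty_union, mul_sum]
  rw [sum_comm]
  have e : ∀ S : Finset W, ∑ x, grWt l R x0 x * (a S * ∏ w ∈ S, φ w (x w))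
      = if S ∈ R.powerset then a S * ∏ w ∈ S, φ w (x0 w) else 0 := by
    intro S
    have := grWt_char l φ hl1 hlφ R S x0
    calc ∑ x, grWt l R x0 x * (a S * ∏ w ∈ S, φ w (x w))
        = a S * ∑ x, grWt l R x0 x * ∏ w ∈ S, φ w (x w) := by
          rw [mul_sum]; exact sum_congr rfl fun x _ => by ring
      _ = _ := by
          rw [this]; simp only [mem_powerset]; split_ifs <;> simp
  simp_rw [e]
  rw [sum_ite_mem, powerset_univ, univ_inter]

omit [Fintype W] in
theorem grN_step (a : Finset W → ℝ) (φ : W → Bool → ℝ) (A R : Finset W) (x0 : W → Bool) (w : W)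
    (hw : w ∉ R) (b : Bool) :
    grN a φ A (insert w R) (Function.update x0 w b)
      = grN a φ A R x0 + φ w b * (if w ∈ A then 0 else grN a φ (insert w A) R x0) := by
  have hup : ∀ S : Finset W, S ⊆ R →
      ∏ v ∈ S, φ v (Function.update x0 w b v) = ∏ v ∈ S, φ v (x0 v) := by
    intro S hS
    refine prod_congr rfl fun v hv => ?_
    have : v ≠ w := fun h => hw (h ▸ hS hv)
    rw [Function.update_of_ne this]
  unfold grN
  split_ifs with hA
  · rw [insert_sdiff_of_mem _ hA, mul_zero, add_zero]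
    refine sum_congr rfl fun S hS => ?_
    rw [hup S ((mem_powerset.1 hS).trans sdiff_subset)]
  · have hwRA : w ∉ R \ A := fun h => hw (mem_sdiff.1 h).1
    rw [insert_sdiff_of_notMem _ hA, sum_powerset_insert hwRA, sdiff_insert_of_notMem hw, mul_sum]
    congr 1
    · refine sum_congr rfl fun S hS => ?_
      rw [hup S ((mem_powerset.1 hS).trans sdiff_subset)]
    · refine sum_congr rfl fun S hS => ?_
      have hSR := (mem_powerset.1 hS).trans sdiff_subset
      have hwS : w ∉ S := fun h => hw (hSR h)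
      rw [prod_insert hwS, hup S hSR, Function.update_self, union_insert, insert_union]
      ring

theorem grPhi_nonneg (a : Finset W → ℝ) (φ : W → Bool → ℝ) (D : ℝ) (hD : 0 ≤ D) (p : ℕ)
    (R : Finset W) (x0 : W → Bool) : 0 ≤ grPhi a φ D p R x0 :=
  sum_nonneg fun A _ => by rw [pow_mul (grN a φ A R x0)]; positivity

theorem grPhi_step (a : Finset W → ℝ) (l φ : W → Bool → ℝ) (D C : ℝ) (hD : 1 ≤ D) (hC : 0 ≤ C)
    (p : ℕ) (R : Finset W) (x0 : W → Bool) (w : W) (hw : w ∉ R)
    (hstep : ∀ M h : ℝ, ∑ b, l w b * (M + φ w b * h) ^ (2 * p) ≤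
        (1 + C / D) * M ^ (2 * p) + C / D * (D ^ p * h ^ (2 * p))) (hp : 1 ≤ p) :
    ∑ b, l w b * grPhi a φ D p (insert w R) (Function.update x0 w b)
      ≤ (1 + 2 * C / D) * grPhi a φ D p R x0 := by
  have hD0 : 0 < D := by linarith
  set g : Finset W → ℝ := fun A => D ^ (p * A.card) * grN a φ A R x0 ^ (2 * p) with hg
  have hg0 : ∀ A, 0 ≤ g A := fun A => by
    simp only [hg]; rw [pow_mul (grN a φ A R x0)]; positivity
  have h1 : ∑ b, l w b * grPhi a φ D p (insert w R) (Function.update x0 w b)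
      ≤ ∑ A : Finset W, ((1 + C / D) * g A + C / D * (if w ∈ A then 0 else g (insert w A))) := by
    unfold grPhi
    simp_rw [mul_sum]
    rw [sum_comm]
    refine sum_le_sum fun A _ => ?_
    simp_rw [grN_step a φ A R x0 w hw]
    have a1 := mul_le_mul_of_nonneg_left
      (hstep (grN a φ A R x0) (if w ∈ A then 0 else grN a φ (insert w A) R x0))
      (show 0 ≤ D ^ (p * A.card) by positivity)
    rw [mul_sum] at a1
    refine le_trans (le_of_eq (sum_congr rfl fun b _ => by ring)) (a1.trans (le_of_eq ?_))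
    simp only [hg]
    split_ifs with hA
    · rw [zero_pow (by omega)]; ring
    · rw [card_insert_of_notMem hA]; ring
  have h2 : ∑ A : Finset W, (if w ∈ A then 0 else g (insert w A)) ≤ ∑ A, g A := by
    have e : ∑ A : Finset W, (if w ∈ A then 0 else g (insert w A))
        = ∑ A ∈ univ.filter (fun A : Finset W => w ∉ A), g (insert w A) := by
      rw [sum_filter]
      exact sum_congr rfl fun A _ => by split_ifs <;> rfl
    rw [e, ← sum_image (f := g) (g := fun A : Finset W => insert w A)]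
    · exact sum_le_sum_of_subset_of_nonneg (subset_univ _) fun A _ _ => hg0 A
    · intro A hA B hB hAB
      have hA' : w ∉ A := by simpa using hA
      have hB' : w ∉ B := by simpa using hB
      have hAB' : insert w A = insert w B := hAB
      rw [← erase_insert hA', hAB', erase_insert hB']
  rw [sum_add_distrib, ← mul_sum, ← mul_sum] at h1
  have hc : 0 ≤ C / D := by positivity
  have h3 := mul_le_mul_of_nonneg_left h2 hc
  have e : grPhi a φ D p R x0 = ∑ A, g A := rfl
  rw [e]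
  have e2 : (1 + 2 * C / D) * ∑ A, g A = (1 + C / D) * ∑ A, g A + C / D * ∑ A, g A := by ring
  linarith

theorem gr_leaf (N Λ : ℝ) (hΛ : 0 < Λ) (q : ℕ) :
    |N| ≤ Λ + N ^ (2 * (q + 1)) / Λ ^ (2 * q + 1) := by
  have h0 : 0 ≤ N ^ (2 * (q + 1)) / Λ ^ (2 * q + 1) := by rw [pow_mul]; positivity
  rcases le_total |N| Λ with h | h
  · linarith
  · have h1 : Λ ^ (2 * q + 1) ≤ |N| ^ (2 * q + 1) := pow_le_pow_left₀ hΛ.le h _
    have h2 : N ^ (2 * (q + 1)) = |N| * |N| ^ (2 * q + 1) := by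
      rw [← pow_succ', show 2 * q + 1 + 1 = 2 * (q + 1) by ring, pow_mul, pow_mul, sq_abs]
    have h3 : |N| ≤ N ^ (2 * (q + 1)) / Λ ^ (2 * q + 1) := by
      rw [le_div_iff₀ (by positivity), h2]
      exact mul_le_mul_of_nonneg_left h1 (abs_nonneg _)
    linarith

theorem gr_main (a : Finset W → ℝ) (l φ : W → Bool → ℝ) (hl : ∀ w b, 0 ≤ l w b)
    (hl1 : ∀ w, ∑ b, l w b = 1) (hlφ : ∀ w, ∑ b, l w b * φ w b = 0)
    (D C : ℝ) (hD : 1 ≤ D) (hC : 0 ≤ C) (q : ℕ)
    (hstep : ∀ w, ∀ M h : ℝ, ∑ b, l w b * (M + φ w b * h) ^ (2 * (q + 1)) ≤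
        (1 + C / D) * M ^ (2 * (q + 1)) + C / D * (D ^ (q + 1) * h ^ (2 * (q + 1))))
    (Λ : ℝ) (hΛ : 0 < Λ) (D' : ℕ) (f : (W → Bool) → ℝ) (hf : TreeFn D' f) :
    ∀ (R : Finset W) (x0 : W → Bool), |∑ x, grWt l R x0 x * (f x * grN a φ ∅ univ x)| ≤
      Λ + (1 + 2 * C / D) ^ D' * grPhi a φ D (q + 1) R x0 / Λ ^ (2 * q + 1) := by
  have hD0 : 0 < D := by linarith
  have hθ : 1 ≤ 1 + 2 * C / D := by
    have : 0 ≤ 2 * C / D := by positivity
    linarith
  have hΛp : 0 < Λ ^ (2 * q + 1) := by positivity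
  induction hf with
  | const D' c hc =>
    intro R x0
    have e : ∑ x, grWt l R x0 x * (c * grN a φ ∅ univ x) = c * grN a φ ∅ R x0 := by
      rw [← grWt_N a l φ hl1 hlφ R x0, mul_sum]
      exact sum_congr rfl fun x _ => by ring
    rw [e, abs_mul]
    have h1 : |c| * |grN a φ ∅ R x0| ≤ |grN a φ ∅ R x0| :=
      mul_le_of_le_one_left (abs_nonneg _) hc
    have h2 := gr_leaf (grN a φ ∅ R x0) Λ hΛ q
    have h3 : grN a φ ∅ R x0 ^ (2 * (q + 1)) ≤ grPhi a φ D (q + 1) R x0 := by
      have := single_le_sum (f := fun A : Finset W =>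
        D ^ ((q + 1) * A.card) * grN a φ A R x0 ^ (2 * (q + 1))) (s := univ)
        (fun A _ => by rw [pow_mul (grN a φ A R x0)]; positivity) (mem_univ ∅)
      simpa [grPhi] using this
    have h4 : grPhi a φ D (q + 1) R x0 ≤ (1 + 2 * C / D) ^ D' * grPhi a φ D (q + 1) R x0 :=
      le_mul_of_one_le_left (grPhi_nonneg a φ D hD0.le _ R x0) (one_le_pow₀ hθ)
    have h5 := div_le_div_of_nonneg_right (h3.trans h4) hΛp.le
    linarith
  | @node D' w f₀ f₁ h₀ h₁ ih₀ ih₁ =>
    have hin : ∀ (R : Finset W) (x0 : W → Bool), w ∈ R →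
        |∑ x, grWt l R x0 x * ((if x w then f₁ x else f₀ x) * grN a φ ∅ univ x)| ≤
          Λ + (1 + 2 * C / D) ^ D' * grPhi a φ D (q + 1) R x0 / Λ ^ (2 * q + 1) := by
      intro R x0 hw
      cases hb : x0 w
      · refine le_trans (le_of_eq ?_) (ih₀ R x0)
        congr 1
        refine sum_congr rfl fun x _ => ?_
        by_cases hx : x w = x0 w
        · rw [hx, hb]; simp
        · rw [grWt_eq_zero l R x0 x w hw hx]; simp
      · refine le_trans (le_of_eq ?_) (ih₁ R x0)
        congr 1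
        refine sum_congr rfl fun x _ => ?_
        by_cases hx : x w = x0 w
        · rw [hx, hb]; simp
        · rw [grWt_eq_zero l R x0 x w hw hx]; simp
    intro R x0
    by_cases hw : w ∈ R
    · refine (hin R x0 hw).trans ?_
      have h0 := grPhi_nonneg a φ D hD0.le (q + 1) R x0
      gcongr
      · omega
    · have e : ∑ x, grWt l R x0 x * ((if x w then f₁ x else f₀ x) * grN a φ ∅ univ x)
          = ∑ b, l w b * ∑ x, grWt l (insert w R) (Function.update x0 w b) x *
            ((if x w then f₁ x else f₀ x) * grN a φ ∅ univ x) := by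
        simp_rw [grWt_split l R x0 _ w hw, sum_mul, mul_sum]
        rw [sum_comm]
        exact sum_congr rfl fun b _ => sum_congr rfl fun x _ => by ring
      rw [e]
      have h1 := grPhi_step a l φ D C hD hC (q + 1) R x0 w hw (hstep w) (by omega)
      have hθp : 0 ≤ (1 + 2 * C / D) ^ D' := by positivity
      calc |∑ b, l w b * ∑ x, grWt l (insert w R) (Function.update x0 w b) x *
            ((if x w then f₁ x else f₀ x) * grN a φ ∅ univ x)|
          ≤ ∑ b, l w b * (Λ + (1 + 2 * C / D) ^ D' *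
              grPhi a φ D (q + 1) (insert w R) (Function.update x0 w b) / Λ ^ (2 * q + 1)) := by
            refine (abs_sum_le_sum_abs _ _).trans (sum_le_sum fun b _ => ?_)
            rw [abs_mul, abs_of_nonneg (hl w b)]
            exact mul_le_mul_of_nonneg_left (hin _ _ (mem_insert_self w R)) (hl w b)
        _ = (∑ b, l w b) * Λ + (1 + 2 * C / D) ^ D' * (∑ b, l w b *
              grPhi a φ D (q + 1) (insert w R) (Function.update x0 w b)) / Λ ^ (2 * q + 1) := by
            simp only [Fintype.sum_bool]; ring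
        _ ≤ Λ + (1 + 2 * C / D) ^ D' * ((1 + 2 * C / D) * grPhi a φ D (q + 1) R x0)
              / Λ ^ (2 * q + 1) := by
            rw [hl1 w, one_mul]
            gcongr
        _ = _ := by ring

end walk

/-- Level-`κ` Fourier growth of decision trees of depth `D`, at any point of `[-1/2, 1/2] ^ W`. -/
theorem growth (p : ℕ) (hp : 1 ≤ p) : ∃ K : ℝ, 0 < K ∧
    ∀ (W : Type) [Fintype W] [DecidableEq W] (κ D : ℕ), 1 ≤ D →
      ∀ f : (W → Bool) → ℝ, TreeFn D f → ∀ z : W → ℝ, (∀ w, |z w| ≤ 1 / 2) →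
        ∀ Λ : ℝ, 0 < Λ → (Fintype.card W : ℝ) ^ κ * (D : ℝ) ^ (p * κ) ≤ Λ ^ (2 * p) →
          ∑ S ∈ powersetCard κ (univ : Finset W), |Q z f S| ≤ K * Λ := by
  obtain ⟨q, rfl⟩ : ∃ q, p = q + 1 := ⟨p - 1, by omega⟩
  obtain ⟨C, hC, hstep⟩ := gr_step q
  refine ⟨1 + Real.exp (2 * C), by positivity, ?_⟩
  intro W _ _ κ D hD f hf z hz Λ hΛ hΛ2
  have hD1 : (1 : ℝ) ≤ D := by exact_mod_cast hD
  have hD0 : (0 : ℝ) < D := by linarith
  let l : W → Bool → ℝ := fun w b => 1 / 2 * (1 + sg b * z w)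
  let φ : W → Bool → ℝ := fun w b => sg b / (1 + sg b * z w)
  have hden : ∀ w b, 1 / 2 ≤ 1 + sg b * z w := by
    intro w b
    have h1 : |sg b * z w| ≤ 1 / 2 := by rw [abs_mul, gr_abs_sg, one_mul]; exact hz w
    linarith [(abs_le.1 h1).1]
  have hlφ' : ∀ w b, l w b * φ w b = sg b / 2 := by
    intro w b
    have := hden w b
    have h0 : 1 + sg b * z w ≠ 0 := by linarith
    simp only [l, φ]
    field_simp
  have hl : ∀ w b, 0 ≤ l w b := fun w b => by
    have := hden w b
    simp only [l]; linarith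
  have hl1 : ∀ w, ∑ b, l w b = 1 := fun w => by
    simp only [Fintype.sum_bool, l, sg, if_true, Bool.false_eq_true, if_false]; ring
  have hlφ : ∀ w, ∑ b, l w b * φ w b = 0 := fun w => by
    simp only [Fintype.sum_bool, hlφ', sg, if_true, Bool.false_eq_true, if_false]; ring
  have hφ : ∀ w b, |φ w b| ≤ 2 := fun w b => by
    have := hden w b
    simp only [φ]
    rw [abs_div, gr_abs_sg, abs_of_pos (by linarith), div_le_iff₀ (by linarith)]
    linarith
  let a : Finset W → ℝ := fun S => if S.card = κ then (if 0 ≤ Q z f S then 1 else -1) else 0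
  let x0 : W → Bool := fun _ => false
  have hmain := gr_main a l φ hl hl1 hlφ D C hD1 hC q
    (fun w => hstep D hD1 (l w) (φ w) (hl w) (hl1 w) (hlφ w) (hφ w)) Λ hΛ D f hf ∅ x0
  have hQ : ∀ S : Finset W, ∑ x, grWt l ∅ x0 x * (f x * ∏ w ∈ S, φ w (x w)) = Q z f S := by
    intro S
    unfold Q grWt
    refine sum_congr rfl fun x _ => ?_
    simp only [Algebra.algebraMap_self, RingHom.id_apply, notMem_empty, if_false]
    rw [← univ_inter S, ← prod_ite_mem, univ_inter, mul_left_comm, ← prod_mul_distrib]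
    congr 1
    refine prod_congr rfl fun w _ => ?_
    split_ifs
    · exact hlφ' w (x w)
    · simp [l]
  have e1 : ∑ x, grWt l ∅ x0 x * (f x * grN a φ ∅ univ x)
      = ∑ S ∈ powersetCard κ (univ : Finset W), |Q z f S| := by
    unfold grN
    simp only [sdiff_empty, empty_union, mul_sum]
    rw [sum_comm, powersetCard_eq_filter, sum_filter]
    refine sum_congr rfl fun S _ => ?_
    calc ∑ x, grWt l ∅ x0 x * (f x * (a S * ∏ w ∈ S, φ w (x w)))
        = a S * ∑ x, grWt l ∅ x0 x * (f x * ∏ w ∈ S, φ w (x w)) := by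
          rw [mul_sum]; exact sum_congr rfl fun x _ => by ring
      _ = _ := by
          rw [hQ]
          simp only [a]
          split_ifs with h1 h2
          · rw [abs_of_nonneg h2, one_mul]
          · rw [abs_of_neg (not_le.1 h2)]; ring
          · simp
  have e2 : grPhi a φ D (q + 1) ∅ x0 ≤ Λ ^ (2 * (q + 1)) := by
    refine le_trans ?_ hΛ2
    have h1 : grPhi a φ D (q + 1) ∅ x0
        = ∑ _A ∈ powersetCard κ (univ : Finset W), (D : ℝ) ^ ((q + 1) * κ) := by
      unfold grPhi grN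
      rw [powersetCard_eq_filter, sum_filter, powerset_univ]
      refine sum_congr rfl fun A _ => ?_
      simp only [empty_sdiff, powerset_empty, sum_singleton, union_empty, prod_empty, mul_one, a]
      split_ifs with h1 h2
      · rw [h1]; simp
      · rw [h1, pow_mul (-1 : ℝ)]; simp
      · simp
    rw [h1, sum_const, card_powersetCard, card_univ, nsmul_eq_mul]
    refine mul_le_mul_of_nonneg_right ?_ (by positivity)
    exact_mod_cast Nat.choose_le_pow _ _
  have e3 : (1 + 2 * C / D) ^ D ≤ Real.exp (2 * C) := by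
    have h1 : 1 + 2 * C / D ≤ Real.exp (2 * C / D) := by
      have := Real.add_one_le_exp (2 * C / D); linarith
    calc (1 + 2 * C / D) ^ D ≤ Real.exp (2 * C / D) ^ D :=
          pow_le_pow_left₀ (by positivity) h1 D
      _ = Real.exp (2 * C) := by
          rw [← Real.exp_nat_mul]; congr 1; field_simp
  rw [e1] at hmain
  refine ((le_abs_self _).trans hmain).trans ?_
  have h4 : (1 + 2 * C / D) ^ D * grPhi a φ D (q + 1) ∅ x0 / Λ ^ (2 * q + 1)
      ≤ Real.exp (2 * C) * Λ ^ (2 * (q + 1)) / Λ ^ (2 * q + 1) := by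
    have := grPhi_nonneg a φ D hD0.le (q + 1) ∅ x0
    gcongr
  have h5 : Real.exp (2 * C) * Λ ^ (2 * (q + 1)) / Λ ^ (2 * q + 1) = Real.exp (2 * C) * Λ := by
    field_simp; ring
  linarith

end Crest.Agent.R350
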