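import Crest.Agent.R350.Lower
import Crest.Agent.R350.Transcript

/-!
# Row 350: the randomized lower bound for `bigF`
-/

set_option autoImplicit false

namespace Crest.Agent.R350

open Finset Crest.MathPhysics.Query

theorem sum_curry {J W : Type} [Fintype J] [DecidableEq J] [Fintype W] [DecidableEq W]
    (g : (J → W → Bool) → ℝ) :
    ∑ y : J × W → Bool, g (fun j w => y (j, w)) = ∑ ω : J → W → Bool, g ω :=
  Fintype.sum_equiv (Equiv.curry J W Bool) _ _ fun _ => rfl

/-- The input `x` with sheet `a` of column `b` overwritten. -/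
def overwrite {C Y A S : Type} [DecidableEq C] [DecidableEq A] (x : Lay C Y A S → Bool) (b : C)
    (a : A) (sh : S → Bool) : Lay C Y A S → Bool
  | (c, Sum.inr (Sum.inr (a', s))) =>
      if c = b ∧ a' = a then sh s else x (c, Sum.inr (Sum.inr (a', s)))
  | e => x e

theorem lower_inst (n k T Δ D : ℕ) (hT : 0 < T) (hΔ : 0 < Δ)
    (μ : Bool → (FW n k → Bool) → ℝ) (hμ : ∀ s, IsProb (μ s))
    (hm : ∀ s, (3 : ℝ) / (4 * Δ) ≤ sg s * ∑ y, μ s y * forr y) (ε : ℝ)
    (hadv : ∀ f, TreeFn D f → |∑ y, μ true y * f y - ∑ y, μ false y * f y| ≤ ε)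
    (hε : (n * T : ℕ) * ε ≤ 1 / 16) (hTΔ : 256 * n * Δ ^ 2 ≤ T) (hD : 32 * D ≤ 2 ^ n)
    {m : ℕ} (e : Fin m ≃ Idx n k T) (r : ℕ)
    (h : RandomizedComputes (fun x' : Fin m → Bool => bigF n k T Δ fun i => x' (e.symm i)) r) :
    2 ^ n * (D + 1) ≤ 6 * r := by
  classical
  have hε0 : 0 ≤ ε := (abs_nonneg _).trans (hadv _ (TreeFn.const D 0 (by simp)))
  have hprob : ∀ a : I n, IsProb fun y : YIdx n k T → Bool =>
      ∏ j : Fin n × Fin T, μ (a j.1) fun w => y (j, w) := fun a => by
    have := pi_isProb (fun j : Fin n × Fin T => μ (a j.1)) fun j => hμ _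
    exact ⟨fun y => this.1 _, by
      rw [← this.2]; exact sum_curry fun ω => ∏ j : Fin n × Fin T, μ (a j.1) (ω j)⟩
  have hc : Fintype.card (I n) = 2 ^ n := by simp
  have key := lower_abstract (C := I n) (Y := YIdx n k T) (A := I n) (S := SIdx n k T)
    (fun a y => ∏ j : Fin n × Fin T, μ (a j.1) fun w => y (j, w))
    (fun y => ∏ j : Fin n × Fin T, μ false fun w => y (j, w)) hprob (hprob fun _ => false) D
    (fun a f hf => by
      refine (pi_hybrid (fun j : Fin n × Fin T => μ (a j.1)) (fun _ => μ false)
        (fun j => hμ _) (fun j => hμ _) D ε (fun j g hg => ?_) f hf).trans ?_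
      · cases a j.1
        · simpa using hε0
        · exact hadv g hg
      · simpa using hε)
    (fun a y => ∀ l, SignOK n k T Δ (a l) fun τ => forrZ fun w => y ((l, τ), w))
    (fun a => by
      have hΔ' : (0 : ℝ) < Δ := by exact_mod_cast hΔ
      have hT' : (0 : ℝ) < T := by exact_mod_cast hT
      have h1 := pi_rows hT (fun j : Fin n × Fin T => μ (a j.1)) (fun j => hμ _) forr abs_forr_le a
        (3 / (4 * Δ)) (1 / (2 * Δ)) (by rw [div_lt_div_iff₀ (by positivity) (by positivity)]; linarith)
        (fun l => by
          simp only [Finset.sum_const, Finset.card_univ, Fintype.card_fin, nsmul_eq_mul]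
          have := mul_le_mul_of_nonneg_left (hm (a l)) hT'.le
          linarith)
      rw [← sum_curry] at h1
      refine le_trans (Finset.sum_le_sum fun y _ => ?_) (h1.trans ?_)
      · split_ifs with h2 h3 h3
        · exact (hprob a).1 y
        · exact le_rfl
        · exact le_rfl
        · exfalso
          apply h2
          intro l
          have := not_exists.1 h3 l
          rw [not_le, mul_one_div] at this
          exact this.le
      · have e1 : (3 : ℝ) / (4 * Δ) - 1 / (2 * Δ) = 1 / (4 * Δ) := by field_simp; norm_num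
        have e2 : (256 * n * Δ ^ 2 : ℝ) ≤ T := by exact_mod_cast hTΔ
        rw [e1, div_le_div_iff₀ (by positivity) (by positivity), one_div_pow, one_mul,
          mul_one_div, le_div_iff₀ (by positivity)]
        nlinarith)
    (bigF n k T Δ)
    (fun x hx => by
      rw [bigF, decide_eq_false_iff_not]
      rintro ⟨v, hv⟩
      obtain ⟨i, hi⟩ := hx v.1
      have := hv (Sum.inl i)
      simp only [okP, kb] at this
      rw [hi] at this
      exact absurd this (by simp))
    (fun x b a hg hk hb => by
      choose! p hp using hk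
      choose tr htr1 htr2 using fun j : Fin n × Fin T => localEq_complete (yb x b j)
      choose w hw using fun g : CellIdx n k T => dec_surj (tr g.1 g.2) (htr2 g.1 g.2)
      let sh : SIdx n k T → Bool := Sum.elim (fun q => p q.1 q.2) fun q => w q.1 q.2
      refine ⟨overwrite x b a sh, ?_, ?_⟩
      · rintro ⟨c, y | i | ⟨a', s⟩⟩ he
        · rfl
        · rfl
        · simp only [overwrite]
          rw [if_neg]
          rintro ⟨rfl, rfl⟩
          exact he s rfl
      · rw [bigF, decide_eq_true_iff]
        have e1 : ∀ c i, kb (overwrite x b a sh) c i = kb x c i := fun _ _ => rfl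
        have e2 : ∀ c j, yb (overwrite x b a sh) c j = yb x c j := fun _ _ => rfl
        have e3 : ∀ d, ptr (overwrite x b a sh) b a d = p d := fun d => by
          funext r; simp [ptr, overwrite, sh]
        have e4 : ∀ g, cell (overwrite x b a sh) b a g = tr g.1 g.2 := fun g => by
          rw [← hw]; simp [cell, overwrite, sh]
        refine ⟨(b, a), ?_⟩
        rintro (i | d | g | l)
        · exact hb i
        · simp only [okP, e1, e3]
          by_cases hd : d = b
          · exact Or.inl hd
          · exact Or.inr (hp d hd)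
        · simp only [okP, e2, e4]
          exact htr1 g.1 g.2
        · simp only [okP, e4, localEq_sound _ _ (htr1 _)]
          exact hg l)
    (by rwa [hc]) e r h
  rwa [hc] at key

end Crest.Agent.R350
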