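import Crest.Agent.R350.Upper
import Crest.Agent.R350.Prob
import Crest.Agent.R350.Transcript

/-!
# Row 350: the quantum algorithm for `bigF`
-/

set_option autoImplicit false

namespace Crest.Agent.R350

open Finset

theorem Det.juntaF {ι Ω J : Type} [Fintype J] (pos : J → ι) (g : (ι → Bool) → Ω)
    (h : ∀ x x', (∀ j, x (pos j) = x' (pos j)) → g x = g x') : Det (Fintype.card J) g := by
  classical
  refine (Det.junta (univ.image pos) g fun x x' hx => h x x' fun j => hx _ ?_).mono ?_
  · exact mem_image_of_mem _ (mem_univ j)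
  · exact card_image_le

theorem isProb_uniform (Ω : Type) [Fintype Ω] [Nonempty Ω] :
    IsProb fun _ : Ω => (1 : ℝ) / Fintype.card Ω := by
  refine ⟨fun _ => by positivity, ?_⟩
  have : (0 : ℝ) < Fintype.card Ω := by exact_mod_cast Fintype.card_pos
  simp only [Finset.sum_const, Finset.card_univ, nsmul_eq_mul]
  field_simp

variable {n k T : ℕ}

theorem det_ptr (c a d : I n) : Det n fun x : Idx n k T → Bool => ptr x c a d := by
  have := Det.juntaF (J := Fin n) (fun r => ((c, Sum.inr (Sum.inr (a, Sum.inl (d, r)))) : Idx n k T))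
    (fun x : Idx n k T → Bool => ptr x c a d) fun x x' h => funext fun r => h r
  simpa using this

theorem det_kills (u v : I n × I n) : Det (n + 1) fun x : Idx n k T → Bool => kills x u v :=
  (det_ptr u.1 u.2 v.1).bind (g' := fun p x => kb x v.1 p) fun _ => Det.read _

theorem det_beats (u v : I n × I n) :
    Det (2 * (n + 1)) fun x : Idx n k T → Bool => beats x u v := by
  have := (det_kills (k := k) (T := T) u v).bind (g' := fun b x => b && !kills x v u) fun b =>
    (det_kills (k := k) (T := T) v u).bind (g' := fun b' _ => b && !b') fun b' => Det.const _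
  exact this.mono (by omega)

theorem det_cells {Ω J : Type} [Fintype J] (c a : I n) (g : J → CellIdx n k T) (p : Idx n k T)
    (Φ : (J → ℤ) → Bool → Ω) : Det (Fintype.card J * nb n k + 1)
      fun x : Idx n k T → Bool => Φ (fun j => cell x c a (g j)) (x p) := by
  have := Det.juntaF (J := Option (J × Fin (nb n k)))
    (fun o => o.elim p fun q => ((c, Sum.inr (Sum.inr (a, Sum.inr (g q.1, q.2)))) : Idx n k T))
    (fun x : Idx n k T → Bool => Φ (fun j => cell x c a (g j)) (x p)) fun x x' h => by
      have h1 : x p = x' p := h none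
      have h2 : ∀ j, cell x c a (g j) = cell x' c a (g j) := fun j => by
        unfold cell
        congr 1
        funext r
        exact h (some (j, r))
      simp only [h1, h2]
  simpa using this

open Classical in
theorem det_ok (Δ : ℕ) (v : I n × I n) (ch : Chk n k T) :
    Det ((T + 3) * nb n k + n + 1) fun x : Idx n k T → Bool => decide (okP Δ x v ch) := by
  rcases ch with i | d | ⟨j, a, s, i⟩ | l
  · have := (Det.read (ι := Idx n k T) (v.1, Sum.inr (Sum.inl i))).bind
      (g' := fun b _ => decide (b = false)) fun _ => Det.const _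
    refine Det.mono ?_ (show 1 + 0 ≤ _ by omega)
    convert this using 2
    exact decide_eq_decide.2 (by simp [okP, kb])
  · have := (det_ptr (k := k) (T := T) v.1 v.2 d).bind
      (g' := fun p x => decide (d = v.1 ∨ kb x d p = true)) fun p =>
      (Det.read (ι := Idx n k T) (d, Sum.inr (Sum.inl p))).bind
        (g' := fun b _ => decide (d = v.1 ∨ b = true)) fun _ => Det.const _
    refine Det.mono ?_ (show n + (1 + 0) ≤ _ by omega)
    convert this using 2
    exact decide_eq_decide.2 (by simp [okP])
  · have hle : Fintype.card (Fin 3) * nb n k + 1 ≤ (T + 3) * nb n k + n + 1 := by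
      simp only [Fintype.card_fin]; nlinarith [Nat.zero_le (T * nb n k)]
    refine Det.mono ?_ hle
    induction s using Fin.cases with
    | zero =>
      induction a using Fin.cases with
      | zero =>
        have := det_cells v.1 v.2 (fun _ : Fin 3 => ((j, 0, 0, i) : CellIdx n k T))
          (v.1, Sum.inl (j, 0, i)) fun z b => decide (z 0 = sgZ b)
        convert this using 2
        exact decide_eq_decide.2 (by simp [okP, LocalEq, yb])
      | succ a =>
        have := det_cells v.1 v.2 (![(j, a.succ, 0, i), (j, a.castSucc, Fin.last n, i),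
          (j, a.succ, 0, i)] : Fin 3 → CellIdx n k T)
          (v.1, Sum.inl (j, a.succ, i)) fun z b => decide (z 0 = sgZ b * z 1)
        convert this using 2
        exact decide_eq_decide.2 (by simp [okP, LocalEq, yb])
    | succ s =>
      have := det_cells v.1 v.2 (![(j, a, s.succ, i), (j, a, s.castSucc, Function.update i s false),
        (j, a, s.castSucc, Function.update i s true)] : Fin 3 → CellIdx n k T)
        (v.1, Sum.inl (j, a, i)) fun z _ => decide (z 0 = z 1 + sgZ (i s) * z 2)
      convert this using 2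
      exact decide_eq_decide.2 (by simp [okP, LocalEq])
  · have := det_cells v.1 v.2
      (fun τ : Fin T => (((l, τ), Fin.last k, Fin.last n, fun _ => false) : CellIdx n k T))
      (v.1, Sum.inr (Sum.inl v.1)) fun z _ => decide (SignOK n k T Δ (v.2 l) z)
    refine Det.mono ?_ (show Fintype.card (Fin T) * nb n k + 1 ≤ _ by
      simp only [Fintype.card_fin]; nlinarith [Nat.zero_le (nb n k)])
    convert this using 2
    exact decide_eq_decide.2 (by simp [okP])

/-- One Hadamard test on a uniformly random instance of row `l` of column `c`. -/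
noncomputable def trial (x : Idx n k T → Bool) (c : I n) (l : Fin n) (b : Bool) : ℝ :=
  ∑ τ : Fin T, (1 : ℝ) / Fintype.card (Fin T) * ((1 + sg b * forr (yb x c (l, τ))) / 2)

theorem samp_trial (hT : 0 < T) (c : I n) (l : Fin n) :
    Samp (k + 1) fun (x : Idx n k T → Bool) => trial x c l := by
  have : Nonempty (Fin T) := ⟨⟨0, hT⟩⟩
  have := (Samp.const (ι := Idx n k T) (isProb_uniform (Fin T))).bind fun τ =>
    forr_samp (n := n) (k := k) fun w => ((c, Sum.inl ((l, τ), w)) : Idx n k T)
  rw [zero_add] at this
  exact this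

open Classical in
/-- Majority decoding of the address. -/
noncomputable def maj {R : ℕ} (ω : Fin n × Fin R → Bool) : I n :=
  fun l => decide (∑ ρ, sg (ω (l, ρ)) < 0)

/-- The distribution of the decoded address of column `c`. -/
noncomputable def decr (R : ℕ) (x : Idx n k T → Bool) (c a : I n) : ℝ :=
  ∑ ω : Fin n × Fin R → Bool, if maj ω = a then ∏ j, trial x c j.1 (ω j) else 0

theorem samp_decr (hT : 0 < T) (R : ℕ) (c : I n) :
    Samp (n * R * (k + 1)) fun (x : Idx n k T → Bool) => decr R x c := by
  have := (Samp.pi (J := Fin n × Fin R) fun j => samp_trial (k := k) hT c j.1).map maj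
  rw [Fintype.card_prod, Fintype.card_fin, Fintype.card_fin] at this
  exact this

theorem samp_vertex (hT : 0 < T) (R : ℕ) :
    Samp (n * R * (k + 1)) fun (x : Idx n k T → Bool) (v : I n × I n) =>
      1 / 2 ^ n * decr R x v.1 v.2 := by
  have := (Samp.const (ι := Idx n k T) (isProb_uniform (I n))).bind fun c =>
    (samp_decr (k := k) hT R c).map fun a => (c, a)
  rw [zero_add] at this
  convert this using 2 with x
  funext ⟨c, a⟩
  simp [Prod.ext_iff, ite_and]

theorem decr_ge {Δ R : ℕ} (hT : 0 < T) (hΔ : 0 < Δ) (hR : 0 < R) (x : Idx n k T → Bool)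
    (v : I n × I n) (hv : ∀ ch, okP Δ x v ch) :
    1 - 4 * n * Δ ^ 2 / R ≤ decr R x v.1 v.2 := by
  classical
  have hΔ' : (0 : ℝ) < Δ := by exact_mod_cast hΔ
  have hT' : (0 : ℝ) < T := by exact_mod_cast hT
  have hR' : (0 : ℝ) < R := by exact_mod_cast hR
  have hp : ∀ j : Fin n × Fin R, IsProb (trial x v.1 j.1) := fun j =>
    (samp_trial hT v.1 j.1).isProb x
  have h1 := pi_rows hR (fun j : Fin n × Fin R => trial x v.1 j.1) hp sg
    (fun b => by cases b <;> simp [sg]) v.2 (1 / (2 * Δ)) 0 (by positivity) (fun l => by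
      have a1 := hv (Sum.inr (Sum.inr (Sum.inr l)))
      have a2 : ∀ τ : Fin T, cell x v.1 v.2 ((l, τ), Fin.last k, Fin.last n, fun _ => false) =
          forrZ (yb x v.1 (l, τ)) := fun τ =>
        localEq_sound _ (fun g' => cell x v.1 v.2 ((l, τ), g')) fun g =>
          hv (Sum.inr (Sum.inr (Sum.inl ((l, τ), g))))
      simp only [okP, SignOK, a2] at a1
      have a3 : ∑ o, trial x v.1 l o * sg o = 1 / T * ∑ τ, forr (yb x v.1 (l, τ)) := by
        simp only [Fintype.sum_bool, trial, sg, Fintype.card_fin, Finset.sum_mul,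
          ← Finset.sum_add_distrib, Finset.mul_sum]
        refine Finset.sum_congr rfl fun τ _ => ?_
        simp; ring
      simp only [a3, Finset.sum_const, Finset.card_univ, Fintype.card_fin, nsmul_eq_mul]
      have a4 : (1 : ℝ) / (2 * Δ) ≤ 1 / T * (sg (v.2 l) * ∑ τ, forr (yb x v.1 (l, τ))) := by
        rw [one_div (T : ℝ), ← div_eq_inv_mul, le_div_iff₀ hT', one_div_mul_eq_div]
        exact a1
      have := mul_le_mul_of_nonneg_left a4 hR'.le
      linarith)
  have h2 := pi_isProb (fun j : Fin n × Fin R => trial x v.1 j.1) hp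
  have h3 : (n : ℝ) / (R * (1 / (2 * Δ) - 0) ^ 2) = 4 * n * Δ ^ 2 / R := by
    field_simp; ring
  rw [h3] at h1
  rw [sub_le_iff_le_add, ← h2.2, decr]
  refine le_trans ?_ (add_le_add le_rfl h1)
  rw [← Finset.sum_add_distrib]
  refine Finset.sum_le_sum fun ω _ => ?_
  have h4 := h2.1 ω
  split_ifs with a1 a2 a2
  · linarith
  · linarith
  · linarith
  · exfalso
    apply a1
    funext l
    have := not_exists.1 a2 l
    rw [not_le, mul_zero] at this
    cases hb : v.2 l
    · rw [hb, show sg false = 1 from rfl, one_mul] at this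
      exact decide_eq_false (not_lt.2 this.le)
    · rw [hb, show sg true = -1 from rfl] at this
      exact decide_eq_true (by linarith)

theorem half_pow_bound (g : ℝ) (hg : 1 ≤ g) (G m : ℕ) (hG : g = G) :
    (1 - 1 / g) ^ (G * m) ≤ (1 / 2) ^ m := by
  rw [pow_mul]
  have h0 : 0 ≤ 1 - 1 / g := by
    have : 1 / g ≤ 1 := by rw [div_le_one (by linarith)]; exact hg
    linarith
  refine pow_le_pow_left₀ (by positivity) ?_ m
  have h1 : 1 - 1 / g ≤ Real.exp (-(1 / g)) := by
    have := Real.add_one_le_exp (-(1 / g)); linarith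
  refine (pow_le_pow_left₀ h0 h1 G).trans ?_
  rw [← Real.exp_nat_mul, ← hG]
  have : g * -(1 / g) = -1 := by field_simp
  rw [this, Real.exp_neg, one_div]
  refine inv_anti₀ (by norm_num) ?_
  have := Real.add_one_le_exp 1
  linarith

/-- Number of rounds. -/
def nRounds (n : ℕ) : ℕ := 28 * (Nat.clog 9 (2 * 2 ^ n) + 1) * (n + 4)

/-- Total number of queries. -/
def cost (n k T Δ : ℕ) : ℕ :=
  nRounds n * (3 ^ Nat.clog 9 (2 * 2 ^ n) *
    (n * (48 * nRounds n * n * Δ ^ 2) * (k + 1) + nRounds n * (2 * (n + 1))) +
    (nRounds n + 2) * (14 * (Nat.clog 9 (Fintype.card (Chk n k T)) + 1)) *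
      (3 ^ Nat.clog 9 (Fintype.card (Chk n k T)) * ((T + 3) * nb n k + n + 1)))

theorem upper_inst (n k T Δ : ℕ) (hn : 0 < n) (hT : 0 < T) (hΔ : 0 < Δ) :
    ∃ σ : (Idx n k T → Bool) → Bool → ℝ, Samp (cost n k T Δ) σ ∧
      ∀ x, 2 / 3 ≤ σ x (bigF n k T Δ x) := by
  classical
  set t := nRounds n with ht
  have ht0 : 0 < t := by rw [ht, nRounds]; positivity
  set R := 48 * t * n * Δ ^ 2 with hR
  have hR0 : 0 < R := by positivity
  have ht' : (1 : ℝ) ≤ t := by exact_mod_cast ht0
  have hn' : (0 : ℝ) < n := by exact_mod_cast hn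
  have hΔ' : (0 : ℝ) < Δ := by exact_mod_cast hΔ
  have hη : (4 * n * Δ ^ 2 / R : ℝ) = 1 / (12 * t) := by
    rw [hR]; push_cast; field_simp; norm_num
  have : Nonempty (Chk n k T) := ⟨Sum.inl fun _ => false⟩
  choose ρ hρ1 hρ2 using fun v : I n × I n =>
    verify (fun x ch => decide (okP Δ x v ch)) (det_ok (k := k) (T := T) Δ v) (t + 2)
  obtain ⟨σ, hσ1, hσ2⟩ := sink (samp_vertex (k := k) hT R) beats det_beats
    (fun x u v h => by
      simp only [beats, Bool.and_eq_true, Bool.not_eq_true'] at h
      simp [beats, h.1])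
    (fun x v => ∀ ch, okP Δ x v ch) ρ hρ1 ((1 / 2) ^ (t + 2)) (1 / (6 * t)) (by positivity)
    (by positivity) (fun x v hv => (hρ2 v x).1 fun c => decide_eq_true (hv c))
    (fun x v hv => (hρ2 v x).2 (by
      obtain ⟨c, hc⟩ := not_forall.1 hv
      exact ⟨c, decide_eq_false hc⟩))
    (2 * 2 ^ n) (Nat.one_le_iff_ne_zero.2 (by positivity))
    (fun x v hv => by
      have h1 := decr_ge hT hΔ hR0 x v hv
      rw [hη] at h1
      have h2 : (1 : ℝ) / (12 * t) ≤ 1 / 2 :=
        one_div_le_one_div_of_le (by norm_num) (by linarith)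
      have hd := fun c => (samp_decr (k := k) hT R c).isProb x
      constructor
      · push_cast
        rw [mul_comm (2 : ℝ), ← one_div_mul_one_div]
        exact mul_le_mul_of_nonneg_left (by linarith) (by positivity)
      · calc (∑ u : I n × I n, if u ≠ v ∧ beats x v u = false
              then 1 / 2 ^ n * decr R x u.1 u.2 else 0)
            ≤ ∑ u : I n × I n, if u.1 = v.1 then
                (if u.2 = v.2 then 0 else 1 / 2 ^ n * decr R x u.1 u.2) else 0 := by
              refine Finset.sum_le_sum fun u _ => ?_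
              have h0 : 0 ≤ 1 / 2 ^ n * decr R x u.1 u.2 := mul_nonneg (by positivity) ((hd _).1 _)
              split_ifs with a1 a2 a3 a2 a3
              · exact absurd (Prod.ext a2 a3) a1.1
              · exact le_rfl
              · exfalso
                have b1 := hv (Sum.inr (Sum.inl u.1))
                have b2 := hv (Sum.inl (ptr x u.1 u.2 v.1))
                simp only [okP] at b1 b2
                have b3 := b1.resolve_left a2
                have := a1.2
                simp [beats, kills, b2, b3] at this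
              · exact le_rfl
              · exact h0
              · exact le_rfl
          _ = 1 / 2 ^ n * (1 - decr R x v.1 v.2) := by
              rw [Fintype.sum_prod_type, Finset.sum_comm]
              simp only [Finset.sum_ite_eq', Finset.mem_univ, if_true]
              rw [← (hd v.1).2, ← Finset.add_sum_erase _ _ (mem_univ v.2),
                ← Finset.add_sum_erase _ _ (mem_univ v.2), if_pos rfl, zero_add,
                add_sub_cancel_left, Finset.mul_sum]
              exact Finset.sum_congr rfl fun a ha => if_neg (ne_of_mem_erase ha)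
          _ ≤ 1 / 2 ^ n * (1 / (12 * t)) :=
              mul_le_mul_of_nonneg_left (by linarith) (by positivity)
          _ = 1 / (6 * t) / ((2 * 2 ^ n : ℕ) : ℝ) := by
              push_cast; field_simp; norm_num)
    t
  refine ⟨σ, hσ1, fun x => ?_⟩
  have hs := (hσ1.isProb x).2
  rw [Fintype.sum_bool] at hs
  by_cases hx : ∃ v : I n × I n, ∀ ch, okP Δ x v ch
  · have h1 := (hσ2 x).2 hx
    have h2 := half_pow_bound (28 * (Nat.clog 9 (2 * 2 ^ n) + 1)) (by
      have : (0 : ℝ) ≤ Nat.clog 9 (2 * 2 ^ n) := by positivity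
      linarith) (28 * (Nat.clog 9 (2 * 2 ^ n) + 1)) (n + 4) (by push_cast; ring)
    have h3 : (1 / 2 : ℝ) ^ (n + 4) * ((2 * 2 ^ n : ℕ) : ℝ) = 1 / 8 := by
      push_cast; rw [one_div_pow]; field_simp; ring
    have h4 : (t : ℝ) * (1 / (6 * t)) = 1 / 6 := by field_simp
    have h5 := mul_le_mul_of_nonneg_right h2 (Nat.cast_nonneg (α := ℝ) (2 * 2 ^ n))
    rw [h3] at h5
    rw [h4] at h1
    rw [bigF, decide_eq_true hx]
    have e : 28 * (Nat.clog 9 (2 * 2 ^ n) + 1) * (n + 4) = t := rfl
    rw [e] at h5
    linarith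
  · have h1 := (hσ2 x).1 (not_exists.1 hx)
    have h2 : (t : ℝ) * (1 / 2) ^ (t + 2) ≤ 1 / 4 := by
      have : (t : ℝ) ≤ 2 ^ t := by exact_mod_cast Nat.lt_two_pow_self.le
      rw [one_div_pow, mul_one_div, div_le_iff₀ (by positivity), pow_add]
      linarith
    rw [bigF, decide_eq_false hx]
    linarith

end Crest.Agent.R350
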