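import Crest.Agent.R350.Prob

/-!
# Row 350: the randomized lower bound (abstract form)
-/

set_option autoImplicit false

namespace Crest.Agent.R350

open Finset Crest.MathPhysics.Query

open Classical in
/-- Real indicator of a proposition. -/
noncomputable def lw_ind (p : Prop) : ℝ := if p then 1 else 0

theorem lw_ind_nonneg (p : Prop) : 0 ≤ lw_ind p := by
  unfold lw_ind; split_ifs <;> norm_num

theorem lw_ind_pos {p : Prop} (h : p) : lw_ind p = 1 := by simp [lw_ind, h]

theorem lw_ind_neg {p : Prop} (h : ¬ p) : lw_ind p = 0 := by simp [lw_ind, h]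

theorem lw_ind_mono {p q : Prop} (h : p → q) : lw_ind p ≤ lw_ind q := by
  by_cases hp : p
  · rw [lw_ind_pos hp, lw_ind_pos (h hp)]
  · rw [lw_ind_neg hp]; exact lw_ind_nonneg q

theorem lw_ind_or (p q : Prop) : lw_ind (p ∨ q) ≤ lw_ind p + lw_ind q := by
  by_cases hp : p
  · rw [lw_ind_pos hp, lw_ind_pos (Or.inl hp)]; linarith [lw_ind_nonneg q]
  · rw [lw_ind_neg hp, zero_add]; exact lw_ind_mono fun h => h.resolve_left hp

section trees

variable {m : ℕ} {C : Type} [DecidableEq C] (col : Fin m → C) (b : C)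

/-- Number of reads in column `b` along the path of `x`. -/
def lw_cnt (x : Fin m → Bool) : DTree m → ℕ
  | .answer _ => 0
  | .read i t₀ t₁ => (if col i = b then 1 else 0) + (if x i then lw_cnt x t₁ else lw_cnt x t₀)

/-- One of the first `D` reads in column `b` along the path of `x` lies in `P`. -/
def lw_hits (P : Fin m → Prop) (x : Fin m → Bool) : DTree m → ℕ → Prop
  | .answer _, _ => False
  | .read i t₀ t₁, D =>
      if col i = b then
        0 < D ∧ (P i ∨ if x i then lw_hits P x t₁ (D - 1) else lw_hits P x t₀ (D - 1))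
      else if x i then lw_hits P x t₁ D else lw_hits P x t₀ D

variable {col b}

theorem lw_eval_eq {P : Fin m → Prop} {x x' : Fin m → Bool}
    (hP : ∀ i, x i ≠ x' i → P i ∧ col i = b) (T : DTree m) :
    ∀ D, ¬ lw_hits col b P x T D → lw_cnt col b x T ≤ D → T.eval x = T.eval x' := by
  induction T with
  | answer c => intro D _ _; rfl
  | read i t₀ t₁ ih₀ ih₁ =>
    intro D hh hc
    simp only [lw_hits, lw_cnt, DTree.eval] at hh hc ⊢
    by_cases hi : col i = b
    · rw [if_pos hi] at hh hc
      have hD : 0 < D := by omega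
      have hPi : ¬ P i := fun h => hh ⟨hD, Or.inl h⟩
      have hx : x' i = x i := by
        by_contra h
        exact hPi (hP i (Ne.symm h)).1
      rw [hx]
      cases hxi : x i
      · simp only [hxi, Bool.false_eq_true, if_false] at hh hc ⊢
        exact ih₀ (D - 1) (fun h => hh ⟨hD, Or.inr h⟩) (by omega)
      · simp only [hxi, if_true] at hh hc ⊢
        exact ih₁ (D - 1) (fun h => hh ⟨hD, Or.inr h⟩) (by omega)
    · rw [if_neg hi] at hh hc
      have hx : x' i = x i := by
        by_contra h
        exact hi (hP i (Ne.symm h)).2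
      rw [hx]
      cases hxi : x i
      · simp only [hxi, Bool.false_eq_true, if_false] at hh hc ⊢
        exact ih₀ D hh (by omega)
      · simp only [hxi, if_true] at hh hc ⊢
        exact ih₁ D hh (by omega)

theorem lw_sum_cnt [Fintype C] (col : Fin m → C) (x : Fin m → Bool) (T : DTree m) :
    ∑ b, lw_cnt col b x T ≤ T.depth := by
  induction T with
  | answer c => simp [lw_cnt]
  | read i t₀ t₁ ih₀ ih₁ =>
    simp only [lw_cnt, DTree.depth, Finset.sum_add_distrib]
    rw [Finset.sum_ite_eq]
    cases hxi : x i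
    · simp only [Bool.false_eq_true, if_false, Finset.mem_univ, if_true]
      have := le_max_left t₀.depth t₁.depth
      omega
    · simp only [if_true, Finset.mem_univ]
      have := le_max_right t₀.depth t₁.depth
      omega

theorem lw_hits_or {P P' : Fin m → Prop} {x : Fin m → Bool} (T : DTree m) :
    ∀ D, lw_hits col b (fun i => P i ∨ P' i) x T D →
      lw_hits col b P x T D ∨ lw_hits col b P' x T D := by
  induction T with
  | answer c => intro D h; exact h.elim
  | read i t₀ t₁ ih₀ ih₁ =>
    intro D h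
    simp only [lw_hits] at h ⊢
    by_cases hi : col i = b
    · simp only [if_pos hi] at h ⊢
      cases hxi : x i
      · simp only [hxi, Bool.false_eq_true, if_false] at h ⊢
        have := ih₀ (D - 1)
        tauto
      · simp only [hxi, if_true] at h ⊢
        have := ih₁ (D - 1)
        tauto
    · simp only [if_neg hi] at h ⊢
      cases hxi : x i
      · simp only [hxi, Bool.false_eq_true, if_false] at h ⊢
        exact ih₀ D h
      · simp only [hxi, if_true] at h ⊢
        exact ih₁ D h

theorem lw_sum_hits {A : Type} [Fintype A] (P : A → Fin m → Prop)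
    (hd : ∀ a a' i, P a i → P a' i → a = a') (x : Fin m → Bool) (T : DTree m) :
    ∀ D, ∑ a, lw_ind (lw_hits col b (P a) x T D) ≤ D := by
  classical
  induction T with
  | answer c => intro D; simp [lw_hits, lw_ind]
  | read i t₀ t₁ ih₀ ih₁ =>
    intro D
    have h1 : ∑ a, lw_ind (P a i) ≤ 1 := by
      by_cases hex : ∃ a, P a i
      · obtain ⟨a, ha⟩ := hex
        rw [Finset.sum_eq_single a, lw_ind_pos ha]
        · intro a' _ hne
          exact lw_ind_neg fun h => hne (hd _ _ _ h ha)
        · simp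
      · push Not at hex
        simp [lw_ind_neg (hex _)]
    simp only [lw_hits]
    by_cases hi : col i = b
    · simp only [if_pos hi]
      rcases D with _ | D
      · simp [lw_ind]
      · simp only [Nat.zero_lt_succ, true_and, Nat.add_sub_cancel]
        refine (Finset.sum_le_sum fun a _ => lw_ind_or _ _).trans ?_
        rw [Finset.sum_add_distrib]
        push_cast
        cases hxi : x i
        · simp only [Bool.false_eq_true, if_false]
          linarith [ih₀ D]
        · simp only [if_true]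
          linarith [ih₁ D]
    · simp only [if_neg hi]
      cases hxi : x i
      · simp only [Bool.false_eq_true, if_false]
        exact ih₀ D
      · simp only [if_true]
        exact ih₁ D

theorem lw_hits_congr {P : Fin m → Prop} {x x' : Fin m → Bool}
    (hP : ∀ i, x i ≠ x' i → P i ∧ col i = b) (T : DTree m) :
    ∀ D, lw_hits col b P x T D → lw_hits col b P x' T D := by
  induction T with
  | answer c => intro D h; exact h.elim
  | read i t₀ t₁ ih₀ ih₁ =>
    intro D h
    simp only [lw_hits] at h ⊢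
    by_cases hi : col i = b
    · simp only [if_pos hi] at h ⊢
      refine ⟨h.1, ?_⟩
      by_cases hPi : P i
      · exact Or.inl hPi
      · have hx : x' i = x i := by
          by_contra h
          exact hPi (hP i (Ne.symm h)).1
        rw [hx]
        have h2 := h.2.resolve_left hPi
        right
        cases hxi : x i
        · simp only [hxi, Bool.false_eq_true, if_false] at h2 ⊢
          exact ih₀ _ h2
        · simp only [hxi, if_true] at h2 ⊢
          exact ih₁ _ h2
    · simp only [if_neg hi] at h ⊢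
      have hx : x' i = x i := by
        by_contra h
        exact hi (hP i (Ne.symm h)).2
      rw [hx]
      cases hxi : x i
      · simp only [hxi, Bool.false_eq_true, if_false] at h ⊢
        exact ih₀ _ h
      · simp only [hxi, if_true] at h ⊢
        exact ih₁ _ h

theorem lw_hits_tree {Y : Type} {P : Fin m → Prop} (σ : Fin m → Bool ⊕ Y)
    (hσ : ∀ i w, σ i = Sum.inr w → col i = b) (T : DTree m) :
    ∀ D, TreeFn D fun y : Y → Bool => lw_ind (lw_hits col b P (fun i => (σ i).elim id y) T D) := by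
  induction T with
  | answer c =>
    intro D
    simpa [lw_hits, lw_ind] using TreeFn.const (W := Y) D 0 (by simp)
  | read i t₀ t₁ ih₀ ih₁ =>
    intro D
    simp only [lw_hits]
    by_cases hi : col i = b
    · simp only [if_pos hi]
      rcases D with _ | D
      · simpa [lw_ind] using TreeFn.const (W := Y) 0 0 (by simp)
      · simp only [Nat.zero_lt_succ, true_and, Nat.add_sub_cancel]
        by_cases hPi : P i
        · simpa [lw_ind, hPi] using TreeFn.const (W := Y) (D + 1) 1 (by simp)
        · simp only [hPi, false_or]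
          rcases hs : σ i with c | w
          · cases c
            · simpa using (ih₀ D).mono (Nat.le_succ _)
            · simpa using (ih₁ D).mono (Nat.le_succ _)
          · have := TreeFn.node w (ih₀ D) (ih₁ D)
            convert this using 2 with y
            cases hy : y w <;> simp [hy]
    · simp only [if_neg hi]
      obtain ⟨c, hs⟩ | ⟨w, hs⟩ : (∃ c, σ i = Sum.inl c) ∨ ∃ w, σ i = Sum.inr w := by
        cases σ i <;> simp
      · cases c
        · simpa [hs] using ih₀ D
        · simpa [hs] using ih₁ D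
      · exact absurd (hσ i w hs) hi

end trees

section layout

variable {C Y A S : Type} [DecidableEq C]

/-- A column with given kill vector and Forrelation bits, and empty sheets. -/
def lw_colv (k : A → Bool) (y : Y → Bool) : Y ⊕ A ⊕ (A × S) → Bool :=
  Sum.elim y (Sum.elim k fun _ => false)

/-- Replace column `b` of an input. -/
def lw_Z (x : Lay C Y A S → Bool) (b : C) (v : Y ⊕ A ⊕ (A × S) → Bool) : Lay C Y A S → Bool :=
  fun l => if l.1 = b then v l.2 else x l

/-- The hard input attached to column data. -/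
def lw_X [DecidableEq A] (ω : C → A × A × (Y → Bool)) : Lay C Y A S → Bool :=
  fun l => lw_colv (fun i => decide (i = (ω l.1).2.1)) (ω l.1).2.2 l.2

theorem lw_X_update [DecidableEq A] (ω : C → A × A × (Y → Bool)) (b : C)
    (o : A × A × (Y → Bool)) :
    (lw_X (Function.update ω b o) : Lay C Y A S → Bool) =
      lw_Z (lw_X ω) b (lw_colv (fun i => decide (i = o.2.1)) o.2.2) := by
  funext l
  by_cases h : l.1 = b
  · simp [lw_X, lw_Z, h]
  · simp [lw_X, lw_Z, h]

variable [Fintype A] [DecidableEq A] [Fintype Y] [DecidableEq Y]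

theorem lw_kill_bound [Nonempty A] (ν : A → (Y → Bool) → ℝ) (hν : ∀ a, IsProb (ν a)) (D : ℕ)
    (hD : 32 * D ≤ Fintype.card A) {m : ℕ} (e : Fin m ≃ Lay C Y A S) (T : DTree m) (b : C)
    (x : Lay C Y A S → Bool) :
    ∑ o : A × A × (Y → Bool), ν o.1 o.2.2 / (Fintype.card A : ℝ) ^ 2 *
      lw_ind (lw_hits (fun i => (e i).1) b (fun i => e i = (b, Sum.inr (Sum.inl o.2.1)))
        (fun i => lw_Z x b (lw_colv (fun i => decide (i = o.2.1)) o.2.2) (e i)) T D) ≤ 1 / 32 := by
  have hA : (0 : ℝ) < Fintype.card A := by exact_mod_cast Fintype.card_pos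
  have hD' : (32 : ℝ) * D ≤ Fintype.card A := by exact_mod_cast hD
  calc _ ≤ ∑ o : A × A × (Y → Bool), ν o.1 o.2.2 / (Fintype.card A : ℝ) ^ 2 *
        lw_ind (lw_hits (fun i => (e i).1) b (fun i => e i = (b, Sum.inr (Sum.inl o.2.1)))
          (fun i => lw_Z x b (lw_colv (fun _ => false) o.2.2) (e i)) T D) := by
        refine Finset.sum_le_sum fun o _ => mul_le_mul_of_nonneg_left
          (lw_ind_mono (lw_hits_congr ?_ T D)) (div_nonneg ((hν _).1 _) (by positivity))
        intro i hi
        rcases hei : e i with ⟨c, w | p | q⟩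
        · simp [hei, lw_Z, lw_colv] at hi
        · simp only [hei, lw_Z, lw_colv] at hi
          by_cases hc : c = b
          · simp [hc] at hi
            simp [hc, hi]
          · simp [hc] at hi
        · simp [hei, lw_Z, lw_colv] at hi
    _ = ∑ a : A, ∑ y : Y → Bool, ν a y / (Fintype.card A : ℝ) ^ 2 * ∑ p : A,
        lw_ind (lw_hits (fun i => (e i).1) b (fun i => e i = (b, Sum.inr (Sum.inl p)))
          (fun i => lw_Z x b (lw_colv (fun _ => false) y) (e i)) T D) := by
        rw [Fintype.sum_prod_type]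
        refine Finset.sum_congr rfl fun a _ => ?_
        rw [Fintype.sum_prod_type, Finset.sum_comm]
        refine Finset.sum_congr rfl fun y _ => ?_
        rw [Finset.mul_sum]
    _ ≤ ∑ a : A, ∑ y : Y → Bool, ν a y / (Fintype.card A : ℝ) ^ 2 * D := by
        refine Finset.sum_le_sum fun a _ => Finset.sum_le_sum fun y _ =>
          mul_le_mul_of_nonneg_left (lw_sum_hits _ ?_ _ T D)
            (div_nonneg ((hν _).1 _) (by positivity))
        intro p p' i h h'
        rw [h] at h'
        simpa using h'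
    _ = D / Fintype.card A := by
        simp_rw [← Finset.sum_mul, ← Finset.sum_div, fun a => (hν a).2]
        simp only [Finset.sum_const, Finset.card_univ, nsmul_eq_mul]
        field_simp
    _ ≤ 1 / 32 := by rw [div_le_div_iff₀ hA (by norm_num)]; linarith

theorem lw_sheet_bound [Nonempty A] (ν : A → (Y → Bool) → ℝ) (ν₀ : (Y → Bool) → ℝ)
    (hν₀ : IsProb ν₀) (D : ℕ)
    (hadv : ∀ a f, TreeFn D f → |∑ y, ν a y * f y - ∑ y, ν₀ y * f y| ≤ 1 / 16)
    (hD : 32 * D ≤ Fintype.card A) {m : ℕ} (e : Fin m ≃ Lay C Y A S) (T : DTree m) (b : C)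
    (x : Lay C Y A S → Bool) :
    ∑ o : A × A × (Y → Bool), ν o.1 o.2.2 / (Fintype.card A : ℝ) ^ 2 *
      lw_ind (lw_hits (fun i => (e i).1) b (fun i => ∃ s, e i = (b, Sum.inr (Sum.inr (o.1, s))))
        (fun i => lw_Z x b (lw_colv (fun i => decide (i = o.2.1)) o.2.2) (e i)) T D) ≤ 3 / 32 := by
  have hA : (0 : ℝ) < Fintype.card A := by exact_mod_cast Fintype.card_pos
  have hD' : (32 : ℝ) * D ≤ Fintype.card A := by exact_mod_cast hD
  set f : A → A → (Y → Bool) → ℝ := fun a p y =>
    lw_ind (lw_hits (fun i => (e i).1) b (fun i => ∃ s, e i = (b, Sum.inr (Sum.inr (a, s))))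
      (fun i => lw_Z x b (lw_colv (fun i => decide (i = p)) y) (e i)) T D) with hf
  have htree : ∀ a p, TreeFn D (f a p) := by
    intro a p
    have := lw_hits_tree (col := fun i => (e i).1) (b := b)
      (P := fun i => ∃ s, e i = (b, Sum.inr (Sum.inr (a, s))))
      (fun i => if (e i).1 = b then
          Sum.elim Sum.inr (fun t => Sum.inl (Sum.elim (fun i => decide (i = p)) (fun _ => false) t))
            (e i).2
        else Sum.inl (x (e i))) (by
        intro i w hw
        by_contra hc
        simp [hc] at hw) T D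
    convert this using 4 with y
    funext i
    rcases hei : e i with ⟨c, w | t⟩
    · by_cases hc : c = b <;> simp [lw_Z, lw_colv, hc]
    · by_cases hc : c = b <;> simp [lw_Z, lw_colv, hc]
  have h1 : ∀ a p, ∑ y, ν a y * f a p y ≤ ∑ y, ν₀ y * f a p y + 1 / 16 := by
    intro a p
    have := (abs_le.1 (hadv a _ (htree a p))).2
    linarith
  have h2 : ∀ p, ∑ a, ∑ y, ν₀ y * f a p y ≤ D := by
    intro p
    rw [Finset.sum_comm]
    calc _ ≤ ∑ y, ν₀ y * D := by
          refine Finset.sum_le_sum fun y _ => ?_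
          rw [← Finset.mul_sum]
          refine mul_le_mul_of_nonneg_left (lw_sum_hits _ ?_ _ T D) (hν₀.1 y)
          rintro a a' i ⟨s, h⟩ ⟨s', h'⟩
          rw [h] at h'
          simp at h'
          exact h'.1
      _ = D := by rw [← Finset.sum_mul, hν₀.2, one_mul]
  calc _ = (∑ p, ∑ a, ∑ y, ν a y * f a p y) / (Fintype.card A : ℝ) ^ 2 := by
        rw [Finset.sum_comm, Fintype.sum_prod_type, Finset.sum_div]
        refine Finset.sum_congr rfl fun a _ => ?_
        rw [Fintype.sum_prod_type, Finset.sum_div]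
        refine Finset.sum_congr rfl fun p _ => ?_
        rw [Finset.sum_div]
        refine Finset.sum_congr rfl fun y _ => ?_
        simp only [hf]
        ring
    _ ≤ (∑ _p : A, ((D : ℝ) + Fintype.card A / 16)) / (Fintype.card A : ℝ) ^ 2 := by
        refine div_le_div_of_nonneg_right (Finset.sum_le_sum fun p _ => ?_) (by positivity)
        refine (Finset.sum_le_sum fun a _ => h1 a p).trans ?_
        rw [Finset.sum_add_distrib]
        simp only [Finset.sum_const, Finset.card_univ, nsmul_eq_mul]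
        linarith [h2 p]
    _ = D / Fintype.card A + 1 / 16 := by
        simp only [Finset.sum_const, Finset.card_univ, nsmul_eq_mul]
        field_simp
    _ ≤ 3 / 32 := by
        have : (D : ℝ) / Fintype.card A ≤ 1 / 32 := by
          rw [div_le_div_iff₀ hA (by norm_num)]; linarith
        linarith

omit [DecidableEq A] in
theorem lw_good_bound [Nonempty A] (ν : A → (Y → Bool) → ℝ)
    (Good : A → (Y → Bool) → Prop) [∀ a, DecidablePred (Good a)]
    (hgood : ∀ a, (∑ y, if Good a y then 0 else ν a y) ≤ 1 / 16) :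
    ∑ o : A × A × (Y → Bool), ν o.1 o.2.2 / (Fintype.card A : ℝ) ^ 2 *
      lw_ind (¬ Good o.1 o.2.2) ≤ 1 / 16 := by
  have hA : (0 : ℝ) < Fintype.card A := by exact_mod_cast Fintype.card_pos
  calc _ = (∑ a : A, ∑ _p : A, ∑ y, if Good a y then 0 else ν a y) / (Fintype.card A : ℝ) ^ 2 := by
        rw [Fintype.sum_prod_type, Finset.sum_div]
        refine Finset.sum_congr rfl fun a _ => ?_
        rw [Fintype.sum_prod_type, Finset.sum_div]
        refine Finset.sum_congr rfl fun p _ => ?_
        rw [Finset.sum_div]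
        refine Finset.sum_congr rfl fun y _ => ?_
        by_cases h : Good a y <;> simp [h, lw_ind]
    _ ≤ (∑ _a : A, ∑ _p : A, (1 / 16 : ℝ)) / (Fintype.card A : ℝ) ^ 2 :=
        div_le_div_of_nonneg_right
          (Finset.sum_le_sum fun a _ => Finset.sum_le_sum fun _ _ => hgood a) (by positivity)
    _ = 1 / 16 := by
        simp only [Finset.sum_const, Finset.card_univ, nsmul_eq_mul]
        field_simp

omit [DecidableEq A] in
theorem lw_isProb [Nonempty A] (ν : A → (Y → Bool) → ℝ) (hν : ∀ a, IsProb (ν a)) :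
    IsProb fun o : A × A × (Y → Bool) => ν o.1 o.2.2 / (Fintype.card A : ℝ) ^ 2 := by
  have hA : (0 : ℝ) < Fintype.card A := by exact_mod_cast Fintype.card_pos
  refine ⟨fun o => div_nonneg ((hν _).1 _) (by positivity), ?_⟩
  simp_rw [Fintype.sum_prod_type, ← Finset.sum_div, fun a => (hν a).2]
  simp only [Finset.sum_const, Finset.card_univ, nsmul_eq_mul]
  field_simp

end layout

theorem lw_exp_le {J Ω : Type} [Fintype J] [DecidableEq J] [Fintype Ω] (μ : Ω → ℝ)
    (h : IsProb μ) (b : J) (g : (J → Ω) → ℝ) (c : ℝ)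
    (hc : ∀ ω, ∑ o, μ o * g (Function.update ω b o) ≤ c) :
    ∑ ω : J → Ω, (∏ j, μ (ω j)) * g ω ≤ c := by
  have hP := pi_isProb (fun _ : J => μ) fun _ => h
  rw [pi_update (fun _ : J => μ) (fun _ => h) b g]
  calc _ ≤ ∑ ω : J → Ω, (∏ j, μ (ω j)) * c :=
        Finset.sum_le_sum fun ω _ => mul_le_mul_of_nonneg_left (hc ω) (hP.1 ω)
    _ = c := by rw [← Finset.sum_mul, hP.2, one_mul]

theorem lw_third {s : ℕ} (p : Fin s → ℝ) (hp : ∀ j, 0 ≤ p j) (hp1 : ∑ j, p j = 1)
    (u v : Fin s → Bool) (hu : 2 / 3 ≤ ∑ j, if u j = false then p j else 0)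
    (hv : 2 / 3 ≤ ∑ j, if v j = true then p j else 0) (g : Fin s → ℝ) (hg : ∀ j, 0 ≤ g j)
    (hg1 : ∀ j, u j ≠ v j → 1 ≤ g j) : 1 / 3 ≤ ∑ j, p j * g j := by
  have : ∑ j, ((if u j = false then p j else 0) + (if v j = true then p j else 0)) ≤
      ∑ j, (p j + p j * g j) := by
    refine Finset.sum_le_sum fun j _ => ?_
    have h1 := hp j
    have h2 := mul_nonneg h1 (hg j)
    cases hu : u j <;> cases hv : v j <;> simp
    · exact h2
    · nlinarith [hg1 j (by simp [hu, hv])]
    · linarith
    · exact h2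
  rw [Finset.sum_add_distrib, Finset.sum_add_distrib, hp1] at this
  linarith

theorem lower_abstract {C Y A S : Type} [Fintype C] [DecidableEq C] [Fintype Y] [DecidableEq Y]
    [Fintype A] [DecidableEq A] [Fintype S] [DecidableEq S] [Nonempty C] [Nonempty A]
    (ν : A → (Y → Bool) → ℝ) (ν₀ : (Y → Bool) → ℝ) (hν : ∀ a, IsProb (ν a)) (hν₀ : IsProb ν₀)
    (D : ℕ)
    (hadv : ∀ a f, TreeFn D f → |∑ y, ν a y * f y - ∑ y, ν₀ y * f y| ≤ 1 / 16)
    (Good : A → (Y → Bool) → Prop) [∀ a, DecidablePred (Good a)]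
    (hgood : ∀ a, (∑ y, if Good a y then 0 else ν a y) ≤ 1 / 16)
    (F : (Lay C Y A S → Bool) → Bool)
    (hF₀ : ∀ x : Lay C Y A S → Bool, (∀ c, ∃ i, x (c, Sum.inr (Sum.inl i)) = true) → F x = false)
    (hF₁ : ∀ (x : Lay C Y A S → Bool) (b : C) (a : A), Good a (fun w => x (b, Sum.inl w)) →
      (∀ d, d ≠ b → ∃ i, x (d, Sum.inr (Sum.inl i)) = true) →
      (∀ i, x (b, Sum.inr (Sum.inl i)) = false) →
      ∃ x' : Lay C Y A S → Bool, (∀ e, (∀ s, e ≠ (b, Sum.inr (Sum.inr (a, s)))) → x' e = x e) ∧ F x' = true)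
    (hD : 32 * D ≤ Fintype.card A)
    {m : ℕ} (e : Fin m ≃ Lay C Y A S) (r : ℕ)
    (h : RandomizedComputes (fun x' : Fin m → Bool => F fun i => x' (e.symm i)) r) :
    Fintype.card C * (D + 1) ≤ 6 * r := by
  obtain ⟨s, p, T, hp, hp1, hT, hc⟩ := h
  have hc' : ∀ x : Lay C Y A S → Bool,
      2 / 3 ≤ ∑ j, if (T j).eval (fun i => x (e i)) = F x then p j else 0 := by
    intro x
    simpa using hc fun i => x (e i)
  set w : A × A × (Y → Bool) → ℝ := fun o => ν o.1 o.2.2 / (Fintype.card A : ℝ) ^ 2 with hw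
  have hwP : IsProb w := lw_isProb ν hν
  have hP := pi_isProb (fun _ : C => w) fun _ => hwP
  have hD1 : (0 : ℝ) < D + 1 := by positivity
  set cn : Fin s → C → (C → A × A × (Y → Bool)) → ℝ := fun j b ω =>
    (lw_cnt (fun i => (e i).1) b (fun i => (lw_X ω : Lay C Y A S → Bool) (e i)) (T j) : ℝ) / (D + 1)
    with hcn
  set ki : Fin s → C → (C → A × A × (Y → Bool)) → ℝ := fun j b ω =>
    lw_ind (lw_hits (fun i => (e i).1) b (fun i => e i = (b, Sum.inr (Sum.inl (ω b).2.1)))
      (fun i => (lw_X ω : Lay C Y A S → Bool) (e i)) (T j) D) with hki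
  set sh : Fin s → C → (C → A × A × (Y → Bool)) → ℝ := fun j b ω =>
    lw_ind (lw_hits (fun i => (e i).1) b (fun i => ∃ t, e i = (b, Sum.inr (Sum.inr ((ω b).1, t))))
      (fun i => (lw_X ω : Lay C Y A S → Bool) (e i)) (T j) D) with hsh
  have hnn : ∀ j b ω, 0 ≤ cn j b ω + (ki j b ω + sh j b ω) := fun j b ω =>
    add_nonneg (div_nonneg (Nat.cast_nonneg _) hD1.le)
      (add_nonneg (lw_ind_nonneg _) (lw_ind_nonneg _))
  have hpt : ∀ b ω, 1 / 3 ≤ lw_ind (¬ Good (ω b).1 (ω b).2.2) / 3 +
      ∑ j, p j * (cn j b ω + (ki j b ω + sh j b ω)) := by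
    intro b ω
    by_cases hG : Good (ω b).1 (ω b).2.2
    · rw [lw_ind_neg (not_not.2 hG), zero_div, zero_add]
      have hF0 : F (lw_X ω) = false := hF₀ _ fun c => ⟨(ω c).2.1, by simp [lw_X, lw_colv]⟩
      obtain ⟨x', hx', hF1⟩ := hF₁ (lw_Z (lw_X ω) b (lw_colv (fun _ => false) (ω b).2.2)) b (ω b).1
        (by simpa [lw_Z, lw_colv] using hG)
        (fun d hd => ⟨(ω d).2.1, by simp [lw_Z, lw_X, lw_colv, hd]⟩)
        (fun i => by simp [lw_Z, lw_colv])
      refine lw_third p hp hp1 _ _ (by simpa only [hF0] using hc' (lw_X ω))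
        (by simpa only [hF1] using hc' x') _ (fun j => hnn j b ω) fun j hj => ?_
      by_contra hlt
      push Not at hlt
      have hcn0 : 0 ≤ cn j b ω := div_nonneg (Nat.cast_nonneg _) hD1.le
      have hki0 : 0 ≤ ki j b ω := lw_ind_nonneg _
      have hsh0 : 0 ≤ sh j b ω := lw_ind_nonneg _
      refine hj (lw_eval_eq (col := fun i => (e i).1) (b := b)
        (P := fun i => e i = (b, Sum.inr (Sum.inl (ω b).2.1)) ∨
          ∃ t, e i = (b, Sum.inr (Sum.inr ((ω b).1, t)))) ?_ (T j) D ?_ ?_)
      · intro i hi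
        by_cases hs : ∃ t, e i = (b, Sum.inr (Sum.inr ((ω b).1, t)))
        · refine ⟨Or.inr hs, ?_⟩
          obtain ⟨t, ht⟩ := hs
          rw [ht]
        · push Not at hs
          rw [hx' _ hs] at hi
          rcases hei : e i with ⟨c, y | q | q⟩
          · by_cases hcb : c = b <;> simp [hei, lw_Z, lw_X, lw_colv, hcb] at hi
          · by_cases hcb : c = b
            · simp [hei, lw_Z, lw_X, lw_colv, hcb] at hi
              simp [hcb, hi]
            · simp [hei, lw_Z, hcb] at hi
          · by_cases hcb : c = b <;> simp [hei, lw_Z, lw_X, lw_colv, hcb] at hi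
      · intro hh
        rcases lw_hits_or _ _ hh with h1 | h1
        · have : ki j b ω = 1 := lw_ind_pos h1
          linarith
        · have : sh j b ω = 1 := lw_ind_pos h1
          linarith
      · by_contra hgt
        push Not at hgt
        have : 1 ≤ cn j b ω := by
          simp only [hcn]
          rw [le_div_iff₀ hD1, one_mul]
          exact_mod_cast hgt
        linarith
    · rw [lw_ind_pos hG]
      have := Finset.sum_nonneg fun j (_ : j ∈ Finset.univ) => mul_nonneg (hp j) (hnn j b ω)
      linarith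
  have hEg : ∀ b, ∑ ω : C → A × A × (Y → Bool), (∏ c, w (ω c)) *
      lw_ind (¬ Good (ω b).1 (ω b).2.2) ≤ 1 / 16 := fun b =>
    lw_exp_le w hwP b (fun ω => lw_ind (¬ Good (ω b).1 (ω b).2.2)) _ fun ω => by
      simpa only [Function.update_self] using lw_good_bound ν Good hgood
  have hEk : ∀ j b, ∑ ω : C → A × A × (Y → Bool), (∏ c, w (ω c)) * ki j b ω ≤ 1 / 32 :=
    fun j b => lw_exp_le w hwP b (ki j b) _ fun ω => by
      simpa only [hki, Function.update_self, lw_X_update] using
        lw_kill_bound ν hν D hD e (T j) b (lw_X ω)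
  have hEs : ∀ j b, ∑ ω : C → A × A × (Y → Bool), (∏ c, w (ω c)) * sh j b ω ≤ 3 / 32 :=
    fun j b => lw_exp_le w hwP b (sh j b) _ fun ω => by
      simpa only [hsh, Function.update_self, lw_X_update] using
        lw_sheet_bound ν ν₀ hν₀ D hadv hD e (T j) b (lw_X ω)
  have hEc : ∀ j ω, ∑ b, cn j b ω ≤ r / (D + 1) := by
    intro j ω
    simp only [hcn]
    rw [← Finset.sum_div]
    refine div_le_div_of_nonneg_right ?_ hD1.le
    exact_mod_cast (lw_sum_cnt _ _ (T j)).trans (hT j)
  have hb : ∀ b, 3 / 16 ≤ ∑ j, p j * ∑ ω : C → A × A × (Y → Bool), (∏ c, w (ω c)) * cn j b ω := by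
    intro b
    have h1 : ∑ ω : C → A × A × (Y → Bool), (∏ c, w (ω c)) * (1 / 3) ≤
        ∑ ω : C → A × A × (Y → Bool), (∏ c, w (ω c)) * (lw_ind (¬ Good (ω b).1 (ω b).2.2) / 3 +
          ∑ j, p j * (cn j b ω + (ki j b ω + sh j b ω))) :=
      Finset.sum_le_sum fun ω _ => mul_le_mul_of_nonneg_left (hpt b ω) (hP.1 ω)
    have h2 : ∑ ω : C → A × A × (Y → Bool), (∏ c, w (ω c)) *
        (lw_ind (¬ Good (ω b).1 (ω b).2.2) / 3 +
          ∑ j, p j * (cn j b ω + (ki j b ω + sh j b ω))) =
        (∑ ω : C → A × A × (Y → Bool), (∏ c, w (ω c)) * lw_ind (¬ Good (ω b).1 (ω b).2.2)) / 3 +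
          (∑ j, p j * ∑ ω : C → A × A × (Y → Bool), (∏ c, w (ω c)) * cn j b ω +
            ∑ j, p j * ((∑ ω : C → A × A × (Y → Bool), (∏ c, w (ω c)) * ki j b ω) +
              ∑ ω : C → A × A × (Y → Bool), (∏ c, w (ω c)) * sh j b ω)) := by
      rw [← Finset.sum_add_distrib, Finset.sum_div]
      simp_rw [← Finset.sum_add_distrib, ← mul_add, ← Finset.sum_add_distrib, Finset.mul_sum]
      rw [Finset.sum_comm, ← Finset.sum_add_distrib]
      refine Finset.sum_congr rfl fun ω _ => ?_
      rw [mul_add, Finset.mul_sum]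
      congr 1
      · ring
      · exact Finset.sum_congr rfl fun j _ => by ring
    have h3 : ∑ j, p j * ((∑ ω : C → A × A × (Y → Bool), (∏ c, w (ω c)) * ki j b ω) +
        ∑ ω : C → A × A × (Y → Bool), (∏ c, w (ω c)) * sh j b ω) ≤ ∑ j, p j * (1 / 8) :=
      Finset.sum_le_sum fun j _ => mul_le_mul_of_nonneg_left
        (by linarith [hEk j b, hEs j b]) (hp j)
    rw [← Finset.sum_mul, hp1] at h3
    rw [h2, ← Finset.sum_mul, hP.2] at h1
    linarith [hEg b]
  have hsum : ∑ _b : C, (3 / 16 : ℝ) ≤ r / (D + 1) := by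
    refine (Finset.sum_le_sum fun b _ => hb b).trans ?_
    rw [Finset.sum_comm]
    calc _ ≤ ∑ j, p j * (r / (D + 1)) := by
          refine Finset.sum_le_sum fun j _ => ?_
          rw [← Finset.mul_sum]
          refine mul_le_mul_of_nonneg_left ?_ (hp j)
          rw [Finset.sum_comm]
          calc _ ≤ ∑ ω : C → A × A × (Y → Bool), (∏ c, w (ω c)) * (r / (D + 1)) := by
                refine Finset.sum_le_sum fun ω _ => ?_
                rw [← Finset.mul_sum]
                exact mul_le_mul_of_nonneg_left (hEc j ω) (hP.1 ω)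
            _ = _ := by rw [← Finset.sum_mul, hP.2, one_mul]
      _ = _ := by rw [← Finset.sum_mul, hp1, one_mul]
  simp only [Finset.sum_const, Finset.card_univ, nsmul_eq_mul] at hsum
  rw [le_div_iff₀ hD1] at hsum
  have : (Fintype.card C : ℝ) * (D + 1) ≤ 6 * r := by
    have : (0 : ℝ) ≤ r := Nat.cast_nonneg r
    nlinarith
  exact_mod_cast this

end Crest.Agent.R350
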