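import Crest.Agent.R350.QImpl

/-!
# Row 350: from `Samp` to the frozen model `QuantumComputes`
-/

set_option autoImplicit false

namespace Crest.Agent.R350

open Finset Matrix Crest.MathPhysics.Query
open scoped Kronecker

section aux

variable {N : Type} [Fintype N] [DecidableEq N]

/-- Complexification of a real vector. -/
def qfV (v : N → ℝ) : N → ℂ := fun e => (v e : ℂ)

/-- Complexification of a real matrix. -/
def qfM (M : Matrix N N ℝ) : Matrix N N ℂ := M.map Complex.ofRealHom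

omit [DecidableEq N] in
theorem qfM_mulVec (M : Matrix N N ℝ) (v : N → ℝ) : qfM M *ᵥ qfV v = qfV (M *ᵥ v) := by
  funext e
  simp [qfM, qfV, Matrix.mulVec, dotProduct]

omit [DecidableEq N] in
theorem qfM_mul (M M' : Matrix N N ℝ) : qfM (M * M') = qfM M * qfM M' := by
  simp [qfM, Matrix.map_mul]

theorem qfM_unitary {M : Matrix N N ℝ} (h : Orth M) : qfM M ∈ Matrix.unitaryGroup N ℂ := by
  rw [Matrix.mem_unitaryGroup_iff']
  have : star (qfM M) = qfM M.transpose := by
    ext i j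
    simp [qfM, Matrix.star_apply]
  rw [this, ← qfM_mul, h]
  simp [qfM]

theorem qf_orth_perm (σ : Equiv.Perm N) : Orth (σ.permMatrix ℝ) := by
  unfold Orth
  rw [Matrix.transpose_permMatrix, ← Matrix.permMatrix_mul]
  simp

theorem qf_orth_diag {s : N → ℝ} (hs : ∀ e, s e * s e = 1) : Orth (Matrix.diagonal s) := by
  unfold Orth
  rw [Matrix.diagonal_transpose, Matrix.diagonal_mul_diagonal, ← Matrix.diagonal_one]
  congr 1
  funext e
  exact hs e

theorem qf_orth_kron {N' : Type} [Fintype N'] [DecidableEq N'] {U : Matrix N N ℝ}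
    {V : Matrix N' N' ℝ} (hU : Orth U) (hV : Orth V) : Orth (U ⊗ₖ V) := by
  unfold Orth at *
  rw [← Matrix.kroneckerMap_transpose, ← Matrix.mul_kronecker_mul, hU, hV,
    Matrix.one_kronecker_one]

end aux

section state

variable {m w : ℕ}

theorem qf_stateAfter_congr {U U' : ℕ → Matrix (QIdx m w) (QIdx m w) ℂ} (x : Fin m → Bool)
    (ψ : QIdx m w → ℂ) (t : ℕ) (h : ∀ s ≤ t, U s = U' s) :
    stateAfter U x ψ t = stateAfter U' x ψ t := by
  induction t with
  | zero => simp only [stateAfter, h 0 le_rfl]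
  | succ t ih =>
    simp only [stateAfter, h (t + 1) le_rfl, ih fun s hs => h s (hs.trans (Nat.le_succ t))]

theorem qf_stateAfter_last {U U' : ℕ → Matrix (QIdx m w) (QIdx m w) ℂ} (x : Fin m → Bool)
    (ψ : QIdx m w → ℂ) (t : ℕ) (P : Matrix (QIdx m w) (QIdx m w) ℂ)
    (h : ∀ s < t, U' s = U s) (ht : U' t = P * U t) :
    stateAfter U' x ψ t = P *ᵥ stateAfter U x ψ t := by
  cases t with
  | zero => simp only [stateAfter, ht, Matrix.mulVec_mulVec]
  | succ t =>
    simp only [stateAfter, ht, Matrix.mulVec_mulVec]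
    rw [qf_stateAfter_congr x ψ t fun s hs => h s (Nat.lt_succ_of_le hs)]

/-- The embedding `ψ ↦ |i₀⟩ ⊗ |-⟩ ⊗ ψ`. -/
noncomputable def qfJ (i₀ : Fin m) (ψ : Fin w → ℝ) : QIdx m w → ℝ :=
  fun e => if e.1 = i₀ then sg e.2.1 / Real.sqrt 2 * ψ e.2.2 else 0

/-- The extension `1 ⊗ 1 ⊗ U`. -/
noncomputable def qfExt (U : Matrix (Fin w) (Fin w) ℝ) : Matrix (QIdx m w) (QIdx m w) ℝ :=
  (1 : Matrix (Fin m) (Fin m) ℝ) ⊗ₖ ((1 : Matrix Bool Bool ℝ) ⊗ₖ U)

theorem qf_orth_ext {U : Matrix (Fin w) (Fin w) ℝ} (hU : Orth U) : Orth (qfExt (m := m) U) :=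
  qf_orth_kron qi_orth_one (qf_orth_kron qi_orth_one hU)

theorem qfExt_mulVec (i₀ : Fin m) (U : Matrix (Fin w) (Fin w) ℝ) (ψ : Fin w → ℝ) :
    qfExt U *ᵥ qfJ i₀ ψ = qfJ i₀ (U *ᵥ ψ) := by
  funext ⟨i, b, z⟩
  simp only [qfExt, qfJ, Matrix.mulVec, dotProduct, Fintype.sum_prod_type,
    Matrix.kroneckerMap_apply, Matrix.one_apply]
  rw [Finset.sum_eq_single i (by intro i' _ hi'; simp [Ne.symm hi']) (by simp),
    Finset.sum_eq_single b (by intro b' _ hb'; simp [Ne.symm hb']) (by simp)]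
  by_cases hi : i = i₀
  · simp only [hi, if_true, one_mul, Finset.mul_sum]
    exact Finset.sum_congr rfl fun z' _ => by ring
  · simp [hi]

/-- The permutation moving the query register from `i₀` to the queried position. -/
def qfPerm (i₀ : Fin m) (idx : Fin w → Option (Fin m)) : Equiv.Perm (QIdx m w) :=
  Function.Involutive.toPerm
    (fun e => (Equiv.swap i₀ ((idx e.2.2).getD i₀) e.1, e.2.1, e.2.2))
    (fun e => by simp)

/-- The sign turning `|-⟩` into `|+⟩` when nothing is queried. -/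
def qfSign (idx : Fin w → Option (Fin m)) (e : QIdx m w) : ℝ :=
  (idx e.2.2).elim (sg e.2.1) fun _ => 1

/-- The conjugating matrix. -/
noncomputable def qfPre (i₀ : Fin m) (idx : Fin w → Option (Fin m)) :
    Matrix (QIdx m w) (QIdx m w) ℝ :=
  Matrix.diagonal (qfSign idx) * (qfPerm i₀ idx).permMatrix ℝ

theorem qf_orth_pre (i₀ : Fin m) (idx : Fin w → Option (Fin m)) : Orth (qfPre i₀ idx) := by
  refine (qf_orth_diag fun e => ?_).qi_mul (qf_orth_perm _)
  unfold qfSign
  cases idx e.2.2 with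
  | none => simp [qi_sg_mul_self]
  | some _ => simp

theorem qfPre_mulVec (i₀ : Fin m) (idx : Fin w → Option (Fin m)) (v : QIdx m w → ℝ)
    (e : QIdx m w) :
    (qfPre i₀ idx *ᵥ v) e =
      qfSign idx e * v (Equiv.swap i₀ ((idx e.2.2).getD i₀) e.1, e.2.1, e.2.2) := by
  rw [qfPre, ← Matrix.mulVec_mulVec, Matrix.permMatrix_mulVec, Matrix.mulVec_diagonal]
  rfl

theorem qf_sg_xor (a b : Bool) : sg (xor a b) = sg a * sg b := by
  cases a <;> cases b <;> simp [sg]

theorem qf_query (i₀ : Fin m) (idx : Fin w → Option (Fin m)) (x : Fin m → Bool)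
    (ψ : Fin w → ℝ) :
    qfM (qfPre i₀ idx) *ᵥ oracle x (qfM (qfPre i₀ idx) *ᵥ qfV (qfJ i₀ ψ)) =
      qfV (qfJ i₀ (phase idx x *ᵥ ψ)) := by
  rw [qfM_mulVec]
  have : oracle x (qfV (qfPre i₀ idx *ᵥ qfJ i₀ ψ)) =
      qfV fun e => (qfPre i₀ idx *ᵥ qfJ i₀ ψ) (e.1, xor e.2.1 (x e.1), e.2.2) := rfl
  rw [this, qfM_mulVec]
  congr 1
  funext ⟨i, b, z⟩
  rw [qfPre_mulVec, qfPre_mulVec]
  simp only [qfJ, qfSign, phase, Matrix.mulVec_diagonal, Equiv.swap_apply_self]
  by_cases hi : i = i₀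
  · subst hi
    cases h : idx z with
    | none =>
      simp only [Option.elim, if_true, Option.getD_none, Equiv.swap_self, Equiv.refl_apply]
      have := qi_sg_mul_self (xor b (x i))
      linear_combination (sg b / Real.sqrt 2 * ψ z) * this
    | some j =>
      simp only [Option.elim, if_true, Option.getD_some, Equiv.swap_apply_left, qf_sg_xor]
      ring
  · simp [hi]

theorem qf_simulate (i₀ : Fin m) {q : ℕ} {A : (Fin m → Bool) → Matrix (Fin w) (Fin w) ℝ}
    (hA : Impl q A) :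
    ∃ U : ℕ → Matrix (QIdx m w) (QIdx m w) ℂ, (∀ t, U t ∈ Matrix.unitaryGroup (QIdx m w) ℂ) ∧
      ∀ x ψ, stateAfter U x (qfV (qfJ i₀ ψ)) q = qfV (qfJ i₀ (A x *ᵥ ψ)) := by
  induction q generalizing A with
  | zero =>
    obtain ⟨V, hV, hA⟩ := hA
    refine ⟨fun _ => qfM (qfExt V), fun _ => qfM_unitary (qf_orth_ext hV), fun x ψ => ?_⟩
    simp only [stateAfter, qfM_mulVec, qfExt_mulVec, hA x]
  | succ q ih =>
    obtain ⟨V, idx, B, hV, hB, hA⟩ := hA
    obtain ⟨U, hU, hs⟩ := ih hB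
    have hP := qfM_unitary (qf_orth_pre i₀ idx)
    have hE := qfM_unitary (qf_orth_ext (m := m) hV)
    refine ⟨fun t => if t < q then U t else if t = q then qfM (qfPre i₀ idx) * U q
      else qfM (qfExt V) * qfM (qfPre i₀ idx), fun t => ?_, fun x ψ => ?_⟩
    · dsimp only
      split_ifs
      · exact hU t
      · exact mul_mem hP (hU q)
      · exact mul_mem hE hP
    · rw [stateAfter, qf_stateAfter_last (U := U) x _ q (qfM (qfPre i₀ idx))
        (fun s hs => by simp [hs]) (by simp), hs]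
      simp only [show ¬ (q + 1 < q) by omega, show ¬ (q + 1 = q) by omega, if_false]
      rw [← Matrix.mulVec_mulVec, qf_query, qfM_mulVec, qfExt_mulVec, hA x]
      simp only [Matrix.mulVec_mulVec, Matrix.mul_assoc]

theorem qf_sum_J (i₀ : Fin m) (ψ : Fin w → ℝ) (p : Fin w → Prop) [DecidablePred p] :
    (∑ e : QIdx m w, if p e.2.2 then ‖qfV (qfJ i₀ ψ) e‖ ^ 2 else 0) =
      ∑ z, if p z then ψ z ^ 2 else 0 := by
  simp only [Fintype.sum_prod_type, qfV, qfJ, Complex.norm_real, Real.norm_eq_abs, sq_abs]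
  rw [Finset.sum_eq_single i₀ (by intro i _ hi; simp [hi]) (by simp), Finset.sum_comm]
  refine Finset.sum_congr rfl fun z _ => ?_
  by_cases hp : p z
  · simp only [hp, if_true, Fintype.sum_bool, sg, mul_pow, div_pow]
    rw [Real.sq_sqrt (by norm_num)]
    norm_num
    ring
  · simp [hp]

end state

theorem Impl.qf_reindex {ι ι' W : Type} [Fintype W] [DecidableEq W] (f : ι → ι') {q : ℕ}
    {A : (ι → Bool) → Matrix W W ℝ} (hA : Impl q A) :
    Impl q fun x' : ι' → Bool => A fun i => x' (f i) := by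
  induction q generalizing A with
  | zero =>
    obtain ⟨U, hU, hA⟩ := hA
    exact ⟨U, hU, fun x => hA _⟩
  | succ q ih =>
    obtain ⟨U, idx, C, hU, hC, hA⟩ := hA
    refine ⟨U, fun w => (idx w).map f, fun x' => C fun i => x' (f i), hU, ih hC, fun x => ?_⟩
    have hp : phase (fun w => (idx w).map f) x = phase idx fun i => x (f i) := by
      unfold phase
      congr 1
      funext w
      dsimp only
      cases idx w <;> rfl
    simp only [hA, hp]

theorem Samp.quantumComputes {ι : Type} {m : ℕ} (e : Fin m ≃ ι) (hm : 0 < m) {q : ℕ}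
    {μ : (ι → Bool) → Bool → ℝ} (h : Samp q μ) (F : (ι → Bool) → Bool)
    (hF : ∀ x, 2 / 3 ≤ μ x (F x)) :
    QuantumComputes (fun x' : Fin m → Bool => F fun i => x' (e.symm i)) q := by
  classical
  obtain ⟨W, _, _, w₀, A, out, hA, hμ⟩ := h
  let eW : Fin (Fintype.card W) ≃ W := (Fintype.equivFin W).symm
  have hA' := (hA.submatrix eW).qf_reindex e.symm
  obtain ⟨U, hU, hs⟩ := qf_simulate ⟨0, hm⟩ hA'
  refine ⟨Fintype.card W, U, qfV (qfJ ⟨0, hm⟩ (Pi.single (eW.symm w₀) 1)),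
    fun s => out (eW s.2.2), hU, ?_, fun x => ?_⟩
  · have := qf_sum_J (⟨0, hm⟩ : Fin m) (Pi.single (eW.symm w₀) (1 : ℝ)) (fun _ => True)
    simp only [if_true] at this
    rw [this, Finset.sum_eq_single (eW.symm w₀) (by intro z _ hz; simp [hz]) (by simp)]
    simp
  · rw [hs, qf_sum_J _ _ (fun z => out (eW z) = F fun i => x (e.symm i))]
    refine (hF fun i => x (e.symm i)).trans (le_of_eq ?_)
    rw [hμ, ← eW.sum_comp]
    refine Finset.sum_congr rfl fun z _ => ?_
    simp only [Matrix.mulVec_single_one, Matrix.col_apply, Matrix.submatrix_apply,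
      Equiv.apply_symm_apply]
    congr

end Crest.Agent.R350
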