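import Crest.Agent.R350.QImpl

/-!
# Row 350: a compositional framework for quantum query algorithms

`Impl q A`: the family `A x` is a product of `q` phase queries and fixed orthogonal matrices.
`Samp q μ`: `μ x` is the output distribution of a `q`-query algorithm.
-/

set_option autoImplicit false

namespace Crest.Agent.R350

open Finset Matrix

section samp

variable {ι Ω Ω' : Type}

theorem qf_sg_sq (b : Bool) : sg b ^ 2 = 1 := by cases b <;> simp [sg]

theorem qf_orth_one {W : Type} [Fintype W] [DecidableEq W] : Orth (1 : Matrix W W ℝ) := by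
  simp [Orth]

theorem qf_orth_diag {W : Type} [Fintype W] [DecidableEq W] (d : W → ℝ) (h : ∀ w, d w * d w = 1) :
    Orth (Matrix.diagonal d) := by
  simp [Orth, Matrix.diagonal_transpose, Matrix.diagonal_mul_diagonal, h]

theorem qf_norm_mulVec {W : Type} [Fintype W] [DecidableEq W] {M : Matrix W W ℝ} (hM : Orth M)
    (u : W → ℝ) : ∑ w, (M *ᵥ u) w ^ 2 = ∑ w, u w ^ 2 := by
  have h : (M *ᵥ u) ⬝ᵥ (M *ᵥ u) = u ⬝ᵥ u := by
    rw [Matrix.dotProduct_mulVec, Matrix.vecMul_mulVec, hM, Matrix.vecMul_one]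
  simpa [dotProduct, sq] using h

theorem qf_col {W : Type} [Fintype W] [DecidableEq W] {M : Matrix W W ℝ} (hM : Orth M) (w₀ : W) :
    ∑ w, M w w₀ ^ 2 = 1 := by
  have h := congrFun (congrFun hM w₀) w₀
  simpa [Matrix.mul_apply, sq] using h

theorem Samp.qf_congr {q : ℕ} {μ ν : (ι → Bool) → Ω → ℝ} (h : Samp q μ)
    (e : ∀ x ω, ν x ω = μ x ω) : Samp q ν := by
  have : ν = μ := funext fun x => funext (e x)
  rwa [this]

open Classical in
theorem qf_of_state {W : Type} [Fintype W] [DecidableEq W] {q : ℕ}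
    {A : (ι → Bool) → Matrix W W ℝ} (h : Impl q A) (u : W → ℝ) (hu : ∑ w, u w ^ 2 = 1)
    (out : W → Ω) : Samp q fun x ω => ∑ w, if out w = ω then ((A x *ᵥ u) w) ^ 2 else 0 := by
  have : Nonempty W := by
    by_contra hW
    rw [not_nonempty_iff] at hW
    simp at hu
  obtain ⟨w₀⟩ := this
  obtain ⟨U, hU, hcol⟩ := exists_orth_col u hu w₀
  refine ⟨W, inferInstance, inferInstance, w₀, fun x => A x * U, out, h.mul (Impl.const hU), ?_⟩
  intro x ω
  simp only [Matrix.mul_apply, hcol, Matrix.mulVec, dotProduct]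

theorem qf_ctrl {J V : Type} [Fintype J] [DecidableEq J] [Fintype V] [DecidableEq V] {q : ℕ}
    {B : J → (ι → Bool) → Matrix V V ℝ} (h : ∀ j, Impl q (B j)) :
    Impl q fun x => Matrix.of fun p p' : J × V => if p.1 = p'.1 then B p.1 x p.2 p'.2 else 0 := by
  have h1 := (Impl.blockDiagonal' (V := fun _ : J => V) h).submatrix
    (Equiv.sigmaEquivProd J V).symm
  convert h1 using 2 with x
  ext ⟨j, v⟩ ⟨j', v'⟩
  by_cases hj : j = j'
  · subst hj
    simp [Matrix.blockDiagonal'_apply]
  · simp [Matrix.blockDiagonal'_apply, hj]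

theorem qf_tensor {W V : Type} [Fintype W] [DecidableEq W] [Fintype V] [DecidableEq V] {q : ℕ}
    {A : (ι → Bool) → Matrix W W ℝ} (h : Impl q A) :
    Impl q fun x => Matrix.of fun p p' : W × V => if p.2 = p'.2 then A x p.1 p'.1 else 0 :=
  (qf_ctrl (J := V) (B := fun _ => A) fun _ => h).submatrix (Equiv.prodComm W V)

open Classical in
theorem qf_uniform {J : Type} [Fintype J] [Nonempty J] {q : ℕ} {ν : J → (ι → Bool) → Ω → ℝ}
    (h : ∀ j, Samp q (ν j)) :
    ∃ (V : Type) (_ : Fintype V) (_ : DecidableEq V) (v₀ : V)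
      (B : J → (ι → Bool) → Matrix V V ℝ) (out : V → Ω), ∀ j, Impl q (B j) ∧
      ∀ x ω, ν j x ω = ∑ v, if out v = ω then (B j x v v₀) ^ 2 else 0 := by
  choose W iF iD w₀ A out hA hν using h
  let j₀ : J := Classical.arbitrary J
  have key : ∀ j, ∃ U : Matrix (Σ j, W j) (Σ j, W j) ℝ, Orth U ∧
      ∀ v, U v ⟨j₀, w₀ j₀⟩ = (Pi.single (⟨j, w₀ j⟩ : Σ j, W j) (1 : ℝ) : (Σ j, W j) → ℝ) v :=
    fun j => exists_orth_col _ (by simp [Pi.single_apply]) _
  choose U hU hcol using key
  refine ⟨Σ j, W j, inferInstance, inferInstance, ⟨j₀, w₀ j₀⟩,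
    fun j x => (Matrix.blockDiagonal' fun j => A j x) * U j, fun v => out v.1 v.2, fun j =>
    ⟨(Impl.blockDiagonal' hA).mul (Impl.const (hU j)), fun x ω => ?_⟩⟩
  have e : ∀ v, ((Matrix.blockDiagonal' fun j => A j x) * U j) v ⟨j₀, w₀ j₀⟩ =
      (Matrix.blockDiagonal' fun j => A j x) v ⟨j, w₀ j⟩ := by
    intro v
    simp [Matrix.mul_apply, hcol, Pi.single_apply]
  simp only [e]
  rw [hν, Fintype.sum_sigma, Finset.sum_eq_single j]
  · simp only [Matrix.blockDiagonal'_apply_eq]
  · intro j' _ hj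
    simp [Matrix.blockDiagonal'_apply_ne _ _ _ hj]
  · simp

theorem Samp.qf_equiv {q : ℕ} {μ : (ι → Bool) → Ω → ℝ} (h : Samp q μ) (e : Ω ≃ Ω') :
    Samp q fun x ω' => μ x (e.symm ω') := by
  obtain ⟨W, iF, iD, w₀, A, out, hA, hμ⟩ := h
  refine ⟨W, iF, iD, w₀, A, fun w => e (out w), hA, fun x ω => ?_⟩
  simp only [hμ]
  refine Finset.sum_congr rfl fun w _ => ?_
  by_cases hw : e (out w) = ω
  · rw [if_pos hw, if_pos ((Equiv.eq_symm_apply e).2 hw)]
  · rw [if_neg hw, if_neg fun h => hw ((Equiv.eq_symm_apply e).1 h)]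

open Classical in
theorem qf_sum [Fintype Ω] {W : Type} [Fintype W] (out : W → Ω) (a : W → ℝ) (F : Ω → ℝ) :
    ∑ ω, (∑ w, if out w = ω then a w else 0) * F ω = ∑ w, a w * F (out w) := by
  simp only [Finset.sum_mul]
  rw [Finset.sum_comm]
  simp


theorem Samp.isProb [Fintype Ω] {q : ℕ} {μ : (ι → Bool) → Ω → ℝ} (h : Samp q μ) (x : ι → Bool) :
    IsProb (μ x) := by
  obtain ⟨W, iF, iD, w₀, A, out, hA, hμ⟩ := h
  refine ⟨fun ω => ?_, ?_⟩
  · rw [hμ]
    exact Finset.sum_nonneg fun w _ => by split_ifs <;> positivity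
  · have := qf_sum out (fun w => A x w w₀ ^ 2) (fun _ => 1)
    simp only [mul_one] at this
    simp only [hμ]
    rw [this, qf_col (hA.orth x)]

theorem Samp.mono {q q' : ℕ} {μ : (ι → Bool) → Ω → ℝ} (h : Samp q μ) (hq : q ≤ q') :
    Samp q' μ := by
  obtain ⟨W, iF, iD, w₀, A, out, hA, hμ⟩ := h
  exact ⟨W, iF, iD, w₀, A, out, hA.mono hq, hμ⟩

theorem Samp.const [Fintype Ω] {π : Ω → ℝ} (h : IsProb π) : Samp (ι := ι) 0 fun _ => π := by
  classical
  refine (qf_of_state (Impl.const (ι := ι) qf_orth_one) (fun ω => Real.sqrt (π ω)) ?_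
    (id : Ω → Ω)).qf_congr ?_
  · simp only [Real.sq_sqrt (h.1 _), h.2]
  · intro x ω
    simp [Real.sq_sqrt (h.1 _)]

theorem Samp.map [Fintype Ω] [DecidableEq Ω'] {q : ℕ} {μ : (ι → Bool) → Ω → ℝ} (h : Samp q μ)
    (g : Ω → Ω') : Samp q fun x ω' => ∑ ω, if g ω = ω' then μ x ω else 0 := by
  obtain ⟨W, iF, iD, w₀, A, out, hA, hμ⟩ := h
  refine ⟨W, iF, iD, w₀, A, fun w => g (out w), hA, fun x ω' => ?_⟩
  have := qf_sum out (fun w => A x w w₀ ^ 2) (fun ω => if g ω = ω' then 1 else 0)
  simp only [mul_ite, mul_one, mul_zero] at this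
  simp only [hμ]
  rw [this]
  convert rfl

/-- Sequential composition: run `μ`, then `ν ω` on outcome `ω`. -/
theorem Samp.bind [Fintype Ω] {q q' : ℕ} {μ : (ι → Bool) → Ω → ℝ}
    {ν : Ω → (ι → Bool) → Ω' → ℝ} (h : Samp q μ) (h' : ∀ ω, Samp q' (ν ω)) :
    Samp (q + q') fun x ω' => ∑ ω, μ x ω * ν ω x ω' := by
  classical
  obtain ⟨W, iF, iD, w₀, A, out, hA, hμ⟩ := h
  have : Nonempty W := ⟨w₀⟩
  obtain ⟨V, jF, jD, v₀, B, out', hB⟩ := qf_uniform (J := W) fun w => h' (out w)
  have h1 := (qf_ctrl fun w => (hB w).1).mul (qf_tensor (V := V) hA)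
  rw [add_comm] at h1
  refine ⟨W × V, inferInstance, inferInstance, (w₀, v₀), _, fun p => out' p.2, h1, fun x ω' => ?_⟩
  simp only [hμ]
  rw [qf_sum out (fun w => A x w w₀ ^ 2) (fun ω => ν ω x ω'), Fintype.sum_prod_type]
  refine Finset.sum_congr rfl fun w _ => ?_
  rw [(hB w).2, Finset.mul_sum]
  refine Finset.sum_congr rfl fun v _ => ?_
  simp only [Matrix.mul_apply, Matrix.of_apply, Fintype.sum_prod_type, mul_ite, mul_zero,
    Finset.sum_ite_eq', Finset.mem_univ, if_true, ite_mul, zero_mul, Finset.sum_ite_eq]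
  split_ifs <;> ring

theorem qf_det_const (c : Ω) : Det (ι := ι) 0 fun _ => c := by
  refine ⟨Unit, inferInstance, inferInstance, (), fun _ => 1, fun _ => c, Impl.const qf_orth_one,
    fun x ω => ?_⟩
  simp

theorem qf_pi_fin [Fintype Ω] {q : ℕ} (m : ℕ) : ∀ μ : Fin m → (ι → Bool) → Ω → ℝ,
    (∀ j, Samp q (μ j)) → Samp (m * q) fun x (ω : Fin m → Ω) => ∏ j, μ j x (ω j) := by
  classical
  induction m with
  | zero =>
    intro μ _
    rw [Nat.zero_mul]
    refine Samp.qf_congr (qf_det_const (ι := ι) (default : Fin 0 → Ω)) fun x ω => ?_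
    simp [Subsingleton.elim default ω]
  | succ m ih =>
    intro μ h
    have h1 := (h 0).bind fun ω₀ =>
      (ih (fun j => μ j.succ) fun j => h j.succ).map fun ω' => (ω₀, ω')
    rw [show (m + 1) * q = q + m * q by ring]
    refine (h1.qf_equiv (Fin.consEquiv fun _ => Ω)).qf_congr fun x ω => ?_
    rw [Fin.prod_univ_succ, Finset.sum_eq_single (ω 0)]
    · rw [Finset.sum_eq_single (Fin.tail ω)]
      · simp [Fin.consEquiv, Fin.tail]
      · intro b _ hb
        simp [Fin.consEquiv, hb]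
      · simp
    · intro b _ hb
      simp [Fin.consEquiv, hb]
    · simp

/-- Independent runs. -/
theorem Samp.pi [Fintype Ω] {J : Type} [Fintype J] [DecidableEq J] {q : ℕ}
    {μ : J → (ι → Bool) → Ω → ℝ} (h : ∀ j, Samp q (μ j)) :
    Samp (Fintype.card J * q) fun x (ω : J → Ω) => ∏ j, μ j x (ω j) := by
  let e := Fintype.equivFin J
  refine ((qf_pi_fin (Fintype.card J) (fun i => μ (e.symm i)) fun i => h _).qf_equiv
    (Equiv.arrowCongr e.symm (Equiv.refl Ω))).qf_congr fun x ω => ?_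
  rw [← e.symm.prod_comp]
  simp

theorem Det.samp [DecidableEq Ω] {q : ℕ} {g : (ι → Bool) → Ω} (h : Det q g) :
    Samp q fun x ω => if g x = ω then 1 else 0 := by
  refine Samp.qf_congr h fun x ω => ?_
  convert rfl

theorem Det.mono {q q' : ℕ} {g : (ι → Bool) → Ω} (h : Det q g) (hq : q ≤ q') : Det q' g := by
  exact Samp.mono h hq

theorem Det.const (c : Ω) : Det (ι := ι) 0 fun _ => c := by
  exact qf_det_const c

theorem qf_hadamardTest {W : Type} [Fintype W] [DecidableEq W] {q : ℕ}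
    {A : (ι → Bool) → Matrix W W ℝ} (h : Impl q A) (u : W → ℝ) (hu : ∑ w, u w ^ 2 = 1) :
    Samp q fun x (b : Bool) => (1 + sg b * (u ⬝ᵥ (A x *ᵥ u))) / 2 := by
  set r : ℝ := Real.sqrt 2⁻¹ with hr
  have hr2 : r * r = 2⁻¹ := Real.mul_self_sqrt (by norm_num)
  let H : Matrix Bool Bool ℝ := Matrix.of fun b c => r * sg (b && c)
  have hH : Orth H := by
    ext b c
    cases b <;> cases c <;> simp [H, Matrix.mul_apply, sg, hr2] <;> norm_num
  let B : Bool → (ι → Bool) → Matrix W W ℝ := fun b x => if b then A x else 1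
  have hB : ∀ b, Impl q (B b) := by
    rintro (_ | _)
    · exact (Impl.const qf_orth_one).mono (Nat.zero_le q)
    · exact h
  have h1 := (qf_tensor (V := W) (Impl.const (ι := ι) hH)).mul (qf_ctrl hB)
  rw [zero_add] at h1
  refine (qf_of_state h1 (fun p => r * u p.2) ?_ Prod.fst).qf_congr fun x b => ?_
  · simp only [Fintype.sum_prod_type, mul_pow, ← Finset.mul_sum, hu, sq r, hr2]
    simp
  · have e : ∀ (c : Bool) (w : W), (((Matrix.of fun p p' : Bool × W =>
        if p.2 = p'.2 then H p.1 p'.1 else 0) * Matrix.of fun p p' : Bool × W =>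
        if p.1 = p'.1 then B p.1 x p.2 p'.2 else 0) *ᵥ fun p => r * u p.2) (c, w) =
        (u w + sg c * (A x *ᵥ u) w) / 2 := by
      intro c w
      rw [← Matrix.mulVec_mulVec]
      have e1 : ∀ w', ∑ w'', A x w' w'' * (r * u w'') = r * (A x *ᵥ u) w' := by
        intro w'
        simp only [Matrix.mulVec, dotProduct, Finset.mul_sum]
        exact Finset.sum_congr rfl fun _ _ => by ring
      simp only [Matrix.mulVec, dotProduct, Matrix.of_apply, Fintype.sum_prod_type, ite_mul,
        zero_mul, Finset.sum_ite_eq, Finset.mem_univ, if_true, Fintype.sum_bool, B, H] at e1 ⊢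
      simp [e1, Matrix.one_apply, sg]
      split_ifs
      · linear_combination (u w - ∑ x_1, A x w x_1 * u x_1) * hr2
      · linear_combination (u w + ∑ x_1, A x w x_1 * u x_1) * hr2
    rw [Fintype.sum_prod_type, Finset.sum_eq_single b]
    · simp only [e, if_true]
      have e2 : ∀ w, ((u w + sg b * (A x *ᵥ u) w) / 2) ^ 2 =
          (u w ^ 2 + (A x *ᵥ u) w ^ 2 + 2 * sg b * (u w * (A x *ᵥ u) w)) / 4 := by
        intro w
        linear_combination ((A x *ᵥ u) w ^ 2 / 4) * qf_sg_sq b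
      simp only [e2]
      rw [← Finset.sum_div, Finset.sum_add_distrib, Finset.sum_add_distrib,
        qf_norm_mulVec (h.orth x), hu, ← Finset.mul_sum, dotProduct]
      ring
    · intro c _ hc
      simp [hc]
    · simp

theorem Det.read (i : ι) : Det 1 fun x => x i := by
  refine (qf_hadamardTest (W := Unit) (Impl.of_phase fun _ => some i) (fun _ => 1)
    (by simp)).qf_congr fun x b => ?_
  cases b <;> cases hx : x i <;> simp [phase, sg, hx, dotProduct, Matrix.mulVec]

theorem Det.bind [Fintype Ω] {q q' : ℕ} {g : (ι → Bool) → Ω} {g' : Ω → (ι → Bool) → Ω'}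
    (h : Det q g) (h' : ∀ ω, Det q' (g' ω)) : Det (q + q') fun x => g' (g x) x := by
  refine (Samp.bind h h').qf_congr fun x ω' => ?_
  rw [Finset.sum_eq_single (g x)]
  · simp
  · intro b _ hb
    simp [hb.symm]
  · simp

/-- A function of the bits in `s` only. -/
theorem Det.junta (s : Finset ι) (g : (ι → Bool) → Ω)
    (h : ∀ x x', (∀ i ∈ s, x i = x' i) → g x = g x') : Det s.card g := by
  classical
  induction s using Finset.induction_on generalizing g with
  | empty =>
    have : g = fun _ => g default := funext fun x => h _ _ (by simp)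
    rw [this]
    exact Det.const _
  | insert i s hi ih =>
    have h1 := (Det.read i).bind fun b => ih (fun x => g (Function.update x i b)) (by
      intro x x' hx
      refine h _ _ fun j hj => ?_
      by_cases hji : j = i
      · simp [hji]
      · simp [Function.update_of_ne hji, hx j ((Finset.mem_insert.1 hj).resolve_left hji)])
    rw [Finset.card_insert_of_notMem hi, add_comm]
    simpa using h1

/-- One step of amplitude amplification: `A (2 e₀ e₀ᵀ - 1) Aᵀ S_G A`. -/
theorem Samp.amp1 [Fintype Ω] {q : ℕ} {μ : (ι → Bool) → Ω → ℝ} (h : Samp q μ) (G : Ω → Prop)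
    [DecidablePred G] :
    Samp (3 * q) fun x ω => μ x ω *
      if G ω then (3 - 4 * ∑ ω', if G ω' then μ x ω' else 0) ^ 2
      else (1 - 4 * ∑ ω', if G ω' then μ x ω' else 0) ^ 2 := by
  obtain ⟨W, iF, iD, w₀, A, out, hA, hμ⟩ := h
  let R : Matrix W W ℝ := Matrix.diagonal fun w => if w = w₀ then 1 else -1
  let S : Matrix W W ℝ := Matrix.diagonal fun w => if G (out w) then -1 else 1
  have hR : Orth R := qf_orth_diag _ fun w => by split_ifs <;> norm_num
  have hS : Orth S := qf_orth_diag _ fun w => by split_ifs <;> norm_num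
  have h1 := ((hA.mul (Impl.const hR)).mul hA.transpose).mul ((Impl.const hS).mul hA)
  rw [show q + 0 + q + (0 + q) = 3 * q by ring] at h1
  refine ⟨W, iF, iD, w₀, _, out, h1, fun x ω => ?_⟩
  set p := ∑ ω', if G ω' then μ x ω' else 0 with hp
  have hp' : p = ∑ w, A x w w₀ ^ 2 * if G (out w) then 1 else 0 := by
    rw [← qf_sum out (fun w => A x w w₀ ^ 2) (fun ω => if G ω then 1 else 0), hp]
    simp only [hμ, mul_ite, mul_one, mul_zero]
  have hAA : A x * (A x).transpose = 1 := mul_eq_one_comm.1 (hA.orth x)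
  have e1 : ∀ a b, (A x * R * (A x).transpose) a b =
      2 * (A x a w₀ * A x b w₀) - if a = b then 1 else 0 := by
    intro a b
    have h2 := congrFun (congrFun hAA a) b
    rw [Matrix.one_apply] at h2
    rw [← h2]
    simp only [R, Matrix.mul_apply (M := A x * _), Matrix.mul_diagonal, Matrix.transpose_apply,
      Matrix.mul_apply (M := A x) (N := (A x).transpose)]
    have : ∀ j, A x a j * (if j = w₀ then 1 else -1) * A x b j =
        (if j = w₀ then 2 * (A x a w₀ * A x b w₀) else 0) - A x a j * A x b j := by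
      intro j
      split_ifs with hj
      · rw [hj]; ring
      · ring
    simp only [this, Finset.sum_sub_distrib, Finset.sum_ite_eq', Finset.mem_univ, if_true]
  have e2 : ∀ a, (A x * R * (A x).transpose * (S * A x)) a w₀ =
      A x a w₀ * if G (out a) then 3 - 4 * p else 1 - 4 * p := by
    intro a
    rw [Matrix.mul_apply]
    simp only [e1, S, Matrix.diagonal_mul, sub_mul, Finset.sum_sub_distrib, ite_mul, one_mul,
      zero_mul, Finset.sum_ite_eq, Finset.mem_univ, if_true]
    have : ∀ j, 2 * (A x a w₀ * A x j w₀) * (if G (out j) then -1 * A x j w₀ else A x j w₀) =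
        2 * A x a w₀ * (A x j w₀ ^ 2 - 2 * (A x j w₀ ^ 2 * if G (out j) then 1 else 0)) := by
      intro j
      split_ifs <;> ring
    simp only [this]
    rw [← Finset.mul_sum, Finset.sum_sub_distrib, ← Finset.mul_sum, ← hp', qf_col (hA.orth x)]
    split_ifs <;> ring
  simp only [e2]
  rw [hμ, Finset.sum_mul]
  refine Finset.sum_congr rfl fun w _ => ?_
  by_cases hw : out w = ω
  · subst hw
    simp only [if_true]
    split_ifs <;> ring
  · simp [hw]

/-- The Hadamard test. -/
theorem Samp.hadamardTest {W : Type} [Fintype W] [DecidableEq W] {q : ℕ}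
    {A : (ι → Bool) → Matrix W W ℝ} (h : Impl q A) (u : W → ℝ) (hu : ∑ w, u w ^ 2 = 1) :
    Samp q fun x (b : Bool) => (1 + sg b * (u ⬝ᵥ (A x *ᵥ u))) / 2 := by
  exact qf_hadamardTest h u hu

end samp

end Crest.Agent.R350
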