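import Crest.Agent.R350.Defs

/-!
# Row 350: closure properties of `Impl`

`Impl q A`: the family `A x` is a product of `q` phase queries and fixed orthogonal matrices.
`Samp q μ`: `μ x` is the output distribution of a `q`-query algorithm.
-/

set_option autoImplicit false

namespace Crest.Agent.R350

open Finset Matrix

section impl

variable {ι W : Type} [Fintype W] [DecidableEq W]

theorem qi_sg_mul_self (b : Bool) : sg b * sg b = 1 := by
  cases b <;> simp [sg]

theorem qi_orth_one : Orth (1 : Matrix W W ℝ) := by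
  simp [Orth]

theorem Orth.qi_mul {U V : Matrix W W ℝ} (hU : Orth U) (hV : Orth V) : Orth (U * V) := by
  unfold Orth at *
  rw [Matrix.transpose_mul, Matrix.mul_assoc, ← Matrix.mul_assoc U.transpose, hU, Matrix.one_mul,
    hV]

theorem Orth.qi_transpose {U : Matrix W W ℝ} (hU : Orth U) : Orth U.transpose := by
  unfold Orth at *
  rw [Matrix.transpose_transpose]
  exact mul_eq_one_comm.mp hU

omit [Fintype W] in
theorem qi_phase_transpose (idx : W → Option ι) (x : ι → Bool) :
    (phase idx x).transpose = phase idx x := by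
  simp [phase]

theorem qi_orth_phase (idx : W → Option ι) (x : ι → Bool) : Orth (phase idx x) := by
  unfold Orth
  rw [qi_phase_transpose, phase, Matrix.diagonal_mul_diagonal, ← Matrix.diagonal_one]
  congr 1
  funext w
  cases idx w with
  | none => simp
  | some i => simp [qi_sg_mul_self]

omit [Fintype W] in
theorem qi_phase_none (x : ι → Bool) : phase (fun _ : W => (none : Option ι)) x = 1 := by
  simp [phase]

theorem Impl.orth {q : ℕ} {A : (ι → Bool) → Matrix W W ℝ} (h : Impl q A) (x : ι → Bool) :
    Orth (A x) := by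
  induction q generalizing A with
  | zero =>
    obtain ⟨U, hU, hA⟩ := h
    rw [hA x]; exact hU
  | succ q ih =>
    obtain ⟨U, idx, B, hU, hB, hA⟩ := h
    rw [hA x]
    exact (hU.qi_mul (qi_orth_phase idx x)).qi_mul (ih hB)

theorem Impl.const {U : Matrix W W ℝ} (hU : Orth U) : Impl (ι := ι) 0 fun _ => U :=
  ⟨U, hU, fun _ => rfl⟩

theorem Impl.of_phase (idx : W → Option ι) : Impl 1 (phase idx) :=
  ⟨1, idx, fun _ => 1, qi_orth_one, Impl.const qi_orth_one, fun x => by simp⟩

theorem Impl.qi_succ {q : ℕ} {A : (ι → Bool) → Matrix W W ℝ} (h : Impl q A) :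
    Impl (q + 1) A :=
  ⟨1, fun _ => none, A, qi_orth_one, h, fun x => by simp [qi_phase_none]⟩

theorem Impl.mono {q q' : ℕ} {A : (ι → Bool) → Matrix W W ℝ} (h : Impl q A) (hq : q ≤ q') :
    Impl q' A := by
  induction hq with
  | refl => exact h
  | step _ ih => exact ih.qi_succ

theorem Impl.qi_const_mul {q : ℕ} {U : Matrix W W ℝ} (hU : Orth U)
    {B : (ι → Bool) → Matrix W W ℝ} (hB : Impl q B) : Impl q fun x => U * B x := by
  cases q with
  | zero =>
    obtain ⟨V, hV, hB⟩ := hB
    exact ⟨U * V, hU.qi_mul hV, fun x => by simp only [hB x]⟩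
  | succ q =>
    obtain ⟨V, idx, C, hV, hC, hB⟩ := hB
    exact ⟨U * V, idx, C, hU.qi_mul hV, hC, fun x => by
      simp only [hB x, Matrix.mul_assoc]⟩

theorem Impl.mul {q q' : ℕ} {A B : (ι → Bool) → Matrix W W ℝ} (hA : Impl q A) (hB : Impl q' B) :
    Impl (q + q') fun x => A x * B x := by
  induction q generalizing A with
  | zero =>
    obtain ⟨U, hU, hA⟩ := hA
    have : (fun x => A x * B x) = fun x => U * B x := by
      funext x; rw [hA x]
    rw [this, Nat.zero_add]
    exact hB.qi_const_mul hU
  | succ q ih =>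
    obtain ⟨U, idx, C, hU, hC, hA⟩ := hA
    rw [Nat.add_right_comm]
    exact ⟨U, idx, fun x => C x * B x, hU, ih hC, fun x => by
      simp only [hA x, Matrix.mul_assoc]⟩

theorem Impl.transpose {q : ℕ} {A : (ι → Bool) → Matrix W W ℝ} (hA : Impl q A) :
    Impl q fun x => (A x).transpose := by
  induction q generalizing A with
  | zero =>
    obtain ⟨U, hU, hA⟩ := hA
    exact ⟨U.transpose, hU.qi_transpose, fun x => by simp only [hA x]⟩
  | succ q ih =>
    obtain ⟨U, idx, C, hU, hC, hA⟩ := hA
    have h1 : Impl (1 + 0) fun x => phase idx x * U.transpose :=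
      (Impl.of_phase idx).mul (Impl.const hU.qi_transpose)
    have h2 := (ih hC).mul h1
    have : (fun x => (A x).transpose) =
        fun x => (C x).transpose * (phase idx x * U.transpose) := by
      funext x
      rw [hA x, Matrix.transpose_mul, Matrix.transpose_mul, qi_phase_transpose]
    rw [this]
    exact h2

theorem Orth.qi_submatrix {W' : Type} [Fintype W'] [DecidableEq W'] {U : Matrix W W ℝ}
    (hU : Orth U) (e : W' ≃ W) : Orth (U.submatrix e e) := by
  unfold Orth at *
  rw [Matrix.transpose_submatrix, Matrix.submatrix_mul_equiv, hU, Matrix.submatrix_one_equiv]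

theorem Impl.submatrix {W' : Type} [Fintype W'] [DecidableEq W'] {q : ℕ}
    {A : (ι → Bool) → Matrix W W ℝ} (hA : Impl q A) (e : W' ≃ W) :
    Impl q fun x => (A x).submatrix e e := by
  induction q generalizing A with
  | zero =>
    obtain ⟨U, hU, hA⟩ := hA
    exact ⟨U.submatrix e e, hU.qi_submatrix e, fun x => by simp only [hA x]⟩
  | succ q ih =>
    obtain ⟨U, idx, C, hU, hC, hA⟩ := hA
    refine ⟨U.submatrix e e, fun w => idx (e w), fun x => (C x).submatrix e e,
      hU.qi_submatrix e, ih hC, fun x => ?_⟩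
    have hp : phase (fun w => idx (e w)) x = (phase idx x).submatrix e e := by
      unfold phase
      rw [Matrix.submatrix_diagonal_equiv]
      rfl
    simp only [hA x, hp, Matrix.submatrix_mul_equiv]

theorem qi_orth_blockDiagonal' {J : Type} [Fintype J] [DecidableEq J] {V : J → Type}
    [∀ j, Fintype (V j)] [∀ j, DecidableEq (V j)] {U : ∀ j, Matrix (V j) (V j) ℝ}
    (hU : ∀ j, Orth (U j)) : Orth (Matrix.blockDiagonal' U) := by
  unfold Orth at *
  rw [Matrix.blockDiagonal'_transpose, ← Matrix.blockDiagonal'_mul]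
  simp only [hU]
  exact Matrix.blockDiagonal'_one

theorem Impl.blockDiagonal' {J : Type} [Fintype J] [DecidableEq J] {V : J → Type}
    [∀ j, Fintype (V j)] [∀ j, DecidableEq (V j)] {q : ℕ}
    {A : ∀ j, (ι → Bool) → Matrix (V j) (V j) ℝ} (hA : ∀ j, Impl q (A j)) :
    Impl q fun x => Matrix.blockDiagonal' fun j => A j x := by
  induction q generalizing A with
  | zero =>
    choose U hU hA using hA
    exact ⟨Matrix.blockDiagonal' U, qi_orth_blockDiagonal' hU, fun x => by simp only [hA]⟩
  | succ q ih =>
    choose U idx C hU hC hA using hA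
    refine ⟨Matrix.blockDiagonal' U, fun s => idx s.1 s.2,
      fun x => Matrix.blockDiagonal' fun j => C j x, qi_orth_blockDiagonal' hU, ih hC,
      fun x => ?_⟩
    have hp : phase (fun s : Σ j, V j => idx s.1 s.2) x =
        Matrix.blockDiagonal' fun j => phase (idx j) x := by
      unfold phase
      rw [Matrix.blockDiagonal'_diagonal]
    rw [hp, ← Matrix.blockDiagonal'_mul, ← Matrix.blockDiagonal'_mul]
    simp only [hA]

/-- Every unit vector is a column of an orthogonal matrix (Householder reflection). -/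
theorem exists_orth_col (u : W → ℝ) (hu : ∑ w, u w ^ 2 = 1) (w₀ : W) :
    ∃ U : Matrix W W ℝ, Orth U ∧ ∀ w, U w w₀ = u w := by
  set v : W → ℝ := Pi.single w₀ 1 - u with hv
  have huu : u ⬝ᵥ u = 1 := by
    rw [← hu]; simp [dotProduct, sq]
  have hvv : v ⬝ᵥ v = 2 * v w₀ := by
    simp only [hv, sub_dotProduct, dotProduct_sub, single_dotProduct, dotProduct_single, huu,
      Pi.sub_apply, Pi.single_eq_same]
    ring
  by_cases h0 : v w₀ = 0
  · have hv0 : v = 0 := by
      rw [h0, mul_zero] at hvv
      exact dotProduct_self_eq_zero.mp hvv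
    refine ⟨1, qi_orth_one, fun w => ?_⟩
    have := congrFun hv0 w
    simp only [hv, Pi.sub_apply, Pi.zero_apply, sub_eq_zero] at this
    rw [← this, Matrix.one_apply, Pi.single_apply]
  · refine ⟨1 - (v w₀)⁻¹ • Matrix.vecMulVec v v, ?_, fun w => ?_⟩
    · unfold Orth
      have hT : (1 - (v w₀)⁻¹ • Matrix.vecMulVec v v).transpose =
          1 - (v w₀)⁻¹ • Matrix.vecMulVec v v := by
        rw [Matrix.transpose_sub, Matrix.transpose_one, Matrix.transpose_smul,
          Matrix.transpose_vecMulVec]
      have hM : Matrix.vecMulVec v v * Matrix.vecMulVec v v =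
          (2 * v w₀) • Matrix.vecMulVec v v := by
        rw [Matrix.vecMulVec_mul_vecMulVec, hvv]
        ext i j
        simp [Matrix.vecMulVec_apply]
        ring
      rw [hT, Matrix.sub_mul, Matrix.one_mul, Matrix.mul_sub, Matrix.mul_one, Matrix.smul_mul,
        Matrix.mul_smul, hM, smul_smul, smul_smul]
      have : (v w₀)⁻¹ * (v w₀)⁻¹ * (2 * v w₀) = (v w₀)⁻¹ + (v w₀)⁻¹ := by
        field_simp; ring
      rw [this, add_smul]
      abel
    · rw [Matrix.sub_apply, Matrix.smul_apply, Matrix.vecMulVec_apply, smul_eq_mul,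
        Matrix.one_apply]
      have h1 : (v w₀)⁻¹ * (v w * v w₀) = v w := by field_simp
      rw [h1, hv, Pi.sub_apply, Pi.single_apply]
      ring

end impl

end Crest.Agent.R350
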