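import Crest.Agent.R350.QFrame

/-!
# Row 350: amplitude amplification, Grover verification and sink finding (abstract form)
-/

set_option autoImplicit false

namespace Crest.Agent.R350

open Finset

variable {ι : Type}

/-- One amplification step on the success probability. -/
def upF (p : ℝ) : ℝ := p * (3 - 4 * p) ^ 2

lemma up_iter_bound {p : ℝ} (hp : 0 ≤ p) (s : ℕ) (hs : 9 ^ s * p ≤ 1) :
    9 ^ s * p - (9 ^ s * p) ^ 2 / 3 ≤ upF^[s] p ∧ upF^[s] p ≤ 9 ^ s * p := by
  induction s with
  | zero => simp only [pow_zero, one_mul, Function.iterate_zero, id]; constructor <;> nlinarith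
  | succ s ih =>
    have e : (9 : ℝ) ^ (s + 1) * p = 9 * (9 ^ s * p) := by ring
    rw [e] at hs ⊢
    have hy : 0 ≤ (9 : ℝ) ^ s * p := by positivity
    obtain ⟨h1, h2⟩ := ih (by linarith)
    rw [Function.iterate_succ_apply']
    generalize (9 : ℝ) ^ s * p = y at *
    generalize upF^[s] p = z at *
    have hz : 0 ≤ z := by nlinarith
    unfold upF
    constructor
    · nlinarith [mul_nonneg hz (mul_nonneg hz hz), mul_self_le_mul_self hz h2]
    · nlinarith [mul_nonneg hz hz]

lemma up_iter_nonneg {p : ℝ} (hp : 0 ≤ p) (s : ℕ) : 0 ≤ upF^[s] p := by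
  induction s with
  | zero => simpa
  | succ s ih => rw [Function.iterate_succ_apply']; unfold upF; positivity

lemma up_exists_good {p : ℝ} {M : ℕ} (hM : 1 ≤ M) (hp : (1 : ℝ) / M ≤ p) (hp1 : p ≤ 1) :
    ∃ s ≤ Nat.clog 9 M, 1 / 14 ≤ upF^[s] p := by
  classical
  have hM' : (0 : ℝ) < M := by exact_mod_cast hM
  have hp0 : 0 ≤ p := le_trans (by positivity) hp
  have hS : (1 : ℝ) / 9 ≤ 9 ^ Nat.clog 9 M * p := by
    have h1 : (M : ℝ) ≤ 9 ^ Nat.clog 9 M := by exact_mod_cast Nat.le_pow_clog (by norm_num) M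
    have h2 : 1 ≤ M * p := by rwa [div_le_iff₀' hM'] at hp
    nlinarith
  have hex : ∃ s, (1 : ℝ) / 9 ≤ 9 ^ s * p := ⟨_, hS⟩
  refine ⟨Nat.find hex, Nat.find_min' hex hS, ?_⟩
  have h1 := Nat.find_spec hex
  have h2 : (9 : ℝ) ^ Nat.find hex * p ≤ 1 := by
    rcases h : Nat.find hex with _ | s
    · simpa using hp1
    · have := Nat.find_min hex (m := s) (by omega)
      rw [not_le] at this
      rw [pow_succ]; nlinarith
  have h3 := (up_iter_bound hp0 _ h2).1
  nlinarith

lemma up_amp_iter {Ω : Type} [Fintype Ω] {q : ℕ} {μ : (ι → Bool) → Ω → ℝ} (h : Samp q μ)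
    (G : Ω → Prop) [DecidablePred G] (s : ℕ) :
    ∃ (μ' : (ι → Bool) → Ω → ℝ) (lam : (ι → Bool) → ℝ), Samp (3 ^ s * q) μ' ∧
      ∀ x, 0 ≤ lam x ∧ (∀ ω, G ω → μ' x ω = lam x * μ x ω) ∧
        (lam x * ∑ ω, if G ω then μ x ω else 0) = upF^[s] (∑ ω, if G ω then μ x ω else 0) := by
  induction s with
  | zero => exact ⟨μ, fun _ => 1, by simpa using h, fun x => by simp⟩
  | succ s ih =>
    obtain ⟨ν, lam, hν, H⟩ := ih
    have e : ∀ x, (∑ ω, if G ω then ν x ω else 0) = lam x * ∑ ω, if G ω then μ x ω else 0 := by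
      intro x
      rw [Finset.mul_sum]
      refine Finset.sum_congr rfl fun ω _ => ?_
      split_ifs with hω
      · exact (H x).2.1 ω hω
      · simp
    refine ⟨_, fun x => lam x * (3 - 4 * ∑ ω, if G ω then ν x ω else 0) ^ 2,
      (hν.amp1 G).mono (le_of_eq (by ring)), fun x => ⟨?_, fun ω hω => ?_, ?_⟩⟩
    · exact mul_nonneg (H x).1 (sq_nonneg _)
    · simp only [if_pos hω, (H x).2.1 ω hω]; ring
    · beta_reduce
      rw [Function.iterate_succ_apply', ← (H x).2.2, e, upF]; ring

lemma up_unif_prob (C : Type) [Fintype C] [Nonempty C] :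
    IsProb fun _ : C => (1 : ℝ) / Fintype.card C := by
  have : (0 : ℝ) < Fintype.card C := by exact_mod_cast Fintype.card_pos
  refine ⟨fun _ => by positivity, ?_⟩
  simp only [Finset.sum_const, Finset.card_univ, nsmul_eq_mul]
  field_simp

lemma up_sum_le_one {Ω : Type} [Fintype Ω] {π : Ω → ℝ} (h : IsProb π) (G : Ω → Prop)
    [DecidablePred G] : (∑ ω, if G ω then π ω else 0) ≤ 1 := by
  rw [← h.2]
  refine Finset.sum_le_sum fun ω _ => ?_
  split_ifs
  exacts [le_rfl, h.1 ω]

lemma up_sum_nonneg {Ω : Type} [Fintype Ω] {π : Ω → ℝ} (h : IsProb π) (G : Ω → Prop)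
    [DecidablePred G] : 0 ≤ ∑ ω, if G ω then π ω else 0 := by
  refine Finset.sum_nonneg fun ω _ => ?_
  split_ifs
  exacts [h.1 ω, le_rfl]

/-- Amplitude amplification with unknown success probability `p ≥ 1 / M`: a uniformly random
number `s ≤ clog 9 M` of nested triplings. -/
theorem Samp.amp {Ω : Type} [Fintype Ω] {q : ℕ} {μ : (ι → Bool) → Ω → ℝ} (h : Samp q μ)
    (G : Ω → Prop) [DecidablePred G] (M : ℕ) (hM : 1 ≤ M) :
    ∃ (μ' : (ι → Bool) → Ω → ℝ) (lam : (ι → Bool) → ℝ), Samp (3 ^ Nat.clog 9 M * q) μ' ∧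
      ∀ x, 0 ≤ lam x ∧ (∀ ω, G ω → μ' x ω = lam x * μ x ω) ∧
        ((1 : ℝ) / M ≤ (∑ ω, if G ω then μ x ω else 0) →
          (1 : ℝ) / (14 * (Nat.clog 9 M + 1)) ≤ lam x * ∑ ω, if G ω then μ x ω else 0) := by
  choose ν lam hν H using fun s => up_amp_iter h G s
  set S := Nat.clog 9 M with hS
  have hb := (Samp.const (ι := ι) (up_unif_prob (Fin (S + 1)))).bind
    (ν := fun s : Fin (S + 1) => ν s) (q' := 3 ^ S * q) fun s =>
      (hν s).mono (Nat.mul_le_mul_right _ (Nat.pow_le_pow_right (by norm_num) (by omega)))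
  refine ⟨_, fun x => ∑ s : Fin (S + 1), (1 : ℝ) / Fintype.card (Fin (S + 1)) * lam s x,
    hb.mono (by omega), fun x => ⟨?_, fun ω hω => ?_, fun hp => ?_⟩⟩
  · exact Finset.sum_nonneg fun s _ => mul_nonneg (by positivity) (H s x).1
  · rw [Finset.sum_mul]
    exact Finset.sum_congr rfl fun s _ => by rw [(H s x).2.1 ω hω, mul_assoc]
  · obtain ⟨s, hs, hs'⟩ := up_exists_good hM hp (up_sum_le_one (h.isProb x) G)
    have h0 := up_sum_nonneg (h.isProb x) G
    rw [Finset.sum_mul]
    simp only [mul_assoc, (H _ x).2.2]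
    refine le_trans ?_ (Finset.single_le_sum (f := fun s : Fin (S + 1) =>
      (1 : ℝ) / Fintype.card (Fin (S + 1)) * upF^[s] (∑ ω, if G ω then μ x ω else 0))
      (fun s _ => mul_nonneg (by positivity) (up_iter_nonneg h0 _))
      (Finset.mem_univ (⟨s, by omega⟩ : Fin (S + 1))))
    simp only [Fintype.card_fin, Nat.cast_add, Nat.cast_one]
    calc (1 : ℝ) / (14 * (S + 1)) = 1 / (S + 1) * (1 / 14) := by field_simp
      _ ≤ _ := by gcongr

/-- The point mass at a Boolean value. -/
noncomputable def upPt (b : Bool) : Bool → ℝ := fun r => if r = b then 1 else 0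

lemma up_pt_prob (b : Bool) : IsProb (upPt b) := by
  refine ⟨fun r => ?_, ?_⟩
  · unfold upPt; split_ifs <;> norm_num
  · cases b <;> simp [upPt]

lemma up_bool {π : Bool → ℝ} (h : IsProb π) : π true + π false = 1 := by
  simpa using h.2

lemma up_repeat {q : ℕ} {μ : (ι → Bool) → Bool → ℝ} (h : Samp q μ) (m : ℕ) :
    ∃ ρ : (ι → Bool) → Bool → ℝ, Samp (m * q) ρ ∧ ∀ x, ρ x true = μ x true ^ m := by
  induction m with
  | zero => exact ⟨_, (Samp.const (up_pt_prob true)).mono (by omega), fun x => by simp [upPt]⟩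
  | succ m ih =>
    obtain ⟨ρ, hρ, H⟩ := ih
    have hb := h.bind (ν := fun b => if b then ρ else fun _ => upPt false) (q' := m * q) (by
      intro b
      cases b
      · exact (Samp.const (up_pt_prob false)).mono (by omega)
      · exact hρ)
    refine ⟨_, hb.mono (le_of_eq (by ring)), fun x => ?_⟩
    simp [upPt, H, pow_succ']

lemma up_pow_le_half {g : ℕ} (hg : 1 ≤ g) : (1 - (1 : ℝ) / g) ^ g ≤ 1 / 2 := by
  have h1 : (1 - (1 : ℝ) / g) ^ g ≤ Real.exp (-1) :=
    Real.one_sub_div_pow_le_exp_neg (by exact_mod_cast hg)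
  refine h1.trans ?_
  rw [Real.exp_neg, ← one_div]
  refine one_div_le_one_div_of_le (by norm_num) ?_
  linarith [Real.add_one_le_exp (1 : ℝ)]

/-- Grover search for a failing check, with one-sided error. -/
theorem verify {C : Type} [Fintype C] [Nonempty C] {q : ℕ} (ok : (ι → Bool) → C → Bool)
    (h : ∀ c, Det q fun x => ok x c) (r : ℕ) :
    ∃ ρ : (ι → Bool) → Bool → ℝ,
      Samp (r * (14 * (Nat.clog 9 (Fintype.card C) + 1)) * (3 ^ Nat.clog 9 (Fintype.card C) * q)) ρ ∧
      ∀ x, ((∀ c, ok x c = true) → ρ x true = 1) ∧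
        ((∃ c, ok x c = false) → ρ x true ≤ (1 / 2) ^ r) := by
  have hC : 1 ≤ Fintype.card C := Fintype.card_pos
  have h0 := (Samp.const (ι := ι) (up_unif_prob C)).bind fun c => (h c).samp
  obtain ⟨μ', lam, hμ', H⟩ := h0.amp (fun b => b = false) (Fintype.card C) hC
  rw [zero_add] at hμ'
  obtain ⟨ρ, hρ, hρ'⟩ := up_repeat hμ' (r * (14 * (Nat.clog 9 (Fintype.card C) + 1)))
  refine ⟨ρ, hρ, fun x => ⟨fun hx => ?_, fun ⟨c, hc⟩ => ?_⟩⟩
  · have h1 := (H x).2.1 false rfl
    have h2 := up_bool (hμ'.isProb x)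
    simp only [hx, Bool.true_eq_false, if_false, mul_zero, Finset.sum_const_zero] at h1
    rw [hρ', show μ' x true = 1 by linarith, one_pow]
  · have h1 := (H x).2.1 false rfl
    have h2 := up_bool (hμ'.isProb x)
    have h3 := (H x).2.2
    simp only [Fintype.univ_bool, Finset.mem_singleton, Bool.true_eq_false, not_false_eq_true,
      Finset.sum_insert, if_false, Finset.sum_singleton, if_true, zero_add] at h3
    have h4 := h3 (by
      refine le_trans ?_ (Finset.single_le_sum
        (f := fun c : C => (1 : ℝ) / Fintype.card C * if ok x c = false then 1 else 0)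
        (fun c _ => mul_nonneg (by positivity) (by split_ifs <;> norm_num)) (Finset.mem_univ c))
      simp [hc])
    rw [← h1] at h4
    have h5 : μ' x true ≤ 1 - 1 / ((14 * (Nat.clog 9 (Fintype.card C) + 1) : ℕ) : ℝ) := by
      push_cast; linarith
    rw [hρ', mul_comm r, pow_mul]
    refine pow_le_pow_left₀ (pow_nonneg ((hμ'.isProb x).1 _) _) ?_ r
    exact (pow_le_pow_left₀ ((hμ'.isProb x).1 _) h5 _).trans (up_pow_le_half (by omega))

lemma up_det_all {V : Type} {q₁ : ℕ} (bt : (ι → Bool) → V → V → Bool)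
    (hbt : ∀ u v, Det q₁ fun x => bt x u v) (u : V) (L : List V) :
    Det (L.length * q₁) fun x => L.all (bt x u) := by
  induction L with
  | nil => simpa using Det.const (ι := ι) true
  | cons a L ih =>
    have := (hbt u a).bind (g' := fun b x => b && L.all (bt x u)) (q' := L.length * q₁) (by
      intro b
      cases b
      · simpa using (Det.const (ι := ι) false).mono (Nat.zero_le _)
      · simpa using ih)
    simp only [List.all_cons, List.length_cons]
    exact this.mono (le_of_eq (by ring))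

lemma up_tournament {V : Type} [Fintype V] (a : V → ℝ) (ha : ∀ u, 0 ≤ a u) (b : V → V → Bool)
    (anti : ∀ u v, b u v = true → b v u = false) :
    (∑ u, a u * ∑ u', if b u' u then a u' else 0) ≤ (∑ u, a u) ^ 2 / 2 := by
  have e1 : (∑ u, a u * ∑ u', if b u' u then a u' else 0) =
      ∑ u, ∑ u', a u * a u' * if b u' u then 1 else 0 := by
    refine Finset.sum_congr rfl fun u _ => ?_
    rw [Finset.mul_sum]
    refine Finset.sum_congr rfl fun u' _ => ?_
    split_ifs <;> ring
  have e2 : (∑ u, ∑ u', a u * a u' * if b u' u then 1 else 0) =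
      ∑ u, ∑ u', a u * a u' * if b u u' then 1 else 0 := by
    rw [Finset.sum_comm]
    exact Finset.sum_congr rfl fun u _ => Finset.sum_congr rfl fun u' _ => by rw [mul_comm (a u')]
  have e3 : (∑ u, ∑ u', a u * a u' * if b u' u then 1 else 0) +
      (∑ u, ∑ u', a u * a u' * if b u u' then 1 else 0) ≤ (∑ u, a u) ^ 2 := by
    rw [sq, Finset.sum_mul_sum, ← Finset.sum_add_distrib]
    refine Finset.sum_le_sum fun u _ => ?_
    rw [← Finset.sum_add_distrib]
    refine Finset.sum_le_sum fun u' _ => ?_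
    have := mul_nonneg (ha u) (ha u')
    by_cases h1 : b u u' = true
    · simp [h1, anti u u' h1]
    · by_cases h2 : b u' u = true <;> simp [h1, h2, this]
  rw [e1]; linarith

lemma up_sink_aux {V : Type} [Fintype V] [DecidableEq V] {q₀ q₁ q₂ : ℕ} {μ : (ι → Bool) → V → ℝ}
    (hμ : Samp q₀ μ) (bt : (ι → Bool) → V → V → Bool) (hbt : ∀ u v, Det q₁ fun x => bt x u v)
    (anti : ∀ x u v, bt x u v = true → bt x v u = false)
    (valid : (ι → Bool) → V → Prop) (ρ : V → (ι → Bool) → Bool → ℝ) (hρ : ∀ v, Samp q₂ (ρ v))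
    (ε η : ℝ) (hε : 0 ≤ ε) (hη : 0 ≤ η)
    (hv : ∀ x v, valid x v → ρ v x true = 1) (hnv : ∀ x v, ¬ valid x v → ρ v x true ≤ ε)
    (M : ℕ) (hM : 1 ≤ M)
    (hw : ∀ x v, valid x v → (1 : ℝ) / M ≤ μ x v ∧
      (∑ u, if u ≠ v ∧ bt x v u = false then μ x u else 0) ≤ η / M)
    (t t' : ℕ) : ∀ L : List V, L.length + t' ≤ t →
    ∃ σ : (ι → Bool) → Bool → ℝ, Samp (t' * (3 ^ Nat.clog 9 M * (q₀ + t * q₁) + q₂)) σ ∧
      ∀ x, ((∀ v, ¬ valid x v) → σ x true ≤ t' * ε) ∧
        (∀ v, valid x v → L.all (bt x v) = true →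
          σ x false ≤ (1 - (1 : ℝ) / (28 * (Nat.clog 9 M + 1))) ^ t' *
            ((∑ u, if L.all (bt x u) then μ x u else 0) * M) + t' * η) := by
  have hM' : (0 : ℝ) < M := by exact_mod_cast hM
  have hwL : ∀ (L : List V) x v, valid x v → L.all (bt x v) = true →
      (1 : ℝ) / M ≤ ∑ u, if L.all (bt x u) then μ x u else 0 := by
    intro L x v h1 h2
    refine (hw x v h1).1.trans (le_trans ?_ (Finset.single_le_sum
      (f := fun u => if L.all (bt x u) then μ x u else 0) (fun u _ => ?_) (Finset.mem_univ v)))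
    · simp only [h2, if_true, le_refl]
    · split_ifs
      exacts [(hμ.isProb x).1 u, le_rfl]
  induction t' with
  | zero =>
    intro L _
    refine ⟨_, (Samp.const (up_pt_prob false)).mono (by omega), fun x => ⟨fun _ => ?_, ?_⟩⟩
    · simp [upPt]
    · intro v h1 h2
      have := hwL L x v h1 h2
      rw [div_le_iff₀ hM'] at this
      simpa [upPt] using this
  | succ t' ih =>
    intro L hL
    set cost := 3 ^ Nat.clog 9 M * (q₀ + t * q₁) + q₂ with hcost
    set β : ℝ := 1 - (1 : ℝ) / (28 * (Nat.clog 9 M + 1)) with hβ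
    have hβ0 : 0 ≤ β := by
      rw [hβ, sub_nonneg, div_le_one (by positivity)]
      have : (0 : ℝ) ≤ Nat.clog 9 M := Nat.cast_nonneg _
      linarith
    obtain ⟨σ₀, hσ₀, H₀⟩ := ih L (by omega)
    choose σ₁ hσ₁ H₁ using fun u : V => ih (u :: L) (by simp only [List.length_cons]; omega)
    have hdet : ∀ u : V, Det (t * q₁) fun x => (u, L.all (bt x u)) := fun u =>
      ((up_det_all bt hbt u L).bind (g' := fun b _ => (u, b)) fun b => Det.const _).mono
        (by rw [add_zero]; exact Nat.mul_le_mul_right _ (by omega))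
    have hν := hμ.bind fun u => (hdet u).samp
    obtain ⟨ν, lam, hν', H⟩ := hν.amp (fun p => p.2 = true) M hM
    have hν1 : ∀ x u, (∑ u', μ x u' * if (u', L.all (bt x u')) = (u, true) then 1 else 0) =
        if L.all (bt x u) then μ x u else 0 := by
      intro x u
      rw [Finset.sum_eq_single u]
      · simp
      · intro u' _ hu'; simp [hu']
      · simp
    have hp : ∀ x, (∑ p : V × Bool, if p.2 = true then
        (∑ u', μ x u' * if (u', L.all (bt x u')) = p then 1 else 0) else 0) =
        ∑ u, if L.all (bt x u) then μ x u else 0 := by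
      intro x
      rw [Fintype.sum_prod_type]
      refine Finset.sum_congr rfl fun u _ => ?_
      rw [Fintype.sum_bool, if_pos rfl, if_neg (by simp), add_zero, hν1]
    let κ : V × Bool → (ι → Bool) → Bool → ℝ := fun p =>
      if p.2 then fun x r => ∑ b, ρ p.1 x b * (if b then fun _ => upPt true else σ₁ p.1) x r
      else σ₀
    have hκ : ∀ p, Samp (q₂ + t' * cost) (κ p) := by
      rintro ⟨u, b⟩
      cases b
      · exact hσ₀.mono (by omega)
      · refine (hρ u).bind (ν := fun b => if b then fun _ => upPt true else σ₁ u) fun b => ?_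
        cases b
        · exact hσ₁ u
        · exact (Samp.const (up_pt_prob true)).mono (by omega)
    refine ⟨_, (hν'.bind hκ).mono (le_of_eq (by rw [hcost]; ring)), fun x => ⟨fun hx => ?_, ?_⟩⟩
    · have hb : ∀ p, κ p x true ≤ (t' + 1 : ℕ) * ε := by
        rintro ⟨u, b⟩
        cases b
        · refine ((H₀ x).1 hx).trans ?_
          push_cast; nlinarith
        · have h1 := hnv x u (hx u)
          have h2 := (H₁ u x).1 hx
          have h3 := up_bool ((hρ u).isProb x)
          have h4 := ((hρ u).isProb x).1 true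
          have h5 := ((hρ u).isProb x).1 false
          have h6 := ((hσ₁ u).isProb x).1 true
          simp only [κ, if_true, Fintype.sum_bool, upPt, Bool.false_eq_true, if_false, mul_one]
          push_cast
          nlinarith
      calc (∑ p, ν x p * κ p x true) ≤ ∑ p, ν x p * ((t' + 1 : ℕ) * ε) :=
            Finset.sum_le_sum fun p _ => mul_le_mul_of_nonneg_left (hb p) ((hν'.isProb x).1 p)
        _ = _ := by rw [← Finset.sum_mul, (hν'.isProb x).2, one_mul]
    · intro v hv1 hv2
      obtain ⟨hl0, hl1, hl2⟩ := H x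
      rw [hp] at hl2
      have hs1 := hl2 (hwL L x v hv1 hv2)
      have hwM := hwL L x v hv1 hv2
      set a : V → ℝ := fun u => if L.all (bt x u) then μ x u else 0 with ha
      set w : ℝ := ∑ u, a u with hwdef
      have ha0 : ∀ u, 0 ≤ a u := fun u => by
        simp only [ha]; split_ifs
        exacts [(hμ.isProb x).1 u, le_rfl]
      have haμ : ∀ u, a u ≤ μ x u := fun u => by
        simp only [ha]; split_ifs
        exacts [le_rfl, (hμ.isProb x).1 u]
      have hνt : ∀ u, ν x (u, true) = lam x * a u := fun u => by rw [hl1 _ rfl, hν1]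
      have hνf : ∑ u, ν x (u, false) = 1 - lam x * w := by
        have := (hν'.isProb x).2
        rw [Fintype.sum_prod_type] at this
        simp only [Fintype.sum_bool, Finset.sum_add_distrib, hνt, ← Finset.mul_sum] at this
        linarith
      have hs2 : lam x * w ≤ 1 := by
        have : 0 ≤ ∑ u, ν x (u, false) := Finset.sum_nonneg fun u _ => (hν'.isProb x).1 _
        linarith
      have hB : 0 ≤ β ^ t' * M := by positivity
      have hterm : ∀ u, a u * κ (u, true) x false ≤
          β ^ t' * M * (a u * ∑ u', if bt x u' u then a u' else 0) + a u * (t' * η) +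
            (if u ≠ v ∧ bt x v u = false then μ x u else 0) := by
        intro u
        have h3 := up_bool ((hρ u).isProb x)
        have h4 := ((hρ u).isProb x).1 true
        have h5 := ((hρ u).isProb x).1 false
        have h6 := ((hσ₁ u).isProb x).1 true
        have h7 := ((hσ₁ u).isProb x).1 false
        have h8 := up_bool ((hσ₁ u).isProb x)
        have h9 : 0 ≤ ∑ u', if bt x u' u then a u' else 0 :=
          Finset.sum_nonneg fun u' _ => by split_ifs; exacts [ha0 u', le_rfl]
        have h10 : 0 ≤ β ^ t' * M * (a u * ∑ u', if bt x u' u then a u' else 0) :=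
          mul_nonneg hB (mul_nonneg (ha0 u) h9)
        have h11 : 0 ≤ a u * (t' * η) := mul_nonneg (ha0 u) (by positivity)
        have hk : κ (u, true) x false = ρ u x false * σ₁ u x false := by
          simp [κ, upPt]
        rw [hk]
        split_ifs with hc
        · have : ρ u x false * σ₁ u x false ≤ 1 := by nlinarith
          nlinarith [ha0 u, haμ u]
        · by_cases huv : u = v
          · subst huv
            have : ρ u x false = 0 := by linarith [hv x u hv1]
            rw [this]; linarith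
          · have hb : bt x v u = true := by
              by_contra hb
              exact hc ⟨huv, by simpa using hb⟩
            have h12 := (H₁ u x).2 v hv1 (by simp only [List.all_cons, hb, hv2, Bool.and_self])
            have e : (∑ u', if (u :: L).all (bt x u') then μ x u' else 0) =
                ∑ u', if bt x u' u then a u' else 0 := by
              refine Finset.sum_congr rfl fun u' _ => ?_
              simp only [List.all_cons, ha]
              by_cases c1 : bt x u' u = true <;> by_cases c2 : L.all (bt x u') = true <;>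
                simp [c1, c2]
            rw [e] at h12
            have h13 : ρ u x false * σ₁ u x false ≤ σ₁ u x false := by nlinarith
            have h14 := mul_le_mul_of_nonneg_left (h13.trans h12) (ha0 u)
            nlinarith
      have hsum : ∑ u, a u * κ (u, true) x false ≤
          β ^ t' * M * (w ^ 2 / 2) + w * (t' * η) + η / M := by
        refine (Finset.sum_le_sum fun u _ => hterm u).trans ?_
        rw [Finset.sum_add_distrib, Finset.sum_add_distrib, ← Finset.mul_sum, ← Finset.sum_mul]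
        have := up_tournament a ha0 (bt x) (anti x)
        have := (hw x v hv1).2
        gcongr
      have h0 := (H₀ x).2 v hv1 hv2
      have hκf : ∀ u, κ (u, false) x false = σ₀ x false := fun u => by simp [κ]
      have e : (∑ p, ν x p * κ p x false) =
          lam x * (∑ u, a u * κ (u, true) x false) + (1 - lam x * w) * σ₀ x false := by
        rw [Fintype.sum_prod_type]
        simp only [Fintype.sum_bool, Finset.sum_add_distrib, hνt, hκf, ← Finset.sum_mul, hνf,
          mul_assoc, ← Finset.mul_sum]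
      have hw0 : 0 ≤ w := Finset.sum_nonneg fun u _ => ha0 u
      have h1 : lam x * (η / M) ≤ η := by
        calc lam x * (η / M) = lam x * (1 / M) * η := by ring
          _ ≤ lam x * w * η := by gcongr
          _ ≤ 1 * η := by gcongr
          _ = η := one_mul _
      have h2 : 1 - lam x * w / 2 ≤ β := by
        have : (1 : ℝ) / (28 * (Nat.clog 9 M + 1)) = 1 / (14 * (Nat.clog 9 M + 1)) / 2 := by
          field_simp; norm_num
        rw [hβ, this]; linarith
      have h3 : (1 - lam x * w / 2) * (β ^ t' * M * w) ≤ β * (β ^ t' * M * w) :=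
        mul_le_mul_of_nonneg_right h2 (mul_nonneg hB hw0)
      have h4 := mul_le_mul_of_nonneg_left hsum hl0
      have h5 := mul_le_mul_of_nonneg_left h0 (sub_nonneg.2 hs2)
      change (∑ p, ν x p * κ p x false) ≤ β ^ (t' + 1) * (w * M) + (t' + 1 : ℕ) * η
      rw [e, pow_succ]
      push_cast
      nlinarith

/-- Finding a valid vertex that beats (almost) everybody in an oriented graph. -/
theorem sink {V : Type} [Fintype V] [DecidableEq V] {q₀ q₁ q₂ : ℕ} {μ : (ι → Bool) → V → ℝ}
    (hμ : Samp q₀ μ) (bt : (ι → Bool) → V → V → Bool) (hbt : ∀ u v, Det q₁ fun x => bt x u v)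
    (anti : ∀ x u v, bt x u v = true → bt x v u = false)
    (valid : (ι → Bool) → V → Prop) (ρ : V → (ι → Bool) → Bool → ℝ) (hρ : ∀ v, Samp q₂ (ρ v))
    (ε η : ℝ) (hε : 0 ≤ ε) (hη : 0 ≤ η)
    (hv : ∀ x v, valid x v → ρ v x true = 1) (hnv : ∀ x v, ¬ valid x v → ρ v x true ≤ ε)
    (M : ℕ) (hM : 1 ≤ M)
    (hw : ∀ x v, valid x v → (1 : ℝ) / M ≤ μ x v ∧
      (∑ u, if u ≠ v ∧ bt x v u = false then μ x u else 0) ≤ η / M)
    (t : ℕ) :
    ∃ σ : (ι → Bool) → Bool → ℝ, Samp (t * (3 ^ Nat.clog 9 M * (q₀ + t * q₁) + q₂)) σ ∧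
      ∀ x, ((∀ v, ¬ valid x v) → σ x true ≤ t * ε) ∧
        ((∃ v, valid x v) →
          σ x false ≤ (1 - (1 : ℝ) / (28 * (Nat.clog 9 M + 1))) ^ t * M + t * η) := by
  obtain ⟨σ, hσ, H⟩ := up_sink_aux hμ bt hbt anti valid ρ hρ ε η hε hη hv hnv M hM hw t t []
    (by simp)
  refine ⟨σ, hσ, fun x => ⟨(H x).1, fun ⟨v, hv1⟩ => ((H x).2 v hv1 rfl).trans ?_⟩⟩
  simp [(hμ.isProb x).2]

end Crest.Agent.R350
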